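import Vale.Agent.P134G.Spec

/-!
# P134G, row BR2: the scaled stability inequality
-/

open MeasureTheory Metric Set Filter Topology
open scoped ContDiff RealInnerProductSpace Gradient

noncomputable section

namespace Vale.Agent.P134G

open Vale.Agent.P134L (E)
open Vale.Agent.P134B (Ok Stab Gd ps ff pp SS qq EE)
open Vale.Agent.P366W (inner_grad smooth_gradient)

/-- **BR2** -/
theorem br2 : BR2 := by
  intro cont sz1 scl n C ε l R σ ϑ u ξ z ok st e0 el gd pf c1 hz
  have l0 : 0 < l := e0.trans_le el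
  have hs := (scl n C l u z ok l0).2
  have inv : ∀ x : E n, l • (z + l⁻¹ • x - z) = x := fun x => by
    rw [add_sub_cancel_left, smul_smul, mul_inv_cancel₀ l0.ne', one_smul]
  have gr : ∀ w : E n, ∇ (fun w => ξ (l • (w - z))) w = l • ∇ ξ (l • (w - z)) := fun w =>
    ext_inner_right ℝ fun v => by
      have d : HasFDerivAt (fun w => ξ (l • (w - z))) _ w :=
        HasFDerivAt.comp w (g := ξ) (c1.differentiable one_ne_zero _).hasFDerivAt
          (((hasFDerivAt_id w).sub_const z).const_smul l)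
      rw [inner_smul_left, inner_grad, inner_grad, d.fderiv]
      simp
  have key := sz1 cont n C σ ϑ u (fun w => ξ (l • (w - z))) ok st pf
    (c1.comp ((contDiff_id.sub contDiff_const).const_smul l))
    (HasCompactSupport.intro (isCompact_closedBall z (R / l)) fun w hw => hz _ (by
      rw [mem_closedBall_iff_norm, not_le, div_lt_iff₀' l0] at hw
      rw [norm_smul, Real.norm_of_nonneg l0.le]
      exact hw.le))
  rw [← integral_add_left_eq_self _ z] at key
  have key2 := mul_nonneg (abs_nonneg ((l⁻¹ ^ Module.finrank ℝ (E n))⁻¹)) key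
  rw [← smul_eq_mul, ← Measure.integral_comp_smul] at key2
  obtain ⟨D, hD⟩ : ∃ D : E n → ℝ, D = fun x =>
      5 * σ * ff u (z + l⁻¹ • x) * (l ^ 2 - EE u (z + l⁻¹ • x)) * ξ x ^ 2 := ⟨_, rfl⟩
  have D0 : ∀ x, 0 ≤ D x := fun x => by
    by_cases hx : R ≤ ‖x‖
    · simp [hD, hz x hx]
    have k : EE u (z + l⁻¹ • x) ≤ ε ^ 2 := gd _ (by
      rw [mem_ball_iff_norm, add_sub_cancel_left, norm_smul, norm_inv, Real.norm_of_nonneg l0.le,
        inv_mul_eq_div]
      calc _ ≤ ‖x‖ / ε := by gcongr
        _ < _ := by gcongr; linarith)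
    have f0 : 0 < ff u (z + l⁻¹ • x) := lt_of_lt_of_le (by positivity) (ok.flo _)
    have k2 : 0 ≤ l ^ 2 - EE u (z + l⁻¹ • x) := by nlinarith
    have := pf.s0
    rw [hD]
    positivity
  have iD : Integrable D := by
    refine Continuous.integrable_of_hasCompactSupport ?_
      (HasCompactSupport.intro (isCompact_closedBall 0 R) fun x hx => ?_)
    · have a1 := ok.sm.continuous
      have a2 : Continuous (pp u) := (smooth_gradient ok.smp).continuous
      have a3 := c1.continuous
      rw [hD]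
      unfold EE ff qq
      fun_prop
    · simp [hD, hz x (not_le.1 (mt mem_closedBall_zero_iff.2 hx)).le]
  by_cases hi : Integrable (sz l σ ϑ (sc u z l) ξ)
  swap
  · rw [integral_undef hi]
  have e : ∀ x, ff u (z + l⁻¹ • x) ^ 2 * (ϑ ‖pp u (z + l⁻¹ • x)‖ ^ 2 *
      ‖∇ (fun w => ξ (l • (w - z))) (z + l⁻¹ • x)‖ ^ 2 -
      wa ϑ (ps u) (z + l⁻¹ • x) * ξ (l • (z + l⁻¹ • x - z)) ^ 2) +
      5 * σ * ff u (z + l⁻¹ • x) * EE u (z + l⁻¹ • x) * ξ (l • (z + l⁻¹ • x - z)) ^ 2 =
      l ^ 2 * sz l σ ϑ (sc u z l) ξ x - D x := fun x => by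
    rw [gr, inv, hD, sz, wa, wa, (hs x).f, (hs x).g, (hs x).a, norm_smul,
      Real.norm_of_nonneg l0.le, show ∇ (ps u) = pp u from rfl]
    field_simp
    ring
  simp only [e] at key2
  rw [integral_sub (hi.const_mul _) iD, integral_const_mul] at key2
  have k : 0 ≤ ∫ x, D x := integral_nonneg D0
  exact nonneg_of_mul_nonneg_right (a := l ^ 2) (by linarith) (by positivity)

end Vale.Agent.P134G
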