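import Vale.Agent.P134G.Defs

/-!
# P134G: integrals over a column
-/

set_option linter.all false

open MeasureTheory Metric Set Filter Topology

noncomputable section

namespace Vale.Agent.P134G

namespace ColA

theorem gp_eq (t : ℝ) : gp t = 1 / (√2 * Real.cosh (t / √2) ^ 2) := by
  have h1 := (Real.cosh_pos (t / √2)).ne'
  rw [gp, gg, Real.tanh_eq_sinh_div_cosh, div_pow, Real.sinh_sq]
  field_simp
  ring

theorem gp_pos (t : ℝ) : 0 < gp t := by
  have := Real.cosh_pos (t / √2)
  rw [gp_eq]; positivity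

theorem gp_cont : Continuous gp := by
  rw [show gp = fun t => 1 / (√2 * Real.cosh (t / √2) ^ 2) from funext gp_eq]
  refine continuous_const.div (by fun_prop) fun t => ?_
  have := Real.cosh_pos (t / √2)
  positivity

theorem gp_le_one (t : ℝ) : gp t ≤ 1 := by
  have h1 : (1 : ℝ) ≤ √2 := Real.one_le_sqrt.2 (by norm_num)
  rw [gp, div_le_one (by positivity)]
  nlinarith [sq_nonneg (gg t)]

theorem gp_le (t : ℝ) : gp t ≤ 3 * Real.exp (-|t|) := by
  have h1 : (4 / 3 : ℝ) ≤ √2 := Real.le_sqrt_of_sq_le (by norm_num)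
  have h2 : √2 ≤ (2 : ℝ) := Real.sqrt_le_iff.2 (by norm_num)
  have h3 : Real.exp (|t| / 2) / 2 ≤ Real.cosh (t / √2) := by
    rw [← Real.cosh_abs, Real.cosh_eq, abs_div, abs_of_pos (show (0 : ℝ) < √2 by positivity)]
    have h4 : Real.exp (|t| / 2) ≤ Real.exp (|t| / √2) := by gcongr
    linarith [Real.exp_pos (-(|t| / √2))]
  have h4 : (Real.exp (|t| / 2) / 2) ^ 2 = Real.exp |t| / 4 := by
    rw [div_pow, ← Real.exp_nat_mul]
    congr 2
    · push_cast; ring
    · norm_num
  have h5 := Real.exp_pos |t|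
  calc gp t ≤ 1 / (4 / 3 * (Real.exp (|t| / 2) / 2) ^ 2) := by
        rw [gp_eq]; gcongr
    _ = _ := by rw [h4, Real.exp_neg]; field_simp

theorem gp_sq_ge {t : ℝ} (ht : |t| ≤ 1) : 1 / 6 ≤ gp t ^ 2 := by
  have h1 := Real.cosh_pos (t / √2)
  have h2 : Real.cosh (t / √2) ^ 4 ≤ 3 := by
    refine (pow_le_pow_left₀ h1.le (Real.cosh_le_exp_half_sq _) 4).trans ?_
    rw [← Real.exp_nat_mul, div_pow, Real.sq_sqrt (by norm_num)]
    refine le_trans (Real.exp_le_exp.2 ?_) (Real.exp_one_lt_d9.le.trans (by norm_num))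
    have := (sq_le_one_iff_abs_le_one t).2 ht
    push_cast
    linarith
  rw [gp_eq, div_pow, mul_pow, Real.sq_sqrt (by norm_num), ← pow_mul, one_pow]
  exact one_div_le_one_div_of_le (by positivity) (by linarith)

theorem sT_ge {T : ℝ} (hT : 1 ≤ T) : 1 / 10 ≤ sT T := by
  have hc := gp_cont.pow 2
  have h1 : ∫ t in (-1 : ℝ)..1, (1 / 6 : ℝ) ≤ ∫ t in (-1 : ℝ)..1, gp t ^ 2 :=
    intervalIntegral.integral_mono_on (by norm_num) intervalIntegrable_const
      (hc.intervalIntegrable _ _) fun t ht => gp_sq_ge (abs_le.2 ht)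
  have h2 : ∫ t in (-1 : ℝ)..1, gp t ^ 2 ≤ sT T :=
    intervalIntegral.integral_mono_interval (by linarith) (by norm_num) hT
      (Eventually.of_forall fun t => sq_nonneg _) (hc.intervalIntegrable _ _)
  norm_num at h1
  linarith

theorem tail {l b : ℝ} (hl : 0 < l) (hb : 0 ≤ b) {B : Set ℝ} (hB : MeasurableSet B)
    (h : ∀ s ∈ B, b < s ∨ s ≤ -b) : ∫ s in B, gp (s / l) ≤ 6 * l * Real.exp (-(b / l)) := by
  have a1 : -l⁻¹ < 0 := neg_lt_zero.2 (inv_pos.2 hl)
  have a2 : 0 < l⁻¹ := inv_pos.2 hl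
  have i1 := (integrableOn_exp_mul_Ioi a1 b).integrable_indicator measurableSet_Ioi
  have i2 := (integrableOn_exp_mul_Iic a2 (-b)).integrable_indicator measurableSet_Iic
  have n1 : ∀ s, 0 ≤ (Ioi b).indicator (fun x => Real.exp (-l⁻¹ * x)) s := fun s =>
    indicator_nonneg (fun _ _ => (Real.exp_pos _).le) s
  have n2 : ∀ s, 0 ≤ (Iic (-b)).indicator (fun x => Real.exp (l⁻¹ * x)) s := fun s =>
    indicator_nonneg (fun _ _ => (Real.exp_pos _).le) s
  calc ∫ s in B, gp (s / l) ≤ ∫ s in B, 3 * ((Ioi b).indicator (fun x => Real.exp (-l⁻¹ * x)) s +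
        (Iic (-b)).indicator (fun x => Real.exp (l⁻¹ * x)) s) := by
        refine integral_mono_of_nonneg (Eventually.of_forall fun s => (gp_pos _).le)
          ((i1.add i2).const_mul 3).integrableOn (ae_restrict_of_forall_mem hB fun s hs => ?_)
        refine (gp_le _).trans (mul_le_mul_of_nonneg_left ?_ (by norm_num))
        rw [abs_div, abs_of_pos hl]
        rcases h s hs with h1 | h1
        · rw [indicator_of_mem (mem_Ioi.2 h1), abs_of_nonneg (hb.trans h1.le),
            show -(s / l) = -l⁻¹ * s by ring]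
          linarith [n2 s]
        · rw [indicator_of_mem (mem_Iic.2 h1), abs_of_nonpos (by linarith),
            show -(-s / l) = l⁻¹ * s by ring]
          linarith [n1 s]
    _ ≤ _ := setIntegral_le_integral ((i1.add i2).const_mul 3)
        (Eventually.of_forall fun s => mul_nonneg (by norm_num) (add_nonneg (n1 s) (n2 s)))
    _ = _ := by
        rw [integral_const_mul, integral_add i1 i2, integral_indicator measurableSet_Ioi,
          integral_indicator measurableSet_Iic, integral_exp_mul_Ioi a1, integral_exp_mul_Iic a2,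
          show -l⁻¹ * b = -(b / l) by ring, show l⁻¹ * -b = -(b / l) by ring]
        field_simp
        ring

variable {l T σ η a : ℝ} {φ φ' : ℝ → ℝ} {I : Set ℝ}

theorem cont (h : Col l T σ η a φ φ' I) : Continuous φ :=
  continuous_iff_continuousAt.2 fun t => (h.dv t).continuousAt

theorem mono (h : Col l T σ η a φ φ' I) : StrictMonoOn φ I :=
  strictMonoOn_of_deriv_pos h.oc.convex (cont h).continuousOn fun t ht => by
    rw [(h.dv t).deriv]
    exact h.s0.trans_le (h.lo t (interior_subset ht))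

theorem int (h : Col l T σ η a φ φ' I) {A : Set ℝ} (hA : A ⊆ I) {f : ℝ → ℝ} (hf : Continuous f) :
    IntegrableOn f A := hf.integrableOn_Icc.mono_set (hA.trans h.bd)

theorem chv (h : Col l T σ η a φ φ' I) {A : Set ℝ} (hA : A ⊆ I) (hm : MeasurableSet A)
    (g : ℝ → ℝ) : ∫ s in φ '' A, g s = ∫ t in A, φ' t * g (φ t) := by
  rw [integral_image_eq_integral_abs_deriv_smul hm (fun t _ => (h.dv t).hasDerivWithinAt)
    ((mono h).injOn.mono hA)]
  refine setIntegral_congr_fun hm fun t ht => ?_
  simp only [smul_eq_mul, abs_of_pos (h.s0.trans_le (h.lo t (hA ht)))]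

theorem bound (h : Col l T σ η a φ φ' I) {A : Set ℝ} (hA : A ⊆ I) (hm : MeasurableSet A)
    {b c : ℝ} (hb : 0 ≤ b) (h1 : ∀ t ∈ A, b < φ t ∨ φ t ≤ -b) (h2 : ∀ t ∈ A, c ≤ φ' t) :
    c * ∫ t in A, gp (φ t / l) ≤ 6 * l * Real.exp (-(b / l)) := by
  have hc : Continuous fun t => gp (φ t / l) := gp_cont.comp ((cont h).div_const l)
  refine le_trans ?_ (tail h.l0 hb (hm.image_of_continuousOn_injOn (cont h).continuousOn
    ((mono h).injOn.mono hA)) (forall_mem_image.2 h1))
  rw [chv h hA hm, ← integral_const_mul]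
  exact setIntegral_mono_on (int h hA (continuous_const.mul hc)) (int h hA (h.ct.mul hc)) hm
    fun t ht => mul_le_mul_of_nonneg_right (h2 t ht) (gp_pos _).le

theorem ends (h : Col l T σ η a φ φ' I) : T * l < φ (2 * T * l) ∧ φ (-(2 * T * l)) < -(T * l) := by
  have h0 : 0 < T * l := mul_pos (by linarith [h.T1]) h.l0
  have h1 := (convex_Icc (-(2 * T * l)) (2 * T * l)).mul_sub_le_image_sub_of_le_deriv
    (C := 4 / 5) (cont h).continuousOn (fun t _ => (h.dv t).differentiableAt.differentiableWithinAt)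
    fun t ht => by
      rw [(h.dv t).deriv]
      linarith [(abs_le.1 (h.co t (abs_le.2 (mem_Icc.1 (interior_subset ht)))).2).1, h.e1, h.a0]
  have h2 := h1 0 ⟨by linarith, by linarith⟩ (2 * T * l) ⟨by linarith, le_rfl⟩ (by linarith)
  have h3 := h1 (-(2 * T * l)) ⟨le_rfl, by linarith⟩ 0 ⟨by linarith, by linarith⟩ (by linarith)
  rw [h.z] at h2 h3
  constructor <;> linarith

theorem core (h : Col l T σ η a φ φ' I) {t : ℝ} (ht : t ∈ I ∩ {t | |φ t| ≤ T * l}) :
    |φ' t - a| ≤ η := by
  have h0 : 0 < T * l := mul_pos (by linarith [h.T1]) h.l0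
  have h1 := abs_le.1 (show |φ t| ≤ T * l from ht.2)
  refine (h.co t (abs_le.2 ⟨not_lt.1 fun h2 => ?_, not_lt.1 fun h2 => ?_⟩)).2
  · have := mono h ht.1 (h.co _ (by rw [abs_neg, abs_of_pos (by linarith)])).1 h2
    linarith [(ends h).2]
  · have := mono h (h.co _ (by rw [abs_of_pos (by linarith)])).1 ht.1 h2
    linarith [(ends h).1]

theorem img (h : Col l T σ η a φ φ' I) :
    φ '' (I ∩ {t | |φ t| ≤ T * l}) = Icc (-(T * l)) (T * l) := by
  have h0 : 0 < T * l := mul_pos (by linarith [h.T1]) h.l0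
  refine Subset.antisymm (forall_mem_image.2 fun t ht => abs_le.1 ht.2) fun s hs => ?_
  obtain ⟨t, h1, rfl⟩ := intermediate_value_Icc (a := -(2 * T * l)) (b := 2 * T * l) (by linarith)
    (cont h).continuousOn (show s ∈ _ from
      ⟨by linarith [(ends h).2, hs.1], by linarith [(ends h).1, hs.2]⟩)
  exact ⟨t, ⟨(h.co t (abs_le.2 h1)).1, abs_le.2 hs⟩, rfl⟩

end ColA

open ColA in
theorem col : COL := by
  refine ⟨fun T => sT_ge, fun l T σ η a φ φ' I h => ?_⟩
  have hl := h.l0
  have h0 : 0 < T * l := mul_pos (by linarith [h.T1]) hl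
  have hI := h.oc.measurableSet
  have m1 : MeasurableSet (I ∩ {t | T * l < |φ t|}) :=
    hI.inter (isOpen_lt continuous_const (cont h).abs).measurableSet
  have m2 : MeasurableSet (I ∩ {t | |φ t| ≤ T * l}) :=
    hI.inter (isClosed_le (cont h).abs continuous_const).measurableSet
  have hc : Continuous fun t => gp (φ t / l) := gp_cont.comp ((cont h).div_const l)
  have b2 : (∫ t in I ∩ {t | |φ t| ≤ T * l}, gp (φ t / l)) ≤ 8 * l := by
    have := bound h inter_subset_left m2 (c := 4 / 5) le_rfl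
      (fun t _ => (lt_or_ge 0 (φ t)).imp id fun h => by simpa using h)
      fun t ht => by linarith [(abs_le.1 (core h ht)).1, h.e1, h.a0]
    rw [zero_div, neg_zero, Real.exp_zero] at this
    linarith
  refine ⟨?_, b2, ?_⟩
  · have := bound h inter_subset_left m1 h0.le
      (fun t ht => (lt_abs.1 ht.2).imp id fun h => by linarith) fun t ht => h.lo t ht.1
    rw [mul_div_cancel_right₀ _ hl.ne'] at this
    rw [le_div_iff₀ h.s0]
    linarith
  · have h1 := chv h inter_subset_left m2 fun s => gp (s / l) ^ 2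
    rw [img h, integral_Icc_eq_integral_Ioc, ← intervalIntegral.integral_of_le (by linarith),
      intervalIntegral.integral_comp_div (f := fun x => gp x ^ 2) hl.ne', neg_div,
      mul_div_cancel_right₀ _ hl.ne', smul_eq_mul] at h1
    have hη : 0 ≤ η := (abs_nonneg _).trans (h.co 0 (by rw [abs_zero]; linarith)).2
    rw [sT, h1, ← integral_const_mul, ← integral_sub
      (int h inter_subset_left (f := fun t => a * gp (φ t / l) ^ 2)
        (continuous_const.mul (hc.pow 2)))
      (int h inter_subset_left (f := fun t => φ' t * gp (φ t / l) ^ 2) (h.ct.mul (hc.pow 2)))]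
    calc _ ≤ ∫ t in I ∩ {t | |φ t| ≤ T * l}, η * gp (φ t / l) := by
          rw [← Real.norm_eq_abs]
          refine norm_integral_le_of_norm_le (int h inter_subset_left (continuous_const.mul hc))
            (ae_restrict_of_forall_mem m2 fun t ht => ?_)
          rw [← sub_mul, Real.norm_eq_abs, abs_mul, abs_sub_comm,
            abs_of_nonneg (sq_nonneg (gp (φ t / l)))]
          exact mul_le_mul (core h ht) (by nlinarith [gp_pos (φ t / l), gp_le_one (φ t / l)])
            (sq_nonneg _) hη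
      _ ≤ η * (8 * l) := by
          rw [integral_const_mul]
          exact mul_le_mul_of_nonneg_left b2 hη
      _ = _ := by ring

end Vale.Agent.P134G
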