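import Vale.Agent.P134G.Tool

/-!
# P134G: the weight of the curvature is continuous
-/

open MeasureTheory Metric Set Filter Topology
open scoped ContDiff RealInnerProductSpace Gradient

noncomputable section

namespace Vale.Agent.P134G

theorem cont : CONT := by
  intro n σ ϑ d h hd
  have g := (P366W.smooth_gradient hd).continuous
  refine continuous_iff_continuousAt.2 fun x => ?_
  rcases lt_or_ge ‖∇ d x‖ σ with k | k
  · refine (continuousAt_const (y := (0 : ℝ))).congr ?_
    filter_upwards [g.norm.continuousAt.eventually (gt_mem_nhds k)] with y hy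
    simp [wa, h.z _ hy.le]
  · have k0 : ∇ d x ≠ 0 := norm_pos_iff.1 (h.s0.trans_le k)
    have c := nu_cda hd k0
    have c0 := c.continuousAt
    have c1 := c.continuousAt_fderiv (by simp)
    refine (((h.c2.continuous.comp g.norm).mul ((h.c2.continuous_deriv one_le_two).comp
      g.norm)).mul g.norm).continuousAt.mul (tendsto_finsetSum _ fun i _ => ?_)
    exact ((c1.clm_apply (continuousAt_const.sub ((((EuclideanSpace.proj i :
      EuclideanSpace ℝ (Fin n) →L[ℝ] ℝ).continuous.continuousAt).comp c0).smul c0))).norm.pow 2 :)

end Vale.Agent.P134G
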