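import Vale.Agent.P134G.Defs

/-!
# P134G, row CORE: the curvature of the level sets in the core (helper1)
-/

set_option linter.all false

open Metric Set Filter Topology
open scoped ContDiff RealInnerProductSpace Gradient

noncomputable section

namespace Vale.Agent.P134G

open Vale.Agent.P134L (E)
open Vale.Agent.P366W

namespace Cor

variable {n : ℕ}

theorem gp_c (A : ℝ) : ∃ c > (0 : ℝ), ∀ t, |t| ≤ A → c ≤ gp t := by
  have e : ∀ t, gp t = (Real.cosh (t / √2) ^ 2)⁻¹ / √2 := fun t => by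
    have := Real.cosh_pos (t / √2)
    rw [gp, gg, Real.tanh_eq_sinh_div_cosh, div_pow, Real.sinh_sq]
    field_simp
    ring
  refine ⟨(Real.cosh (A / √2) ^ 2)⁻¹ / √2, by have := Real.cosh_pos (A / √2); positivity,
    fun t ht => ?_⟩
  have := Real.cosh_pos (t / √2)
  have : Real.cosh (t / √2) ≤ Real.cosh (A / √2) := by
    rw [Real.cosh_le_cosh, abs_div, abs_div]
    exact div_le_div_of_nonneg_right (ht.trans (le_abs_self A)) (abs_nonneg _)
  rw [e]
  gcongr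

/-- normalisation -/
def nz (p : E n) : E n := ‖p‖⁻¹ • p

theorem nz_c {p : E n} (hp : p ≠ 0) : ContDiffAt ℝ 1 nz p :=
  ((contDiffAt_norm ℝ hp).inv (norm_ne_zero_iff.2 hp)).smul contDiffAt_id

/-- the curvature as a function of the gradient and the Hessian -/
def AN (w : E n × (E n →L[ℝ] E n)) : ℝ :=
  ∑ i, ‖fderiv ℝ nz w.1 (w.2 (ee i - nz w.1 i • nz w.1))‖ ^ 2

theorem an_eq {d : E n → ℝ} (hd : ContDiff ℝ ∞ d) {x : E n} (hx : ∇ d x ≠ 0) :
    an d x = AN (∇ d x, Hs d x) := by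
  have := ((nz_c hx).differentiableAt one_ne_zero).hasFDerivAt.comp x
    ((smooth_gradient hd).differentiable (by simp) x).hasFDerivAt
  exact Finset.sum_congr rfl fun i _ => by
    rw [show nu d = nz ∘ ∇ d from rfl, this.fderiv]
    rfl

theorem AN_c {w : E n × (E n →L[ℝ] E n)} (hw : w.1 ≠ 0) : ContinuousAt AN w := by
  have a : ContinuousAt (fun w : E n × (E n →L[ℝ] E n) => nz w.1) w :=
    (nz_c hw).continuousAt.comp continuousAt_fst
  have b : ContinuousAt (fun w : E n × (E n →L[ℝ] E n) => fderiv ℝ nz w.1) w :=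
    ((nz_c hw).continuousAt_fderiv one_ne_zero).comp continuousAt_fst
  exact tendsto_finset_sum _ fun i _ => (b.clm_apply (continuousAt_snd.clm_apply
    (continuousAt_const.sub (((EuclideanSpace.proj i).continuous.continuousAt.comp a).smul
      a)))).norm.pow 2

theorem AN_u (n : ℕ) (H : ℝ) {η : ℝ} (hη : 0 < η) : ∃ δ > (0 : ℝ), ∀ (p p' : E n)
    (S S' : E n →L[ℝ] E n), 1 / 2 ≤ ‖p‖ → ‖p‖ ≤ 1 → 1 / 2 ≤ ‖p'‖ → ‖p'‖ ≤ 1 → ‖S‖ ≤ H → ‖S'‖ ≤ H →
    ‖p - p'‖ < δ → ‖S - S'‖ < δ → |AN (p, S) - AN (p', S')| ≤ η := by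
  haveI := FiniteDimensional.proper_real (E n →L[ℝ] E n)
  have k : IsCompact ((closedBall (0 : E n) 1 ∩ {p | 1 / 2 ≤ ‖p‖}) ×ˢ
      closedBall (0 : E n →L[ℝ] E n) H) := ((isCompact_closedBall _ _).inter_right
    (isClosed_le continuous_const continuous_norm)).prod (isCompact_closedBall _ _)
  obtain ⟨δ, h0, h⟩ := Metric.uniformContinuousOn_iff.1 (k.uniformContinuousOn_of_continuous
    fun w hw => (AN_c (norm_pos_iff.1 (one_half_pos.trans_le hw.1.2))).continuousWithinAt) η hη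
  exact ⟨δ, h0, fun p p' S S' a b a' b' c c' e e' => (h (p, S) ⟨⟨mem_closedBall_zero_iff.2 b, a⟩,
    mem_closedBall_zero_iff.2 c⟩ (p', S') ⟨⟨mem_closedBall_zero_iff.2 b', a'⟩,
    mem_closedBall_zero_iff.2 c'⟩ (max_lt (by rwa [dist_eq_norm]) (by rwa [dist_eq_norm]))).le⟩

end Cor

open Cor in
theorem core : CORE := fun _ m K T η hη => by
  obtain ⟨c, c0, hc⟩ := gp_c (3 * |T|)
  obtain ⟨δ, δ0, hδ⟩ := AN_u (m + 1) c⁻¹ hη
  obtain ⟨G, hG⟩ : ∃ G, G = |K| / c ^ 2 + |K| / c * (c⁻¹ * (2 * |T|)) := ⟨_, rfl⟩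
  have G0 : 0 ≤ G := by rw [hG]; positivity
  refine ⟨(1 + 2 * |T| + 2 / c + 4 * (c⁻¹ * (2 * |T|)) + 2 * (c⁻¹ * (2 * |T|)) / δ +
    2 * (G * (2 * |T|)) / δ)⁻¹, by positivity, fun l R d h hl x hx hd => ?_⟩
  have l0 := h.l0
  have T0 : 0 ≤ T := nonneg_of_mul_nonneg_left ((abs_nonneg _).trans hd) l0
  have K0 : 0 ≤ K := zero_le_one.trans h.K1
  rw [abs_of_nonneg T0] at *
  rw [abs_of_nonneg K0] at hG
  rw [le_inv_comm₀ l0 (by positivity), inv_eq_one_div l, le_div_iff₀ l0] at hl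
  obtain ⟨r, hr⟩ : ∃ r, r = 2 * T * l := ⟨_, rfl⟩
  have r0 : 0 ≤ r := by rw [hr]; positivity
  have e : (1 + 2 * T + 2 / c + 4 * (c⁻¹ * (2 * T)) + 2 * (c⁻¹ * (2 * T)) / δ +
      2 * (G * (2 * T)) / δ) * l = l + r + 2 * (l / c) + 4 * (c⁻¹ * r) + 2 * (c⁻¹ * r / δ) +
        2 * (G * r / δ) := by rw [hr]; ring
  have a1 : 0 ≤ l / c := by positivity
  have a2 : 0 ≤ c⁻¹ * r := by positivity
  have a3 : 0 ≤ c⁻¹ * r / δ := by positivity
  have a4 : 0 ≤ G * r / δ := by positivity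
  have b3 : c⁻¹ * r < δ := (div_lt_one δ0).1 (by linarith)
  have b4 : G * r < δ := (div_lt_one δ0).1 (by linarith)
  have dd := h.sm.differentiable (by simp)
  have sg := smooth_gradient h.sm
  have dg := sg.differentiable (by simp)
  have dH : Differentiable ℝ (Hs d) := (sg.fderiv_right (m := 1) (by norm_cast)).differentiable
    one_ne_zero
  have B : ∀ y ∈ closedBall x r, ‖y‖ ≤ R ∧ c ≤ fd l d y := fun y hy => by
    rw [mem_closedBall_iff_norm] at hy
    have := convex_univ.norm_image_sub_le_of_norm_fderiv_le (𝕜 := ℝ) (fun z _ => dd z)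
      (fun z _ => (norm_gradient d z).symm.trans_le (h.g1 z)) (mem_univ x) (mem_univ y)
    refine ⟨by linarith [norm_le_insert' y x], hc _ ?_⟩
    rw [abs_div, abs_of_pos l0, div_le_iff₀ l0]
    rw [Real.norm_eq_abs] at this
    linarith [abs_sub_abs_le_abs_sub (d y) (d x)]
  have H : ∀ y ∈ closedBall x r, ‖Hs d y‖ ≤ c⁻¹ := fun y hy => by
    rw [inv_eq_one_div, le_div_iff₀' c0]
    linarith [h.h2 y (B y hy).1, mul_le_mul_of_nonneg_right (B y hy).2 (norm_nonneg (Hs d y))]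
  have P : ∀ y ∈ closedBall x r, ‖∇ d x - ∇ d y‖ ≤ c⁻¹ * r := fun y hy =>
    ((convex_closedBall x r).norm_image_sub_le_of_norm_fderiv_le (fun z _ => dg z) H hy
      (mem_closedBall_self r0)).trans (mul_le_mul_of_nonneg_left (mem_closedBall_iff_norm'.1 hy)
        (by positivity))
  have Q : ∀ y ∈ closedBall x r, qd d y ≤ (l / c) ^ 2 := fun y hy => by
    rw [div_pow, le_div_iff₀' (by positivity)]
    exact (mul_le_mul_of_nonneg_right (pow_le_pow_left₀ c0.le (B y hy).2 2) (sub_nonneg.2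
      (pow_le_one₀ (norm_nonneg _) (h.g1 y)))).trans (h.e y (B y hy).1)
  have N : ∀ y ∈ closedBall x r, 3 / 4 ≤ ‖∇ d y‖ ^ 2 := fun y hy => by
    have := (Q y hy).trans (pow_le_pow_left₀ a1 (show l / c ≤ 1 / 2 by linarith) 2)
    rw [qd] at this
    linarith
  have N' : ∀ y ∈ closedBall x r, 1 / 2 ≤ ‖∇ d y‖ := fun y hy =>
    (abs_le_of_sq_le_sq' (le_trans (by norm_num) (N y hy)) (norm_nonneg _)).2
  have sgm : ∀ τ ∈ Icc (-r) r, x + τ • ∇ d x ∈ closedBall x r := fun τ hτ => by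
    rw [mem_closedBall_iff_norm, add_sub_cancel_left, norm_smul]
    exact (mul_le_of_le_one_right (norm_nonneg _) (h.g1 x)).trans (abs_le.2 hτ)
  have ln : ∀ τ : ℝ, HasDerivAt (fun τ : ℝ => x + τ • ∇ d x) (∇ d x) τ := fun τ => by
    simpa using ((hasDerivAt_id τ).smul_const (∇ d x)).const_add x
  have φ : ∀ τ : ℝ, HasDerivAt (fun τ : ℝ => d (x + τ • ∇ d x))
      (fderiv ℝ d (x + τ • ∇ d x) (∇ d x)) τ := fun τ =>
    (dd _).hasFDerivAt.comp_hasDerivAt τ (ln τ)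
  have mo := (convex_Icc (-r) r).mul_sub_le_image_sub_of_le_deriv (C := 1 / 2)
    (fun τ _ => (φ τ).continuousAt.continuousWithinAt)
    (fun τ _ => (φ τ).differentiableAt.differentiableWithinAt) fun τ hτ => by
      have := (real_inner_le_norm _ _).trans (mul_le_mul (P _ (sgm τ (interior_subset hτ)))
        (h.g1 x) (norm_nonneg _) a2)
      rw [inner_sub_left, real_inner_self_eq_norm_sq] at this
      rw [(φ τ).deriv, ← inner_grad]
      linarith [N x (mem_closedBall_self r0)]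
  have z0 : (0 : ℝ) ∈ Icc (-r) r := ⟨neg_nonpos.2 r0, r0⟩
  have m1 := mo _ (left_mem_Icc.2 (z0.1.trans r0)) _ z0 z0.1
  have m2 := mo _ z0 _ (right_mem_Icc.2 (z0.1.trans r0)) r0
  simp only [zero_smul, add_zero] at m1 m2
  obtain ⟨τ, hτ, hz⟩ := intermediate_value_Icc (z0.1.trans r0)
    (fun τ _ => (φ τ).continuousAt.continuousWithinAt)
    (show (0 : ℝ) ∈ Icc _ _ from ⟨by linarith [le_abs_self (d x)], by linarith [neg_abs_le (d x)]⟩)
  have hH := (convex_Icc (-r) r).norm_image_sub_le_of_norm_hasDerivWithin_le (C := G)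
    (fun τ _ => ((dH _).hasFDerivAt.comp_hasDerivAt τ (ln τ)).hasDerivWithinAt) (fun τ hτ => by
      obtain ⟨y, hy⟩ : ∃ y, y = x + τ • ∇ d x := ⟨_, rfl⟩
      have y1 := sgm τ hτ
      rw [← hy] at y1 ⊢
      have k1 : ‖fderiv ℝ (Hs d) y‖ ≤ K / l / c := (le_div_iff₀' c0).2
        (le_trans (mul_le_mul_of_nonneg_right (B y y1).2 (ContinuousLinearMap.opNorm_nonneg _))
          (h.h3 y (B y y1).1))
      have k2 : K * qd d y / l ^ 2 ≤ K * (l / c) ^ 2 / l ^ 2 := by gcongr; exact Q y y1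
      calc _ = ‖fderiv ℝ (Hs d) y (∇ d y) + fderiv ℝ (Hs d) y (∇ d x - ∇ d y)‖ := by
            rw [← map_add, add_sub_cancel]
        _ ≤ K * (l / c) ^ 2 / l ^ 2 + K / l / c * (c⁻¹ * r) := norm_add_le_of_le
          ((h.h4 y).trans k2) ((ContinuousLinearMap.le_opNorm _ _).trans
            (mul_le_mul k1 (P y y1) (norm_nonneg _) (by positivity)))
        _ = G := by rw [hG, hr]; field_simp) hτ z0
  simp only [Function.comp, zero_smul, add_zero, zero_sub, norm_neg] at hH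
  have z1 := sgm τ hτ
  have x1 := mem_closedBall_self (x := x) r0
  have ne : ∀ y ∈ closedBall x r, ∇ d y ≠ 0 := fun y hy =>
    norm_pos_iff.1 (one_half_pos.trans_le (N' y hy))
  refine ⟨_, hz, hr ▸ mem_closedBall_iff_norm'.1 z1, ?_⟩
  rw [an_eq h.sm (ne _ x1), an_eq h.sm (ne _ z1)]
  exact hδ _ _ _ _ (N' _ x1) (h.g1 _) (N' _ z1) (h.g1 _) (H _ x1) (H _ z1) ((P _ z1).trans_lt b3)
    ((hH.trans (mul_le_mul_of_nonneg_left (abs_le.2 hτ) G0)).trans_lt b4)

end Vale.Agent.P134G
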