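import Vale.Agent.P134G.Defs

/-!
# P134G, row CUT: the cut-off in the height and in the slope
-/

open Metric Set Filter Topology
open scoped ContDiff Gradient

noncomputable section

namespace Vale.Agent.P134G

open Vale.Agent.P134B (lg)
open Vale.Agent.P366W (smooth_gradient norm_gradient)

theorem cut_gp (t : ℝ) : gp t ≤ 3 * Real.exp (-|t|) := by
  have r : (4 : ℝ) / 3 ≤ √2 := Real.le_sqrt_of_sq_le (by norm_num)
  have c0 := Real.cosh_pos (t / √2)
  have e1 : 1 - gg t ^ 2 = (Real.cosh (t / √2) ^ 2)⁻¹ := by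
    rw [gg, Real.tanh_eq_sinh_div_cosh]
    field_simp
    exact Real.cosh_sq_sub_sinh_sq _
  have e2 : Real.exp (|t| / 2) / 2 ≤ Real.cosh (t / √2) := by
    rw [← Real.cosh_abs, Real.cosh_eq, abs_div, abs_of_pos (by positivity : 0 < √2)]
    have : Real.exp (|t| / 2) ≤ Real.exp (|t| / √2) := Real.exp_le_exp.2
      (div_le_div_of_nonneg_left (abs_nonneg t) (by positivity) (Real.sqrt_le_iff.2 (by norm_num)))
    linarith [Real.exp_pos (-(|t| / √2))]
  have e3 := inv_anti₀ (by positivity) (pow_le_pow_left₀ (by positivity) e2 2)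
  rw [div_pow, ← Real.exp_nat_mul, show (2 : ℕ) * (|t| / 2) = |t| by push_cast; ring, inv_div,
    div_eq_mul_inv (2 ^ 2), ← Real.exp_neg] at e3
  rw [gp, e1, div_le_iff₀ (by positivity)]
  nlinarith [Real.exp_pos (-|t|)]

theorem cut : CUT := by
  let κ : ContDiffBump (0 : ℝ) := ⟨2, 3, by norm_num, by norm_num⟩
  have sκ : ContDiff ℝ 1 κ := κ.contDiff
  obtain ⟨K, hK⟩ := sκ.lipschitzWith_of_hasCompactSupport κ.hasCompactSupport one_ne_zero
  refine ⟨3 * K ^ 2, by positivity, fun T => ⟨Real.exp (-(|T| + 1)), by positivity, ?_⟩⟩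
  intro n σ l d σ0 l0 l1 sd g1
  have L1 : |T| + 1 ≤ lg l := le_neg.1 ((Real.log_le_iff_le_exp l0).2 l1)
  have L2 : 1 ≤ lg l := le_trans (by simp) L1
  have a0 : 0 < l * lg l := by positivity
  have d1 : ContDiff ℝ 1 d := sd.of_le (by simp)
  have g := (smooth_gradient sd).of_le (m := 1) (by simp)
  have ab : ∀ x, dist (d x / (l * lg l)) 0 = |d x| / (l * lg l) := fun x => by
    rw [dist_zero_right, Real.norm_eq_abs, abs_div, abs_of_pos a0]
  refine ⟨fun x => κ (d x / (l * lg l)) *
    Real.smoothTransition ((‖∇ d x‖ ^ 2 - σ ^ 2 / 4) / (3 * σ ^ 2 / 4)),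
    (sκ.comp (d1.div_const _)).mul (Real.smoothTransition.contDiff.comp
      (((g.norm_sq ℝ).sub contDiff_const).div_const _)),
    fun x => ⟨mul_nonneg κ.nonneg (Real.smoothTransition.nonneg _),
      mul_le_one₀ κ.le_one (Real.smoothTransition.nonneg _) (Real.smoothTransition.le_one _)⟩,
    fun x h => mul_eq_zero.2 (h.imp (fun h => κ.zero_of_le_dist ?_) fun h =>
      Real.smoothTransition.zero_of_nonpos (div_nonpos_of_nonpos_of_nonneg ?_ (by positivity))),
    fun x h => ?_⟩
  · exact ab x ▸ (le_div_iff₀ a0).2 h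
  · nlinarith [norm_nonneg (∇ d x)]
  have ev : (fun x => κ (d x / (l * lg l)) * Real.smoothTransition
      ((‖∇ d x‖ ^ 2 - σ ^ 2 / 4) / (3 * σ ^ 2 / 4))) =ᶠ[𝓝 x] fun x => κ (d x / (l * lg l)) := by
    filter_upwards [g.continuous.norm.continuousAt.eventually (lt_mem_nhds h)] with y hy
    rw [Real.smoothTransition.one_of_one_le ((one_le_div (by positivity)).2 (by nlinarith)), mul_one]
  have z : |d x| < 2 * (l * lg l) → (fun x => κ (d x / (l * lg l))) =ᶠ[𝓝 x] 1 := fun h =>
    (d1.continuous.div_const _).continuousAt.eventually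
      (κ.eventuallyEq_one_of_mem_ball (mem_ball.2 (ab x ▸ (div_lt_iff₀ a0).2 h)))
  have z0 : |d x| < 2 * (l * lg l) → ∇ (fun x => κ (d x / (l * lg l))) x = 0 := fun h =>
    (z h).gradient_eq.trans (gradient_const _ _)
  rw [ev.gradient_eq]
  refine ⟨?_, fun h => ?_⟩
  · rcases lt_or_ge |d x| (2 * (l * lg l)) with h | h
    · rw [z0 h, norm_zero]
      simp
    have f1 : fd l d x ≤ 3 * l ^ 2 := by
      refine (cut_gp _).trans (mul_le_mul_of_nonneg_left ?_ (by norm_num))
      rw [← Real.exp_log l0, ← Real.exp_nat_mul, Real.exp_log l0, Real.exp_le_exp, abs_div,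
        abs_of_pos l0, neg_le, le_div_iff₀ l0]
      refine le_trans (le_of_eq ?_) h
      simp only [lg]
      push_cast
      ring
    have f2 : ‖∇ (fun x => κ (d x / (l * lg l))) x‖ ≤ K / l := by
      have := ((sκ.differentiable one_ne_zero (d x / (l * lg l))).hasDerivAt.comp_hasFDerivAt x
        ((d1.differentiable one_ne_zero x).hasFDerivAt.mul_const (l * lg l)⁻¹)).fderiv
      simp only [div_eq_mul_inv]
      rw [norm_gradient]
      refine (congrArg norm this).trans_le ?_
      rw [norm_smul, norm_smul, ← norm_gradient, Real.norm_of_nonneg (inv_nonneg.2 a0.le)]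
      exact mul_le_mul (norm_deriv_le_of_lipschitz hK) ((mul_le_of_le_one_right (by positivity)
        (g1 x)).trans (inv_anti₀ l0 (le_mul_of_one_le_right l0.le L2))) (by positivity) K.2
    refine (mul_le_mul f1 (pow_le_pow_left₀ (norm_nonneg _) f2 2) (sq_nonneg _)
      (by positivity)).trans_eq ?_
    field_simp
  · have : |d x| < 2 * (l * lg l) := by nlinarith [le_abs_self T]
    exact ⟨ev.eq_of_nhds.trans (z this).eq_of_nhds, z0 this⟩

end Vale.Agent.P134G
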