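import Vale.Agent.P134G.Tool

/-!
# P134G: the Hessian of the phase from the Hessian of the graph
-/

open MeasureTheory Metric Set Filter Topology
open scoped ContDiff RealInnerProductSpace Gradient

noncomputable section

namespace Vale.Agent.P134G

open Vale.Agent.P134L (E)
open Vale.Agent.P366W (adj inner_adj map_eq_sum)

theorem bil_le {m : ℕ} {δ : ℝ} (B : E m →L[ℝ] E m →L[ℝ] ℝ) (h : ∀ i j, |B (ee i) (ee j)| ≤ δ)
    (v w : E m) : |B v w| ≤ m ^ 2 * δ * ‖v‖ * ‖w‖ := by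
  have e : B v w = ∑ i, ∑ j, v i * (w j * B (ee i) (ee j)) := by
    rw [map_eq_sum B v, ContinuousLinearMap.sum_apply]
    refine Finset.sum_congr rfl fun i _ => ?_
    rw [ContinuousLinearMap.smul_apply, map_eq_sum (B _) w, smul_eq_mul, Finset.mul_sum]
    rfl
  calc |B v w| ≤ ∑ i, ∑ j, |v i * (w j * B (ee i) (ee j))| := by
        rw [e]
        exact (Finset.abs_sum_le_sum_abs _ _).trans
          (Finset.sum_le_sum fun i _ => Finset.abs_sum_le_sum_abs _ _)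
    _ ≤ ∑ _i : Fin m, ∑ _j : Fin m, ‖v‖ * (‖w‖ * δ) := by
        refine Finset.sum_le_sum fun i _ => Finset.sum_le_sum fun j _ => ?_
        rw [abs_mul, abs_mul]
        gcongr
        exacts [PiLp.norm_apply_le v i, PiLp.norm_apply_le w j, h i j]
    _ = _ := by
        simp
        ring

theorem fin : FIN := fun form m K ε ε0 => by
  refine ⟨ε / (m ^ 2 + 4 * |K| + 1), by positivity, fun l R d s p h hl hd => ?_⟩
  obtain ⟨δ, hδ⟩ : ∃ δ, δ = ε / (m ^ 2 + 4 * |K| + 1) := ⟨_, rfl⟩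
  rw [← hδ] at hl hd
  have K1 := h.ac.K1
  have l0 := h.ac.l0
  have δ0 : 0 < δ := l0.trans_le hl
  have eδ : δ * (m ^ 2 + 4 * K + 1) = ε := by
    rw [hδ, abs_of_pos (by linarith : 0 < K)]
    field_simp
  obtain ⟨g0, hf⟩ := form m K l R d s p h
  have f0 := hf 0 (mem_ball_self (by norm_num))
  have X0 : s.X p 0 = p := by simp [Sh.X, h.h0]
  have hq := h.ac.zq (x := p) (by linarith [h.pR]) h.p0
  have a1 : 1 / 2 ≤ ‖∇ d p‖ := by nlinarith [h.ac.one_sub_q p, h.l1]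
  have a2 := h.ac.g1 p
  have eN : ∇ d p = ‖∇ d p‖ • s.N p := by rw [h.N, smul_nu]
  have ea : ⟪∇ d p, s.N p⟫ = ‖∇ d p‖ := by
    conv_lhs => rw [eN, real_inner_smul_left, h.fr.ee, mul_one]
  have t1 : ∀ v w, |⟪Hs d p (s.L p v), s.L p w⟫| ≤ m ^ 2 * δ * ‖v‖ * ‖w‖ := fun v w => by
    have e := f0.h v w
    simp only [dX, g0, X0, ea, inner_zero_left, zero_smul, add_zero] at e
    have e' : ⟪Hs d p (s.L p v), s.L p w⟫ = -‖∇ d p‖ * fderiv ℝ (fderiv ℝ (s.h p)) 0 v w := by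
      rw [e]
      field_simp
    rw [e', abs_mul, abs_neg, abs_norm]
    exact (mul_le_of_le_one_left (abs_nonneg _) a2).trans (bil_le _ hd v w)
  have t2 : ‖Hs d p (s.N p)‖ ≤ 2 * K * δ := by
    have c1 := h.ac.q1 p
    rw [grad_qd h.ac.sm, eN, map_smul, norm_smul, norm_smul, norm_norm, Real.norm_eq_abs,
      abs_neg, abs_two, le_div_iff₀ l0] at c1
    have c2 : K * qd d p ≤ K * (2 * l ^ 2) := by gcongr
    have c3 : ‖Hs d p (s.N p)‖ * l ≤ 2 * K * l * l := by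
      nlinarith [mul_nonneg (norm_nonneg (Hs d p (s.N p))) l0.le]
    exact (le_of_mul_le_mul_right c3 l0).trans (by gcongr)
  have t3 : ∀ v, ‖Hs d p (s.L p v)‖ ≤ (m ^ 2 * δ + 2 * K * δ) * ‖v‖ := fun v => by
    obtain ⟨w, hw⟩ : ∃ w, w = adj (s.L p) (Hs d p (s.L p v)) := ⟨_, rfl⟩
    have c1 : ‖w‖ ≤ m ^ 2 * δ * ‖v‖ := by
      have c2 : ‖w‖ * ‖w‖ ≤ m ^ 2 * δ * ‖v‖ * ‖w‖ := by
        rw [← real_inner_self_eq_norm_mul_norm]
        conv_lhs => rw [hw, inner_adj, ← hw, real_inner_comm]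
        exact (le_abs_self _).trans (t1 v w)
      rcases (norm_nonneg w).eq_or_lt with e | e
      · rw [← e]
        positivity
      · exact le_of_mul_le_mul_right c2 e
    have c3 : |⟪s.N p, Hs d p (s.L p v)⟫| ≤ 2 * K * δ * ‖v‖ := by
      rw [← Hs_symm h.ac.sm]
      refine (abs_real_inner_le_norm _ _).trans ?_
      rw [(s.L p).norm_map]
      gcongr
    rw [← h.fr.dec (Hs d p (s.L p v)), ← hw]
    refine (norm_add_le _ _).trans ?_
    rw [(s.L p).norm_map, norm_smul, h.fr.one, mul_one, Real.norm_eq_abs]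
    linarith
  refine ContinuousLinearMap.opNorm_le_bound _ ε0.le fun v => ?_
  have c1 := h.fr.norm_adj v
  have c2 : |⟪s.N p, v⟫| ≤ ‖v‖ := by simpa [h.fr.one] using abs_real_inner_le_norm (s.N p) v
  have c3 : ‖Hs d p (s.L p (adj (s.L p) v))‖ ≤ (m ^ 2 * δ + 2 * K * δ) * ‖v‖ :=
    (t3 _).trans (by gcongr)
  have c4 : ‖Hs d p (⟪s.N p, v⟫ • s.N p)‖ ≤ ‖v‖ * (2 * K * δ) := by
    rw [map_smul, norm_smul, Real.norm_eq_abs]
    gcongr
  conv_lhs => rw [← h.fr.dec v, map_add]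
  refine (norm_add_le _ _).trans ?_
  rw [← eδ]
  nlinarith [mul_nonneg δ0.le (norm_nonneg v)]

end Vale.Agent.P134G
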