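import Vale.Agent.P134G.Defs

/-!
# P134G, row FORM: the derivatives of the graph
-/

set_option linter.all false

open MeasureTheory Metric Set Filter Topology
open scoped ContDiff RealInnerProductSpace Gradient

noncomputable section

namespace Vale.Agent.P134G

open Vale.Agent.P134L (E)
open Vale.Agent.P366W (Fr adj inner_grad inner_adj adj_L smooth_gradient norm_gradient)

namespace Form

variable {m : ℕ} {K l R : ℝ} {d : E (m + 1) → ℝ} {s : Sh m} {p : E (m + 1)} {y : E m}

/-- the differential of the parametrisation -/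
def Jm (s : Sh m) (p : E (m + 1)) (y : E m) : E m →L[ℝ] E (m + 1) :=
  (s.L p).toContinuousLinearMap + (innerSL ℝ (∇ (s.h p) y)).smulRight (s.N p)

theorem Jm_apply (v : E m) : Jm s p y v = dX s p y v := rfl

theorem hX (hh : DifferentiableAt ℝ (s.h p) y) : HasFDerivAt (s.X p) (Jm s p y) y := by
  refine (((s.L p).toContinuousLinearMap.hasFDerivAt.const_add p).add
    (hh.hasFDerivAt.smul_const (s.N p))).congr_fderiv ?_
  ext1 v
  simp [Jm_apply, dX]

theorem one (g : G8 K l R d s p) (hy : y ∈ ball (0 : E m) 8) (w : E m) :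
    ⟪s.L p w, ∇ d (s.X p y)⟫ + ⟪s.N p, ∇ d (s.X p y)⟫ * fderiv ℝ (s.h p) y w = 0 := by
  have h1 := (g.ac.sm.differentiable (by simp) _).hasFDerivAt.comp y
    (hX (g.sm.differentiable (by simp) y))
  have h2 := h1.unique ((hasFDerivAt_const (0 : ℝ) y).congr_of_eventuallyEq
    ((isOpen_ball.eventually_mem hy).mono fun y' hy' => g.ze y' hy'))
  have h3 := congrArg (fun M => M w) h2
  simp only [ContinuousLinearMap.comp_apply, ContinuousLinearMap.zero_apply, ← inner_grad,
    Jm_apply, dX, inner_add_right, real_inner_smul_right] at h3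
  rw [← inner_grad, real_inner_comm, real_inner_comm (∇ d _), mul_comm]
  exact h3

theorem two (g : G8 K l R d s p) (hy : y ∈ ball (0 : E m) 8) (v w : E m) :
    ⟪∇ d (s.X p y), s.N p⟫ * fderiv ℝ (fderiv ℝ (s.h p)) y v w =
      -⟪Hs d (s.X p y) (dX s p y v), dX s p y w⟫ := by
  have h0 : HasFDerivAt (fun y => ∇ d (s.X p y)) (Hs d (s.X p y) ∘L Jm s p y) y :=
    ((smooth_gradient g.ac.sm).differentiable (by simp) _).hasFDerivAt.comp y
      (hX (g.sm.differentiable (by simp) y))
  have h4 := (((g.sm.fderiv_right (m := 1) (by norm_cast)).differentiable one_ne_zero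
    y).hasFDerivAt).clm_apply (hasFDerivAt_const w y)
  have h1 := ((innerSL ℝ (s.L p w)).hasFDerivAt.comp y h0).add
    (((innerSL ℝ (s.N p)).hasFDerivAt.comp y h0).mul h4)
  have h2 := h1.unique ((hasFDerivAt_const (0 : ℝ) y).congr_of_eventuallyEq
    ((isOpen_ball.eventually_mem hy).mono fun y' hy' => one g hy' w))
  have h3 := congrArg (fun M => M v) h2
  simp only [ContinuousLinearMap.add_apply, ContinuousLinearMap.comp_apply, innerSL_apply_apply,
    ContinuousLinearMap.smul_apply, Function.comp, ContinuousLinearMap.zero_apply, map_zero,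
    ContinuousLinearMap.flip_apply, zero_add, smul_eq_mul, Jm_apply, ← inner_grad (s.h p) y w] at h3
  rw [real_inner_comm (dX s p y w), dX.eq_1 s p y w, inner_add_left, real_inner_smul_left,
    real_inner_comm]
  linarith

theorem a0 (g : G8 K l R d s p) (hy : y ∈ ball (0 : E m) 8) :
    49 / 50 ≤ ⟪∇ d (s.X p y), s.N p⟫ := by
  have := (abs_le.1 ((abs_real_inner_le_norm (∇ d (s.X p y) - s.N p) (s.N p)).trans_eq
    (by rw [g.fr.one, mul_one]))).1
  rw [inner_sub_left, g.fr.ee] at this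
  linarith [g.ti y hy]

theorem e1 (g : G8 K l R d s p) (hy : y ∈ ball (0 : E m) 8) :
    adj (s.L p) (∇ d (s.X p y)) = -(⟪∇ d (s.X p y), s.N p⟫ • ∇ (s.h p) y) := by
  refine ext_inner_left ℝ fun w => ?_
  have h := one g hy w
  rw [← inner_grad, real_inner_comm w, real_inner_comm _ (s.N p)] at h
  rw [inner_adj, inner_neg_right, real_inner_smul_right]
  linarith

theorem g1 (g : G8 K l R d s p) (hy : y ∈ ball (0 : E m) 8) : ‖∇ (s.h p) y‖ ≤ 1 / 40 := by
  have := (g.fr.norm_adj (∇ d (s.X p y) - s.N p)).trans (g.ti y hy)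
  have a := a0 g hy
  rw [map_sub, g.fr.adj_e, sub_zero, e1 g hy, norm_neg, norm_smul,
    Real.norm_of_nonneg (by linarith)] at this
  nlinarith [norm_nonneg (∇ (s.h p) y)]

theorem x9 (g : G8 K l R d s p) (hy : y ∈ ball (0 : E m) 8) : ‖s.X p y - p‖ ≤ 9 := by
  have := (convex_ball (0 : E m) 8).norm_image_sub_le_of_norm_fderiv_le (C := 1 / 40)
    (fun z _ => g.sm.differentiable (by simp) z) (fun z hz => norm_gradient _ z ▸ g1 g hz)
    (mem_ball_self (by norm_num)) hy
  rw [g.h0, sub_zero, sub_zero] at this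
  rw [Sh.X, add_assoc, add_sub_cancel_left]
  refine (norm_add_le _ _).trans ?_
  rw [(s.L p).norm_map, norm_smul, g.fr.one]
  linarith [mem_ball_zero_iff.1 hy]

theorem nor (g : G8 K l R d s p) (hy : y ∈ ball (0 : E m) 8) :
    s.N (s.X p y) = (J (s.h p) y)⁻¹ • (s.N p - s.L p (∇ (s.h p) y)) := by
  have a := a0 g hy
  have dp := g.fr.dec (∇ d (s.X p y))
  rw [real_inner_comm, e1 g hy] at dp
  have n := g.fr.norm_sq (-(⟪∇ d (s.X p y), s.N p⟫ • ∇ (s.h p) y)) ⟪∇ d (s.X p y), s.N p⟫
  rw [dp, norm_neg, norm_smul, Real.norm_of_nonneg (by linarith)] at n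
  have n2 : ‖∇ d (s.X p y)‖ = J (s.h p) y * ⟪∇ d (s.X p y), s.N p⟫ := by
    rw [J, ← Real.sqrt_sq (norm_nonneg (∇ d _)), n, ← Real.sqrt_sq (show 0 ≤ ⟪∇ d (s.X p y), s.N p⟫
      by linarith), ← Real.sqrt_mul (by positivity), Real.sqrt_sq (by linarith)]
    congr 1
    ring
  rw [congrFun g.N (s.X p y), nu, n2]
  generalize ⟪∇ d (s.X p y), s.N p⟫ = a at *
  rw [← dp, map_neg, map_smul, neg_add_eq_sub, ← smul_sub, smul_smul, mul_inv, mul_assoc,
    inv_mul_cancel₀ (by linarith), mul_one]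

theorem h1 (g : G8 K l R d s p) (hy : y ∈ ball (0 : E m) 8) :
    ‖fderiv ℝ (fderiv ℝ (s.h p)) y‖ ≤ 1 / 100 := by
  have a := a0 g hy
  have b : ‖Hs d (s.X p y)‖ ≤ 1 / 500 := by
    have := g.ac.h2 (s.X p y) (by linarith [norm_le_norm_add_norm_sub' (s.X p y) p, x9 g hy, g.pR])
    rw [fd, g.ze y hy, zero_div, gp, gg, zero_div, Real.tanh_zero, div_mul_eq_mul_div,
      div_le_iff₀ (by positivity)] at this
    linarith [Real.sqrt_two_lt_three_halves]
  have n1 : ∀ v, ‖dX s p y v‖ ≤ 41 / 40 * ‖v‖ := fun v => by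
    refine (norm_add_le _ _).trans ?_
    rw [(s.L p).norm_map, norm_smul, g.fr.one, Real.norm_eq_abs]
    nlinarith [abs_real_inner_le_norm (∇ (s.h p) y) v, norm_nonneg v, g1 g hy]
  refine ContinuousLinearMap.opNorm_le_bound₂ _ (by norm_num) fun v w => ?_
  have k := congrArg abs (two g hy v w)
  rw [abs_neg, abs_mul, abs_of_nonneg (by linarith)] at k
  have k2 := k.trans_le ((abs_real_inner_le_norm _ _).trans (mul_le_mul
    (((Hs d _).le_opNorm _).trans (mul_le_mul b (n1 v) (norm_nonneg _) (by norm_num))) (n1 w)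
    (norm_nonneg _) (by positivity)))
  rw [Real.norm_eq_abs]
  nlinarith [abs_nonneg (fderiv ℝ (fderiv ℝ (s.h p)) y v w), mul_nonneg (norm_nonneg v) (norm_nonneg w)]

end Form

open Form in
/-- row FORM -/
theorem form : FORM := by
  intro m K l R d s p g
  refine ⟨?_, fun y hy => ?_⟩
  · have := congrArg (adj (s.L p)) (nor g (mem_ball_self (by norm_num)))
    rw [show s.X p 0 = p by simp [Sh.X, g.h0], map_smul, map_sub, g.fr.adj_e, adj_L, zero_sub,
      eq_comm, smul_eq_zero, neg_eq_zero] at this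
    exact this.resolve_left (by rw [J]; positivity)
  · have a : ⟪∇ d (s.X p y), s.N p⟫ ≠ 0 := by linarith [a0 g hy]
    refine ⟨?_, g1 g hy, x9 g hy, nor g hy, fun v w => ?_, h1 g hy⟩
    · rw [e1 g hy, smul_neg, smul_smul, neg_mul, inv_mul_cancel₀ a]
      simp
    · rw [neg_mul, ← mul_neg, ← two g hy, inv_mul_cancel_left₀ a]

end Vale.Agent.P134G
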