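import Vale.Agent.P134G.Defs

/-!
# P134G, row FUB: integration in columns
-/

open MeasureTheory Metric Set Filter Topology
open scoped ContDiff RealInnerProductSpace Gradient

noncomputable section

namespace Vale.Agent.P134G

open Vale.Agent.P134L (E BERN)
open Vale.Agent.P366W (Fr adj trc)

theorem fub : FUB := by
  intro m C η s p F hs hF h0
  have fr : Fr (s.N p) (s.L p) := ⟨hs.N1, hs.NL⟩
  have mp := fr.mp p (w := fun _ => 0) measurable_const
  have hI := (mp.integrable_comp hF.aestronglyMeasurable).2 hF
  have e1 : ∀ y, ∫ t : ℝ, F (s.X p y + t • s.N p) =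
      ∫ t : ℝ, F (p + s.L p y + (0 + t) • s.N p) := by
    intro y
    rw [← integral_add_left_eq_self (μ := volume)
      (fun t : ℝ => F (p + s.L p y + (0 + t) • s.N p)) (s.h p y)]
    congr 1
    funext t
    congr 1
    simp only [Sh.X, zero_add, add_smul, add_assoc]
  have e2 : ∫ x, F x = ∫ y, ∫ t : ℝ, F (p + s.L p y + (0 + t) • s.N p) := by
    rw [← mp.map_eq, integral_map mp.measurable.aemeasurable
      (by rw [mp.map_eq]; exact hF.aestronglyMeasurable)]
    exact integral_prod _ hI
  simp only [e1]
  refine ⟨hI.integral_prod_left.integrableOn, ?_⟩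
  rw [e2]
  symm
  apply setIntegral_eq_integral_of_forall_compl_eq_zero
  intro y hy
  have h1 : ∀ t : ℝ, F (p + s.L p y + (0 + t) • s.N p) = 0 := by
    intro t
    apply h0
    rw [yy, add_assoc, add_sub_cancel_left, fr.adj_pt]
    simpa using hy
  simp only [h1, integral_zero]

end Vale.Agent.P134G
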