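import Vale.Agent.P134G.Defs

/-!
# P134G, row HA1: the two second fundamental forms agree
-/

open MeasureTheory Metric Set Filter Topology
open scoped ContDiff RealInnerProductSpace Gradient

noncomputable section

namespace Vale.Agent.P134G

open Vale.Agent.P134L (E)
open Vale.Agent.P366W (Fr adj inner_adj inner_grad smooth_gradient)

namespace Ha1

variable {m : ℕ} {s : Sh m} {p : E (m + 1)} {C η : ℝ}

theorem J_pos (h : E m → ℝ) (y : E m) : 0 < J h y := Real.sqrt_pos.2 (by positivity)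

theorem fr (H : s.At p C η) : Fr (s.N p) (s.L p) := ⟨H.N1, H.NL⟩

theorem norm_N (H : s.At p C η) {y : E m} (hy : y ∈ ball (0 : E m) 4) : ‖s.N (s.X p y)‖ = 1 := by
  have h1 := (fr H).norm_sq (-∇ (s.h p) y) 1
  rw [map_neg, one_smul, neg_add_eq_sub, norm_neg, one_pow, add_comm _ (1 : ℝ)] at h1
  have h2 : ‖s.N p - s.L p (∇ (s.h p) y)‖ = J (s.h p) y := by
    rw [J, ← h1, Real.sqrt_sq (norm_nonneg _)]
  rw [H.nor y hy, norm_smul, h2, Real.norm_of_nonneg (inv_nonneg.2 (J_pos _ _).le),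
    inv_mul_cancel₀ (J_pos _ _).ne']

theorem ort {n : ℕ} {v : E n} (hv : ‖v‖ = 1) (i : Fin n) : ⟪v, ee i - v i • v⟫ = 0 := by
  rw [inner_sub_right, inner_smul_right, real_inner_self_eq_norm_sq, hv,
    EuclideanSpace.inner_single_right]
  simp

theorem hasX (H : s.At p C η) {y : E m} (hy : y ∈ ball (0 : E m) 4) : HasFDerivAt (s.X p)
    ((s.L p).toContinuousLinearMap + (fderiv ℝ (s.h p) y).smulRight (s.N p)) y := by
  have h1 : DifferentiableAt ℝ (s.h p) y :=
    (H.sm.contDiffAt (isOpen_ball.mem_nhds hy)).differentiableAt (by simp)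
  exact (((s.L p).toContinuousLinearMap.hasFDerivAt).const_add p).add
    (h1.hasFDerivAt.smul_const (s.N p))

theorem dX_adj (H : s.At p C η) {y : E m} (hy : y ∈ ball (0 : E m) 4) {v : E (m + 1)}
    (hv : ⟪s.N (s.X p y), v⟫ = 0) :
    s.L p (adj (s.L p) v) + fderiv ℝ (s.h p) y (adj (s.L p) v) • s.N p = v := by
  rw [H.nor y hy, inner_smul_left, inner_sub_left] at hv
  have h1 : ⟪s.N p, v⟫ = ⟪s.L p (∇ (s.h p) y), v⟫ :=
    sub_eq_zero.1 ((mul_eq_zero.1 hv).resolve_left (inv_ne_zero (J_pos _ _).ne'))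
  rw [← inner_grad, inner_adj, ← h1, (fr H).dec]

end Ha1

open Ha1 in
theorem ha1 : HA1 := by
  intro m K l R C η d s p H y hy
  have h1 := norm_N H.da hy
  have h2 : ∇ d (s.X p y) ≠ 0 := fun e => by
    rw [H.N, nu, e, smul_zero, norm_zero] at h1
    exact zero_ne_one h1
  have h3 : DifferentiableAt ℝ (∇ d) (s.X p y) :=
    (smooth_gradient H.ac.sm).differentiable (by simp) _
  have h4 : DifferentiableAt ℝ s.N (s.X p y) := by
    rw [H.N]
    exact ((h3.norm ℝ h2).inv (norm_ne_zero_iff.2 h2)).smul h3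
  have h5 := (h4.hasFDerivAt.comp y (hasX H.da hy)).fderiv
  rw [an, ← H.N, Sh.A2]
  refine Finset.sum_congr rfl fun i _ => ?_
  rw [show (fun y => s.N (s.X p y)) = s.N ∘ s.X p from rfl, h5]
  exact congrArg (fun v => ‖fderiv ℝ s.N (s.X p y) v‖ ^ 2) (dX_adj H.da hy (ort h1 i))

end Vale.Agent.P134G
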