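import Vale.Agent.P134G.Ha1

/-!
# P134G, row HA2: the modulus of continuity of the curvature
-/

open MeasureTheory Metric Set Filter Topology
open scoped ContDiff RealInnerProductSpace Gradient

noncomputable section

namespace Vale.Agent.P134G

open Vale.Agent.P134L (E)
open Vale.Agent.P366W (Fr adj map_eq_sum)

namespace Ha2

open Ha1

variable {m : ℕ} {s : Sh m} {p : E (m + 1)} {C η : ℝ}

/-- the space of the parameters -/
abbrev Par (m : ℕ) : Type :=
  ((E m →L[ℝ] E (m + 1)) × E (m + 1)) × E m × (E m →L[ℝ] E m)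

/-- the normal as a function of the differential -/
def nv (x : Par m) (a : E m) : E (m + 1) := (√(1 + ‖a‖ ^ 2))⁻¹ • (x.1.2 - x.1.1 a)

/-- the curvature as a function of the jet -/
def Ph (x : Par m) : ℝ := ∑ i, ‖fderiv ℝ (nv x) x.2.1
  (x.2.2 (x.1.1.adjoint (ee i - nv x x.2.1 i • nv x x.2.1)))‖ ^ 2

theorem nv_sm : ContDiff ℝ 1 (Function.uncurry (nv (m := m))) := by
  have h1 : ContDiff ℝ 1 fun x : Par m × E m => x.2 := contDiff_snd
  refine ContDiff.smul (ContDiff.inv (ContDiff.sqrt (contDiff_const.add (h1.norm_sq ℝ))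
    fun x => by positivity) fun x => (Real.sqrt_pos.2 (by positivity)).ne') ?_
  exact contDiff_fst.fst.snd.sub (contDiff_fst.fst.fst.clm_apply h1)

theorem Ph_cont : Continuous (Ph (m := m)) := by
  have h0 : Continuous fun x : Par m => x.2.1 := continuous_snd.fst
  have h1 := Continuous.fderiv_one (𝕜 := ℝ) (nv_sm (m := m)) h0
  have h2 : Continuous fun x : Par m => nv x x.2.1 :=
    (nv_sm (m := m)).continuous.comp (f := fun x : Par m => (x, x.2.1)) (continuous_id.prodMk h0)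
  have h3 : Continuous fun x : Par m => x.1.1.adjoint :=
    (ContinuousLinearMap.adjoint (𝕜 := ℝ) (E := E m) (F := E (m + 1))).continuous.comp
      (by fun_prop)
  refine continuous_finsetSum _ fun i _ => Continuous.pow (Continuous.norm (h1.clm_apply
    (Continuous.clm_apply (by fun_prop) (h3.clm_apply ?_)))) 2
  exact continuous_const.sub (((EuclideanSpace.proj i).continuous.comp h2).smul h2)

/-- the jet at `y` -/
def jet (s : Sh m) (p : E (m + 1)) (y : E m) : Par m :=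
  (((s.L p).toContinuousLinearMap, s.N p), ∇ (s.h p) y, fderiv ℝ (∇ (s.h p)) y)

theorem dif (H : s.At p C η) {y : E m} (hy : y ∈ ball (0 : E m) 4) :
    DifferentiableAt ℝ (fderiv ℝ (s.h p)) y :=
  ((H.sm.contDiffAt (isOpen_ball.mem_nhds hy)).fderiv_right (m := 1)
    (by norm_cast)).differentiableAt one_ne_zero

theorem dif' (H : s.At p C η) {y : E m} (hy : y ∈ ball (0 : E m) 4) :
    DifferentiableAt ℝ (∇ (s.h p)) y :=
  (InnerProductSpace.toDual ℝ (E m)).symm.toContinuousLinearEquiv.differentiableAt.comp y (dif H hy)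

theorem fd_grad (h : E m → ℝ) (y v : E m) : fderiv ℝ (∇ h) y v =
    (InnerProductSpace.toDual ℝ (E m)).symm (fderiv ℝ (fderiv ℝ h) y v) :=
  congrArg (fun M : E m →L[ℝ] E m => M v)
    ((InnerProductSpace.toDual ℝ (E m)).symm.toContinuousLinearEquiv.comp_fderiv
      (f := fderiv ℝ h) (x := y))

theorem A2_eq (H : s.At p C η) {y : E m} (hy : y ∈ ball (0 : E m) 4) :
    s.A2 p y = Ph (jet s p y) := by
  have h1 : (fun z => s.N (s.X p z)) =ᶠ[𝓝 y] nv (jet s p y) ∘ ∇ (s.h p) := by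
    filter_upwards [isOpen_ball.mem_nhds hy] with z hz using H.nor z hz
  have h2 : DifferentiableAt ℝ (nv (jet s p y)) (∇ (s.h p) y) :=
    (nv_sm.comp (contDiff_const.prodMk contDiff_id)).differentiable one_ne_zero _
  rw [Sh.A2, h1.fderiv_eq, fderiv_comp y h2 (dif' H hy), H.nor y hy]
  rfl

theorem lip (H : s.At p C η) {y z : E m} (hy : y ∈ ball (0 : E m) 4) (hz : z ∈ ball (0 : E m) 4) :
    ‖∇ (s.h p) z - ∇ (s.h p) y‖ ≤ 1 / 10 * ‖z - y‖ := by
  rw [gradient, gradient, ← map_sub, LinearIsometryEquiv.norm_map]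
  exact (convex_ball 0 4).norm_image_sub_le_of_norm_fderiv_le (fun _ h => dif H h) H.b2 hy hz

theorem nrm_lip {v w : E (m + 1)} (hv : 1 ≤ ‖v‖) (hw : 1 ≤ ‖w‖) :
    ‖‖v‖⁻¹ • v - ‖w‖⁻¹ • w‖ ≤ 2 * ‖v - w‖ := by
  have h0 : 0 < ‖v‖ := by linarith
  have h0' : 0 < ‖w‖ := by linarith
  have h1 : ‖v‖⁻¹ ≤ 1 := inv_le_one_of_one_le₀ hv
  have h2 : ‖(‖v‖⁻¹ - ‖w‖⁻¹) • w‖ = ‖v‖⁻¹ * |‖w‖ - ‖v‖| := by
    rw [norm_smul, Real.norm_eq_abs, ← abs_of_pos h0', ← abs_mul, abs_of_pos h0',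
      ← abs_of_pos (inv_pos.2 h0), ← abs_mul, abs_of_pos (inv_pos.2 h0)]
    congr 1
    field_simp
  have h3 : |‖w‖ - ‖v‖| ≤ ‖v - w‖ := norm_sub_rev w v ▸ abs_norm_sub_norm_le w v
  rw [show ‖v‖⁻¹ • v - ‖w‖⁻¹ • w = ‖v‖⁻¹ • (v - w) + (‖v‖⁻¹ - ‖w‖⁻¹) • w by module]
  refine (norm_add_le _ _).trans ?_
  rw [h2, norm_smul, Real.norm_of_nonneg (inv_pos.2 h0).le]
  nlinarith [norm_nonneg (v - w), abs_nonneg (‖w‖ - ‖v‖), inv_pos.2 h0]

theorem J_eq (H : s.At p C η) (y : E m) : J (s.h p) y = ‖s.N p - s.L p (∇ (s.h p) y)‖ := by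
  have h1 := (fr H).norm_sq (-∇ (s.h p) y) 1
  rw [map_neg, one_smul, neg_add_eq_sub, norm_neg, one_pow, add_comm _ (1 : ℝ)] at h1
  rw [J, ← h1, Real.sqrt_sq (norm_nonneg _)]

theorem A2_le (H : s.At p C η) {y : E m} (hy : y ∈ ball (0 : E m) 4) : s.A2 p y ≤ m + 1 := by
  have hJ : ∀ z, 1 ≤ ‖s.N p - s.L p (∇ (s.h p) z)‖ := fun z =>
    J_eq H z ▸ Real.one_le_sqrt.2 (le_add_of_nonneg_right (sq_nonneg _))
  have h1 : ‖fderiv ℝ (fun z => s.N (s.X p z)) y‖ ≤ 1 / 5 := by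
    refine norm_fderiv_le_of_lip' ℝ (by norm_num) ?_
    filter_upwards [isOpen_ball.mem_nhds hy] with z hz
    rw [H.nor z hz, H.nor y hy, J_eq H, J_eq H]
    refine (nrm_lip (hJ z) (hJ y)).trans ?_
    rw [sub_sub_sub_cancel_left, ← map_sub, LinearIsometry.norm_map, norm_sub_rev]
    linarith [lip H hy hz]
  have h2 := norm_N H hy
  have h3 : ∀ i, ‖adj (s.L p) (ee i - s.N (s.X p y) i • s.N (s.X p y))‖ ≤ 2 := fun i => by
    refine ((fr H).norm_adj _).trans ((norm_sub_le _ _).trans ?_)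
    have := PiLp.norm_apply_le (s.N (s.X p y)) i
    rw [norm_smul, h2, PiLp.norm_single, norm_one] at *
    linarith
  calc s.A2 p y ≤ ∑ _i : Fin (m + 1), (1 : ℝ) := Finset.sum_le_sum fun i _ => by
        refine pow_le_one₀ (norm_nonneg _) ((ContinuousLinearMap.le_opNorm _ _).trans ?_)
        exact (mul_le_mul h1 (h3 i) (norm_nonneg _) (by norm_num)).trans (by norm_num)
    _ = m + 1 := by simp

theorem norm_le {F : Type} [NormedAddCommGroup F] [NormedSpace ℝ F] (M : E m →L[ℝ] F) {c : ℝ}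
    (hc : 0 ≤ c) (h : ∀ i, ‖M (ee i)‖ ≤ c) : ‖M‖ ≤ m * c := by
  refine M.opNorm_le_bound (by positivity) fun v => ?_
  rw [map_eq_sum M v]
  refine (norm_sum_le _ _).trans ?_
  calc _ ≤ ∑ _i : Fin m, c * ‖v‖ := Finset.sum_le_sum fun i _ => by
        rw [norm_smul, mul_comm]
        exact mul_le_mul (h i) (PiLp.norm_apply_le v i) (norm_nonneg _) hc
    _ = _ := by simp [mul_assoc]

theorem jet_mem (H : s.At p C η) {y : E m} (hy : y ∈ ball (0 : E m) 4) :
    jet s p y ∈ closedBall (0 : Par m) 1 := by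
  rw [mem_closedBall_zero_iff]
  refine max_le (max_le (s.L p).norm_toContinuousLinearMap_le H.N1.le)
    (max_le ((H.b1 y hy).trans (by norm_num))
      (ContinuousLinearMap.opNorm_le_bound _ zero_le_one fun v => ?_))
  refine (congrArg norm (fd_grad (s.h p) y v)).trans_le ?_
  rw [LinearIsometryEquiv.norm_map]
  exact (ContinuousLinearMap.le_opNorm _ _).trans
    (mul_le_mul_of_nonneg_right ((H.b2 y hy).trans (by norm_num)) (norm_nonneg _))

theorem jet_hol (H : s.At p C η) {y z : E m} (hy : y ∈ ball (0 : E m) 4)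
    (hz : z ∈ ball (0 : E m) 4) :
    ‖fderiv ℝ (∇ (s.h p)) y - fderiv ℝ (∇ (s.h p)) z‖ ≤ m * (m * (|C| * √‖y - z‖)) := by
  refine norm_le _ (by positivity) fun i => ?_
  rw [sub_apply, fd_grad, fd_grad, ← map_sub, LinearIsometryEquiv.norm_map]
  exact norm_le _ (by positivity) fun j => (H.hol y hy z hz i j).trans
    (mul_le_mul_of_nonneg_right (le_abs_self C) (Real.sqrt_nonneg _))

end Ha2

open Ha2 in
theorem ha2 : HA2 := by
  intro m C ε hε
  obtain ⟨δ, hδ, hU⟩ := Metric.uniformContinuousOn_iff_le.1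
    ((isCompact_closedBall (0 : Par m) 1).uniformContinuousOn_of_continuous
      Ph_cont.continuousOn) ε hε
  have h0 : Tendsto (fun t : ℝ => m * (m * (|C| * √t))) (𝓝 0) (𝓝 0) := by
    have : Continuous fun t : ℝ => m * (m * (|C| * √t)) := by fun_prop
    simpa using this.tendsto 0
  obtain ⟨ρ, hρ, h1⟩ := Metric.eventually_nhds_iff.1 (h0.eventually (eventually_le_nhds hδ))
  refine ⟨min δ (ρ / 2), lt_min hδ (half_pos hρ), fun s p η H y hy =>
    ⟨A2_le H hy, fun z hz hyz => ?_⟩⟩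
  rw [A2_eq H hy, A2_eq H hz]
  refine hU _ (jet_mem H hy) _ (jet_mem H hz) (max_le (by simpa [jet] using hδ.le)
    (max_le ?_ ?_))
  · rw [dist_eq_norm]
    linarith [lip H hz hy, min_le_left δ (ρ / 2), norm_nonneg (y - z),
      show ‖(jet s p y).2.1 - (jet s p z).2.1‖ = ‖∇ (s.h p) y - ∇ (s.h p) z‖ from rfl]
  · rw [dist_eq_norm]
    refine (jet_hol H hy hz).trans (h1 ?_)
    rw [dist_zero_right, norm_norm]
    linarith [min_le_right δ (ρ / 2)]

end Vale.Agent.P134G
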