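import Vale.Agent.P134G.Defs
import Vale.Agent.P366Q.T.Usch

/-!
# The row HOL: the estimate of Schauder for graphs
-/

open Metric Set Filter Topology
open scoped ContDiff Gradient

namespace Vale.Agent.P134G

open Vale.Agent.P134L (E)
open Vale.Agent.P366M (HoB hoB_pi hoB_const)
open Vale.Agent.P366M.Y (usch_ball)

theorem hol_el {n : ℕ} (g : E n) (hg : ‖g‖ ≤ 1 / 10) (ξ : Fin n → ℝ) : P366Y.e2 ξ ≤ 16 * ∑ i, ∑ j,
    ((if i = j then 1 else 0) - (1 + ‖g‖ ^ 2)⁻¹ * (g i * g j)) * ξ i * ξ j := by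
  have e : ∑ i, ∑ j, ((if i = j then 1 else 0) - (1 + ‖g‖ ^ 2)⁻¹ * (g i * g j)) * ξ i * ξ j =
      ∑ i, ξ i ^ 2 - (1 + ‖g‖ ^ 2)⁻¹ * (∑ i, g i * ξ i) ^ 2 := by
    rw [sq (∑ i, _), Finset.sum_mul_sum, Finset.mul_sum, ← Finset.sum_sub_distrib]
    refine Finset.sum_congr rfl fun i _ => ?_
    simp only [sub_mul, Finset.sum_sub_distrib, ite_mul, zero_mul, Finset.sum_ite_eq,
      Finset.mem_univ, if_true, Finset.mul_sum]
    exact congrArg₂ _ (by ring) (Finset.sum_congr rfl fun j _ => by ring)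
  have c := Finset.sum_mul_sq_le_sq_mul_sq Finset.univ (fun i => g i) ξ
  have n : ∑ k, g k ^ 2 = ‖g‖ ^ 2 := by simp [EuclideanSpace.norm_sq_eq]
  have x0 : 0 ≤ ∑ i, ξ i ^ 2 := by positivity
  have w : (1 + ‖g‖ ^ 2)⁻¹ ≤ 1 := inv_le_one_of_one_le₀ (by nlinarith)
  have g2 : ‖g‖ ^ 2 ≤ 1 / 100 := by nlinarith [norm_nonneg g]
  have : (1 + ‖g‖ ^ 2)⁻¹ * (∑ i, g i * ξ i) ^ 2 ≤ 1 * (1 / 100 * ∑ i, ξ i ^ 2) := by
    rw [n] at c
    gcongr
    exact c.trans (by gcongr)
  rw [e]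
  unfold P366Y.e2
  linarith

/-- **HOL** -/
theorem hol : HOL := by
  intro m K
  have hα : (1 / 2 : ℝ) ∈ Ioo (0 : ℝ) 1 := by norm_num
  obtain ⟨C, C0, hC⟩ := usch_ball m 16 hα
  refine ⟨C * (8 * (|K| + 1)) + 1, fun h hs H y hy z hz i j => ?_⟩
  have c2 : ContDiff ℝ 2 h := contDiff_infty.1 hs 2
  have e2 : P366Y.D2 h = d2 h := funext fun y =>
    funext fun i => funext fun j => P366Z.pd_pd_eq c2.contDiffAt i j
  have e1 : P366Y.D1 h = fun y i => ∇ h y i := funext fun y => funext fun i => by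
    refine (P366Z.pd_eq (c2.differentiable (by norm_num) y) i).trans ?_
    rw [← InnerProductSpace.toDual_symm_apply, EuclideanSpace.inner_single_right]
    simp [gradient]
  have bd : ∀ y ∈ ball (0 : E m) 8, ∀ i j, |d2 h y i j| ≤ 1 / 10 := fun y hy i j => by
    have := (fderiv ℝ (fderiv ℝ h) y).le_opNorm₂ (ee i) (ee j)
    simp only [PiLp.norm_single, norm_one, mul_one] at this
    exact this.trans (H y hy).2.1
  have p0 : 0 ≤ C * (8 * (|K| + 1)) := by positivity
  have y8 := ball_subset_ball (show (4 : ℝ) ≤ 8 by norm_num) hy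
  have z8 := ball_subset_ball (show (4 : ℝ) ≤ 8 by norm_num) hz
  by_cases far : 1 ≤ ‖y - z‖
  · have h1 := Real.one_le_sqrt.2 far
    have h2 := abs_sub (d2 h y i j) (d2 h z i j)
    nlinarith [bd y y8 i j, bd z z8 i j]
  have sb : ball y 4 ⊆ ball 0 8 := ball_subset_ball' (by linarith [mem_ball.1 hy])
  have lg : ∀ u ∈ ball y 4, ∀ v ∈ ball y 4, ‖∇ h u - ∇ h v‖ ≤ 1 / 10 * ‖u - v‖ := fun u hu v hv => by
    have := (convex_ball y 4).norm_image_sub_le_of_norm_fderiv_le (𝕜 := ℝ) (f := fderiv ℝ h)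
      (fun w _ => ((c2.fderiv_right (m := 1) le_rfl).differentiable (by norm_num)) w)
      (fun w hw => (H w (sb hw)).2.1) hv hu
    rwa [gradient, gradient, ← map_sub, LinearIsometryEquiv.norm_map]
  have g1 : HoB 1 (1 / 10) (fun y i => ∇ h y i : E m → P366Y.Vc m) (ball y 4) :=
    hoB_pi (by norm_num) fun i => ⟨fun u hu => (PiLp.norm_apply_le _ i).trans (H u (sb hu)).1,
      fun u hu v hv => by
        rw [Real.rpow_one]
        exact (PiLp.norm_apply_le (∇ h u - ∇ h v) i).trans (lg u hu v hv)⟩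
  have g2 : HoB 1 1 (fun y => (1 + ‖∇ h y‖ ^ 2)⁻¹) (ball y 4) := by
    refine ⟨fun u _ => ?_, fun u hu v hv => ?_⟩
    · rw [Real.norm_of_nonneg (by positivity)]
      exact inv_le_one_of_one_le₀ (by nlinarith)
    · rw [Real.rpow_one, inv_sub_inv (by positivity) (by positivity), Real.norm_eq_abs, abs_div,
        abs_of_pos (a := _ * _) (by positivity), div_le_iff₀ (by positivity)]
      have a1 := (abs_norm_sub_norm_le _ _).trans (lg u hu v hv)
      have e : 1 + ‖∇ h v‖ ^ 2 - (1 + ‖∇ h u‖ ^ 2) =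
          -((‖∇ h u‖ - ‖∇ h v‖) * (‖∇ h u‖ + ‖∇ h v‖)) := by ring
      have a2 : 1 * 1 ≤ (1 + ‖∇ h u‖ ^ 2) * (1 + ‖∇ h v‖ ^ 2) := by gcongr <;> nlinarith
      rw [e, abs_neg, abs_mul, abs_of_nonneg (a := _ + _) (by positivity)]
      calc _ ≤ (1 / 10 * ‖u - v‖) * (1 / 10 + 1 / 10) := by
            gcongr
            exacts [(H u (sb hu)).1, (H v (sb hv)).1]
        _ ≤ _ := by nlinarith [norm_nonneg (u - v)]
  let a : E m → P366Y.Mx m := fun y i j =>
    (if i = j then 1 else 0) - (1 + ‖∇ h y‖ ^ 2)⁻¹ * (∇ h y i * ∇ h y j)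
  have g3 : HoB 1 2 a (ball y 4) := hoB_pi (by norm_num) fun i => hoB_pi (by norm_num) fun j =>
    (HoB.dif (hoB_const _) (HoB.mul g2 (HoB.mul (HoB.app g1 i) (HoB.app g1 j)))).mono
      (by split_ifs <;> norm_num)
  have e3 : ∀ u, P366Y.pr2 (a u) (P366Y.D2 h u) = mse h u := fun u => by
    simp only [P366Y.pr2, e2, a, mse, sub_mul, Finset.sum_sub_distrib, ite_mul, zero_mul, one_mul,
      Finset.sum_ite_eq, Finset.mem_univ, if_true, mul_assoc, ← Finset.mul_sum, div_eq_inv_mul]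
  have sd : ContDiff ℝ 1 (d2 h) := contDiff_pi.2 fun i => contDiff_pi.2 fun j =>
    (((((contDiff_infty.1 hs 3).fderiv_right (m := 2) le_rfl).fderiv_right (m := 1)
      le_rfl).clm_apply contDiff_const).clm_apply contDiff_const)
  obtain ⟨L, hL⟩ := sd.contDiffOn.exists_lipschitzOnWith (s := closedBall y 4) (by norm_num)
    (convex_closedBall y 4) (isCompact_closedBall y 4)
  have k := hC y a h (8 * (|K| + 1)) (fun u hu => ⟨fun i j => by simp only [a, eq_comm, mul_comm],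
      fun i j => ((HoB.app (HoB.app g3 i) j).1 u hu).trans (by norm_num),
      hol_el _ (H u (sb hu)).1⟩)
    ((HoB.of_one g3 subset_rfl hα.1.le hα.2.le).mono (by norm_num)) c2
    ⟨_, HoB.of_one (A := L + 1) (by
      rw [e2]
      refine ⟨fun u hu => (pi_norm_le_iff_of_nonneg (by positivity)).2 fun i =>
        (pi_norm_le_iff_of_nonneg (by positivity)).2 fun j => (bd u (sb hu) i j).trans
          (by linarith [L.coe_nonneg]), fun u hu v hv => ?_⟩
      rw [Real.rpow_one]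
      exact (hL.norm_sub_le (ball_subset_closedBall hu) (ball_subset_closedBall hv)).trans
        (by gcongr; linarith)) subset_rfl hα.1.le hα.2.le⟩
    (e1 ▸ HoB.of_one (g1.mono (by linarith [abs_nonneg K])) subset_rfl hα.1.le hα.2.le)
    (HoB.of_one ⟨fun u hu => by
        simp only [e3]; exact (H u (sb hu)).2.2.1.trans (by linarith [le_abs_self K]),
      fun u hu v hv => by
        simp only [e3, Real.rpow_one]
        exact ((H u (sb hu)).2.2.2 v (sb hv)).trans (by gcongr; linarith [le_abs_self K])⟩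
      subset_rfl hα.1.le hα.2.le)
  have := (HoB.app (HoB.app k i) j).2 y (mem_ball_self one_pos) z
    (by rw [mem_ball_iff_norm, norm_sub_rev]; exact not_le.1 far)
  rw [e2, ← Real.sqrt_eq_rpow] at this
  exact this.trans (by gcongr; linarith)

end Vale.Agent.P134G
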