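import Vale.Agent.P134G.Defs

/-!
# P134G: the integrand in the core and at the foot point
-/

open MeasureTheory Metric Set Filter Topology
open scoped ContDiff RealInnerProductSpace Gradient

noncomputable section

namespace Vale.Agent.P134G

open Vale.Agent.P134L (E)
open Vale.Agent.P366W (Fr adj norm_gradient contDiff_gradient)

namespace Ind

variable {m : ℕ} {s : Sh m} {p q x z : E (m + 1)} {C η K l R σ B : ℝ} {d G H : E (m + 1) → ℝ}

theorem fr (h : s.At p C η) : Fr (s.N p) (s.L p) := ⟨h.N1, h.NL⟩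

theorem sub_X (h : s.At p C η) (x : E (m + 1)) : x - s.X p (yy s p x) = ta s p x • s.N p := by
  have k := (fr h).dec (x - p)
  rw [ta, sub_smul, Sh.X, eq_sub_iff_add_eq, tt, eq_sub_of_add_eq' k, yy]
  abel

theorem X_sub (y : E m) : s.X p y - p = s.L p y + s.h p y • s.N p := by
  rw [Sh.X]
  abel

theorem yy_X (h : s.At p C η) (y : E m) : yy s p (s.X p y) = y := by
  rw [yy, X_sub, (fr h).adj_pt]

theorem yy_sub (h : s.At p C η) (x z : E (m + 1)) : ‖yy s p x - yy s p z‖ ≤ ‖x - z‖ := by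
  rw [yy, yy, ← map_sub, sub_sub_sub_cancel_right]
  exact (fr h).norm_adj _

theorem inner_le (h : s.At p C η) (v : E (m + 1)) : |⟪s.N p, v⟫| ≤ ‖v‖ :=
  (abs_real_inner_le_norm _ _).trans_eq (by rw [h.N1, one_mul])

theorem h_lip (h : s.At p C η) {y y' : E m} (hy : y ∈ ball (0 : E m) 4)
    (hy' : y' ∈ ball (0 : E m) 4) : |s.h p y - s.h p y'| ≤ 1 / 10 * ‖y - y'‖ :=
  (convex_ball (0 : E m) 4).norm_image_sub_le_of_norm_fderiv_le (𝕜 := ℝ)
    (fun u hu => (h.sm.contDiffAt (isOpen_ball.mem_nhds hu)).differentiableAt (by simp))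
    (fun u hu => (norm_gradient _ _).symm.trans_le (h.b1 u hu)) hy' hy

theorem zero (h : Hy K l R C η d s p) {y : E m} (hy : ‖y‖ < 4) : d (s.X p y) = 0 := by
  have k := h.da.mem y (mem_ball_zero_iff.2 hy)
  rwa [h.S] at k

/-- the distance to the foot point -/
theorem foot (h : Hy K l R C η d s p) (hx : x ∈ W σ d s p) :
    σ / 4 * ‖x - s.X p (yy s p x)‖ ≤ |d x| := by
  have k : ∀ θ : ℝ, HasDerivAt (fun θ : ℝ => d (x - (θ * ta s p x) • s.N p))
      (-(ta s p x * ⟪∇ d (x - (θ * ta s p x) • s.N p), s.N p⟫)) θ := fun θ => by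
    have h1 := (((hasDerivAt_id θ).mul_const (ta s p x)).smul_const (s.N p)).const_sub x
    refine ((h.ac.sm.differentiable (by simp) _).hasFDerivAt.comp_hasDerivAt θ h1).congr_deriv ?_
    simp
  obtain ⟨θ, hθ, e⟩ := exists_hasDerivAt_eq_slope _ _ one_pos
    (fun θ _ => (k θ).continuousAt.continuousWithinAt) fun θ _ => k θ
  have h2 := hx.2.2 θ (Ioo_subset_Icc_self hθ)
  rw [one_mul, ← sub_X h.da, sub_sub_cancel, zero h (by linarith [hx.1]), zero_mul, zero_smul,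
    sub_zero, sub_zero, div_one, zero_sub, neg_inj] at e
  rw [sub_X h.da, norm_smul, h.da.N1, mul_one, ← e, abs_mul, mul_comm]
  exact mul_le_mul_of_nonneg_left (h2.le.trans (le_abs_self _)) (abs_nonneg _)

/-- points near the disc are seen from the disc -/
theorem inW (h : Hy K l R C η d s q) (hσ : σ ≤ 1 / 10) {y : E m} (hz : s.X q y = z)
    (h1 : ‖z - q‖ ≤ 1 / 2) (h2 : ‖x - z‖ ≤ 1 / 10) (h3 : 9 / 10 ≤ ‖∇ d z‖)
    (h4 : ∀ v, ‖v - z‖ ≤ 3 * ‖x - z‖ → ‖∇ d v - ∇ d z‖ ≤ 1 / 10) : x ∈ W σ d s q := by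
  have a0 : yy s q z = y := hz ▸ yy_X h.da y
  have a1 : ‖y‖ ≤ 1 / 2 := a0 ▸ ((fr h.da).norm_adj _).trans h1
  have a2 : ‖x - q‖ < 1 := by linarith [norm_sub_le_norm_sub_add_norm_sub x z q]
  have a3 : ‖yy s q x‖ < 1 := ((fr h.da).norm_adj _).trans_lt a2
  have y4 : y ∈ ball (0 : E m) 4 := mem_ball_zero_iff.2 (by linarith)
  refine ⟨a3, (inner_le h.da _).trans_lt a2, fun θ hθ => ?_⟩
  have a4 := h_lip h.da (mem_ball_zero_iff.2 (by linarith : ‖yy s q x‖ < 4)) y4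
  have a5 := yy_sub h.da x z
  have a6 : ta s q x = ⟪s.N q, x - z⟫ - (s.h q (yy s q x) - s.h q y) := by
    rw [ta, tt, ← (fr h.da).e_pt y (s.h q y), ← X_sub, hz, inner_sub_right, inner_sub_right,
      inner_sub_right]
    ring
  have a7 : |ta s q x| ≤ 2 * ‖x - z‖ := by
    rw [a0] at a5
    linarith [abs_sub ⟪s.N q, x - z⟫ (s.h q (yy s q x) - s.h q y), inner_le h.da (x - z),
      norm_nonneg (x - z), congrArg abs a6]
  have a8 := h4 (x - (θ * ta s q x) • s.N q) (by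
    rw [sub_right_comm]
    refine (norm_sub_le _ _).trans ?_
    rw [norm_smul, h.da.N1, mul_one, Real.norm_eq_abs, abs_mul, abs_of_nonneg hθ.1]
    linarith [mul_le_of_le_one_left (abs_nonneg (ta s q x)) hθ.2])
  have a9 := inner_le h.da (∇ d (x - (θ * ta s q x) • s.N q) - ∇ d z)
  have b1 := congrArg (fun v => ⟪s.N q, v⟫) (h.da.nor y y4)
  have b2 : 0 < J (s.h q) y := by unfold J; positivity
  have b3 : J (s.h q) y ≤ 11 / 10 := Real.sqrt_le_iff.2 ⟨by norm_num, by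
    nlinarith [h.da.b1 y y4, norm_nonneg (∇ (s.h q) y)]⟩
  simp only [inner_smul_right, inner_sub_right, h.da.NL, (fr h.da).ee, sub_zero, mul_one] at b1
  rw [hz, show s.N z = ‖∇ d z‖⁻¹ • ∇ d z from congrFun h.N z, inner_smul_right,
    inv_mul_eq_iff_eq_mul₀ (by linarith), eq_mul_inv_iff_mul_eq₀ b2.ne'] at b1
  rw [inner_sub_right] at a9
  rw [real_inner_comm]
  have b4 : 4 / 5 ≤ ⟪s.N q, ∇ d z⟫ := by
    by_contra k
    nlinarith [not_le.1 k]
  linarith [neg_abs_le (⟪s.N q, ∇ d (x - (θ * ta s q x) • s.N q)⟫ - ⟪s.N q, ∇ d z⟫)]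

theorem lip (h : Tst B p G) (x z : E (m + 1)) :
    |G x - G z| ≤ B * ‖x - z‖ ∧ ‖∇ G x - ∇ G z‖ ≤ B * ‖x - z‖ :=
  ⟨convex_univ.norm_image_sub_le_of_norm_fderiv_le (𝕜 := ℝ)
    (fun u _ => h.sm.differentiable (by simp) u)
    (fun u _ => (norm_gradient _ _).symm.trans_le (h.b1 u)) (mem_univ _) (mem_univ _),
  convex_univ.norm_image_sub_le_of_norm_fderiv_le (𝕜 := ℝ)
    (fun u _ => (contDiff_gradient (k := 1) h.sm).differentiable (by simp) u)
    (fun u _ => h.b2 u) (mem_univ _) (mem_univ _)⟩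

theorem num {u v a a' α α' β β' D τ M : ℝ} (h1 : |u - 1| ≤ 8 * τ) (h2 : |v - 1| ≤ 8 * τ)
    (h3 : |v| ≤ 1) (h4 : |a - a'| ≤ 2 * τ) (h5 : |a'| ≤ M) (h6 : |α| ≤ D) (h7 : |β| ≤ D)
    (h8 : |α - α'| ≤ 2 * D * τ) (h9 : |β - β'| ≤ 2 * D * τ) :
    |u * α - v * a * β - (α' - a' * β')| ≤ 12 * (M + 1) * D * τ := by
  have t0 : 0 ≤ τ := by linarith [abs_nonneg (a - a')]
  have M0 := (abs_nonneg _).trans h5
  have D0 := (abs_nonneg _).trans h6
  have k1 : |(u - 1) * α| ≤ 8 * τ * D := by rw [abs_mul]; gcongr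
  have k2 : |v * (a - a') * β| ≤ 1 * (2 * τ) * D := by rw [abs_mul, abs_mul]; gcongr
  have k3 : |(v - 1) * a' * β| ≤ 8 * τ * M * D := by rw [abs_mul, abs_mul]; gcongr
  have k4 : |a' * (β - β')| ≤ M * (2 * D * τ) := by rw [abs_mul]; gcongr
  have k5 : 0 ≤ M * D * τ := by positivity
  rw [abs_le] at *
  constructor <;> linarith [k1.1, k1.2, k2.1, k2.2, k3.1, k3.2, k4.1, k4.2, h8.1, h8.2]

/-- the two integrands are close -/
theorem est {ϑ : ℝ → ℝ} {τ a : ℝ} (hϑ : Pf σ ϑ) (hG : Tst B p G) (hH : Tst B q H) (hσ : σ ≤ τ)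
    (hτ : τ ≤ 1 / 10) (h1 : 1 - τ ≤ ‖∇ d x‖) (h2 : ‖∇ d x‖ ≤ 1) (h3 : |an d x - a| ≤ 2 * τ)
    (h4 : |a| ≤ m + 1) (h5 : ‖x - z‖ ≤ τ) :
    |Ps ϑ d G H x - (⟪∇ G z, ∇ H z⟫ - a * (G z * H z))| ≤ 12 * (m + 1 + 1) * B ^ 2 * τ := by
  have B0 : 0 ≤ B := (abs_nonneg _).trans (hG.b0 x)
  have a0 := hϑ.s0
  have a1 := hϑ.d1 ‖∇ d x‖ (by linarith)
  have a2 := hϑ.tg _ (norm_nonneg (∇ d x))
  have a3 := hϑ.le _ (norm_nonneg (∇ d x))
  have a4 := hϑ.nn ‖∇ d x‖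
  have l1 := (lip hG x z).imp (·.trans (mul_le_mul_of_nonneg_left h5 B0))
    (·.trans (mul_le_mul_of_nonneg_left h5 B0))
  have l2 := (lip hH x z).imp (·.trans (mul_le_mul_of_nonneg_left h5 B0))
    (·.trans (mul_le_mul_of_nonneg_left h5 B0))
  have t0 : 0 ≤ B * τ := mul_nonneg B0 (by linarith)
  rw [a1] at a2
  rw [Ps, wa, a1, mul_one]
  refine num (abs_le.2 ⟨by nlinarith, by nlinarith⟩) (abs_le.2 ⟨by nlinarith, by nlinarith⟩)
    (abs_le.2 ⟨by nlinarith, by nlinarith⟩) h3 h4 ?_ ?_ ?_ ?_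
  · exact (abs_real_inner_le_norm _ _).trans ((mul_le_mul (hG.b1 x) (hH.b1 x) (norm_nonneg _)
      B0).trans_eq (sq B).symm)
  · exact (abs_mul _ _).trans_le ((mul_le_mul (hG.b0 x) (hH.b0 x) (abs_nonneg _) B0).trans_eq
      (sq B).symm)
  · rw [show ⟪∇ G x, ∇ H x⟫ - ⟪∇ G z, ∇ H z⟫ = ⟪∇ G x - ∇ G z, ∇ H x⟫ + ⟪∇ G z, ∇ H x - ∇ H z⟫ by
      rw [inner_sub_left, inner_sub_right]; ring]
    linarith [abs_add_le ⟪∇ G x - ∇ G z, ∇ H x⟫ ⟪∇ G z, ∇ H x - ∇ H z⟫,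
      (abs_real_inner_le_norm _ _).trans (mul_le_mul l1.2 (hH.b1 x) (norm_nonneg _) t0),
      (abs_real_inner_le_norm _ _).trans (mul_le_mul (hG.b1 z) l2.2 (norm_nonneg _) B0)]
  · rw [show G x * H x - G z * H z = (G x - G z) * H x + G z * (H x - H z) by ring]
    linarith [abs_add_le ((G x - G z) * H x) (G z * (H x - H z)),
      (abs_mul _ _).trans_le (mul_le_mul l1.1 (hH.b0 x) (abs_nonneg _) t0),
      (abs_mul _ _).trans_le (mul_le_mul (hG.b0 z) l2.1 (abs_nonneg _) B0)]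

theorem far (hH : Tst B q H) (hz : 1 / 2 < ‖z - q‖) : H z = 0 ∧ ∇ H z = 0 := by
  have h : H =ᶠ[𝓝 z] fun _ => 0 :=
    (continuousAt_const.eventually_lt (by fun_prop) hz : ∀ᶠ x in 𝓝 z, 1 / 2 < ‖x - q‖).mono
      fun x hx => hH.supp x hx.le
  exact ⟨hH.supp z hz.le, by simp [gradient, h.fderiv_eq]⟩

end Ind

open Ind in
/-- **IND** -/
theorem ind : IND := by
  intro ball core unq ha1 ha2 m K C B ε hε
  obtain ⟨τ, t0, t1, t2⟩ : ∃ τ : ℝ, 0 < τ ∧ τ ≤ 1 / 10 ∧ 12 * (m + 1 + 1) * B ^ 2 * τ ≤ ε := by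
    refine ⟨min (1 / 10) (ε / (12 * (m + 1 + 1) * B ^ 2 + 1)), by positivity, min_le_left _ _, ?_⟩
    refine (mul_le_mul (le_add_of_nonneg_right zero_le_one) (min_le_right _ _) (by positivity)
      (by positivity)).trans_eq (mul_div_cancel₀ _ (by positivity))
  refine ⟨τ, t0, fun σ hσ T => ?_⟩
  obtain ⟨A, hA⟩ : ∃ A, A = |4 * T / σ| := ⟨_, rfl⟩
  have A0 : 0 ≤ A := hA ▸ abs_nonneg _
  obtain ⟨l₁, p1, h1⟩ := ball (3 * A + 2 * |T|) τ t0
  obtain ⟨l₂, p2, h2⟩ := core ball m K T τ t0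
  obtain ⟨l₃, p3, h3⟩ := unq ball (3 * A + 2 * |T|)
  obtain ⟨δ, p4, h4⟩ := ha2 m C τ t0
  refine ⟨min (min l₁ l₂) (min l₃ (min τ δ / (3 * A + 2 * |T| + 1))), by positivity,
    fun l R η ϑ d s p q G H hϑ hp hq hG hH hl x hx hd => ?_⟩
  simp only [le_min_iff] at hl
  obtain ⟨⟨e1, e2⟩, e3, e4⟩ := hl
  have l0 := hp.ac.l0
  have s0 := hϑ.s0
  rw [le_div_iff₀' (by positivity), le_min_iff] at e4
  have a0 : 0 ≤ A * l := by positivity
  have a1 : T * l ≤ |T| * l := mul_le_mul_of_nonneg_right (le_abs_self T) l0.le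
  have a2 := (abs_nonneg _).trans hd
  have ft : ∀ {q}, Hy K l R C η d s q → x ∈ W σ d s q → ‖x - s.X q (yy s q x)‖ ≤ A * l :=
    fun hq hx => by
      refine le_trans ?_ (mul_le_mul_of_nonneg_right (hA ▸ le_abs_self (4 * T / σ)) l0.le)
      rw [div_mul_eq_mul_div, le_div_iff₀ s0]
      linarith [foot hq hx]
  obtain ⟨b1, b2⟩ := h1 m K l R d hp.ac e1
  have y1 := hx.1
  have y4 : yy s p x ∈ Metric.ball (0 : E m) 4 := mem_ball_zero_iff.2 (by linarith)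
  have f1 := ft hp hx
  have z0 := zero hp (y := yy s p x) (by linarith)
  have x1 : ‖x‖ + 2 ≤ R := by
    have k := (fr hp.da).norm_sq (yy s p x) (tt s p x)
    rw [yy, tt, (fr hp.da).dec, ← yy, ← tt, ← sq_abs (tt s p x)] at k
    have k2 : ‖x - p‖ ≤ 2 := le_of_sq_le_sq (by
      nlinarith [hx.2.1, abs_nonneg (tt s p x), norm_nonneg (yy s p x)]) zero_le_two
    linarith [hp.pR, norm_le_insert' x p]
  obtain ⟨z₁, c1, c2, c3⟩ := h2 l R d hp.ac e2 x (by linarith) hd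
  have c4 := h3 m K l R C η d s p hp e3 (yy s p x) (by linarith) z₁ c1 (by
    linarith [norm_sub_le_norm_sub_add_norm_sub z₁ x (s.X p (yy s p x)), norm_sub_rev z₁ x])
  have c5 := yy_sub hp.da x z₁
  have c6 : yy s p z₁ ∈ Metric.ball (0 : E m) 4 := mem_ball_zero_iff.2 (by
    linarith [norm_le_insert (yy s p x) (yy s p z₁)])
  obtain ⟨c7, c8⟩ := h4 s p η hp.da _ y4
  have c9 := c8 _ c6 (by linarith)
  rw [ha1 m K l R C η d s p hp _ c6, c4] at c9
  have key := (est (z := s.X p (yy s p x)) (a := s.A2 p (yy s p x)) hϑ hG hH hσ t1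
    (b1 x (by linarith) (by linarith)) (hp.ac.g1 x) (by
      linarith [abs_sub_le (an d x) (an d z₁) (s.A2 p (yy s p x)),
        abs_sub_comm (an d z₁) (s.A2 p (yy s p x))])
    (by rwa [abs_of_nonneg (Finset.sum_nonneg fun _ _ => sq_nonneg _)]) (by linarith)).trans t2
  unfold Pt
  generalize s.X p (yy s p x) = z at *
  have z1 : ‖z‖ + 1 ≤ R := by linarith [norm_le_insert x z]
  rcases lt_or_ge (1 / 2) ‖z - q‖ with hz | hz
  · obtain ⟨g1, g2⟩ := far hH hz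
    rw [g1, g2, inner_zero_right, mul_zero, mul_zero, sub_zero, sub_zero] at key
    rw [(indicator_apply_eq_zero (s := s.D q)).2 fun _ => by simp [g1, g2], sub_zero]
    exact (norm_indicator_le_norm_self (Ps ϑ d G H) x).trans key
  by_cases hw : x ∈ W σ d s q
  · have g1 := h3 m K l R C η d s q hq e3 (yy s q x) (by linarith [hw.1]) z z0 (by
      linarith [norm_sub_le_norm_sub_add_norm_sub z x (s.X q (yy s q x)), norm_sub_rev z x,
        ft hq hw])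
    rwa [indicator_of_mem hw, indicator_of_mem (s := s.D q) ⟨_, mem_ball_zero_iff.2
      (((fr hq.da).norm_adj _).trans_lt (by linarith)), g1⟩]
  · rw [indicator_of_notMem hw, indicator_of_notMem, sub_zero, abs_zero]
    · exact hε.le
    rintro ⟨y, -, hy⟩
    exact hw (inW hq hϑ.s1 hy hz (by linarith)
      (by linarith [b1 z (by linarith) (by rw [z0, abs_zero]; positivity)])
      fun v hv => (b2 z v z0 z1 (by linarith)).trans t1)

end Vale.Agent.P134G
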