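import Vale.Agent.P134G.Tool

/-!
# P134G: the curvature estimate for the scaled phase
-/

open MeasureTheory Metric Set Filter Topology
open scoped ContDiff RealInnerProductSpace Gradient

noncomputable section

namespace Vale.Agent.P134G

open Vale.Agent.P134L (E BERN)
open Vale.Agent.P366W (Fr)
open Vale.Agent.P134B (lg)

variable {n m : ℕ}

theorem ex_fr (e : E (m + 1)) : ∃ L : E m →ₗᵢ[ℝ] E (m + 1), ‖e‖ = 1 → Fr e L := by
  have key : ∀ e : E (m + 1), ‖e‖ = 1 → ∃ L : E m →ₗᵢ[ℝ] E (m + 1), Fr e L := fun e he => by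
    have : Fact (Module.finrank ℝ (E (m + 1)) = m + 1) := ⟨by simp⟩
    have h0 : e ≠ 0 := by rintro rfl; simp at he
    let b := OrthonormalBasis.fromOrthogonalSpanSingleton (𝕜 := ℝ) m h0
    refine ⟨(ℝ ∙ e)ᗮ.subtypeₗᵢ.comp b.repr.symm.toLinearIsometry, he, fun y => ?_⟩
    exact Submodule.mem_orthogonal_singleton_iff_inner_right.1 (b.repr.symm y).2
  by_cases he : ‖e‖ = 1
  · exact (key e he).imp fun _ h _ => h
  · exact (key (ee 0) (by simp)).imp fun _ _ h => absurd h he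

/-- the system of discs of the zero set -/
theorem ex_sh {K l R : ℝ} {d : E (m + 1) → ℝ} (ac : Ac K l R d) (hl : l ≤ 1 / 10) :
    ∃ s : Sh m, s.S = {x | d x = 0} ∧ ∀ p, d p = 0 → ‖p‖ + 30 ≤ R → G8 K l R d s p := by
  choose L hL using fun p => ex_fr (nu d p)
  have fr : ∀ p, d p = 0 → ‖p‖ + 30 ≤ R → Fr (nu d p) (L p) := fun p h0 hR => hL p (norm_nu (by
    have h1 := ac.zq (x := p) (by linarith) h0
    have h2 := ac.one_sub_q p
    rw [← norm_pos_iff]
    nlinarith [ac.l0]))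
  have : ∀ p, ∃ h : E m → ℝ, d p = 0 → ‖p‖ + 30 ≤ R → ContDiff ℝ ∞ h ∧ h 0 = 0 ∧
      ∀ y ∈ ball (0 : E m) 8, d (p + L p y + h y • nu d p) = 0 ∧
        ‖∇ d (p + L p y + h y • nu d p) - nu d p‖ ≤ 1 / 50 := fun p => by
    by_cases hp : d p = 0 ∧ ‖p‖ + 30 ≤ R
    · exact (ac.gr p (L p) hp.1 hp.2 (fr p hp.1 hp.2)).imp fun _ h _ _ => h
    · exact ⟨0, fun a b => absurd ⟨a, b⟩ hp⟩
  choose h hh using this
  exact ⟨⟨{x | d x = 0}, nu d, L, h⟩, rfl, fun p a b => ⟨⟨ac, rfl, rfl, a, b⟩, hl, fr p a b,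
    (hh p a b).1, (hh p a b).2.1, fun y hy => ((hh p a b).2.2 y hy).1,
    fun y hy => ((hh p a b).2.2 y hy).2⟩⟩

theorem at_of (form : FORM) (opn : OPN) (mc : MC) (hol : HOL) (m : ℕ) (K : ℝ) :
    ∃ C K' : ℝ, 0 ≤ K' ∧ ∀ (l R : ℝ) (d : E (m + 1) → ℝ) (s : Sh m) (p : E (m + 1)),
      G8 K l R d s p → s.At p C (K' * l) := by
  obtain ⟨K', hK⟩ := mc form K
  obtain ⟨C, hC⟩ := hol m |K'|
  refine ⟨C, |K'|, abs_nonneg _, fun l R d s p g => ?_⟩
  have f := form m K l R d s p g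
  have k := hK m l R d s p g
  have sub : ball (0 : E m) 4 ⊆ ball 0 8 := ball_subset_ball (by norm_num)
  have k1 : ∀ y ∈ ball (0 : E m) 8, |mse (s.h p) y| ≤ |K'| * l := fun y hy =>
    (k y hy).1.trans (mul_le_mul_of_nonneg_right (le_abs_self _) g.ac.l0.le)
  refine ⟨g.fr.one, g.fr.ort, g.sm.contDiffOn, g.h0, f.1, fun y hy => ?_,
    fun y hy => (f.2 y (sub hy)).nor, opn m K l R d s p g,
    fun y hy => (f.2 y (sub hy)).g1.trans (by norm_num),
    fun y hy => (f.2 y (sub hy)).h1.trans (by norm_num), hC _ g.sm fun y hy =>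
      ⟨(f.2 y hy).g1.trans (by norm_num), (f.2 y hy).h1.trans (by norm_num), (k1 y hy).trans ?_,
        fun z hz => ((k y hy).2 z hz).trans ?_⟩, fun y hy => k1 y (sub hy)⟩
  · rw [g.S]; exact g.ze y (sub hy)
  · nlinarith [g.l1, abs_nonneg K']
  · exact mul_le_mul_of_nonneg_right (le_abs_self _) (norm_nonneg _)

theorem Sh.At.mono {s : Sh m} {p : E (m + 1)} {C η η' : ℝ} (h : s.At p C η) (e : η ≤ η') :
    s.At p C η' := { h with mc := fun y hy => (h.mc y hy).trans e }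

theorem Tl.mono {M δ M' δ' l R : ℝ} {d : E n → ℝ} (h : Tl M δ l R d) (l0 : 0 < l) (l1 : l ≤ 1)
    (hM : M' ≤ M) (hδ : δ ≤ δ') : Tl M' δ' l R d := fun z x a b c => by
  have e : 0 ≤ l * lg l := mul_nonneg l0.le (neg_nonneg.2 (Real.log_nonpos l0.le l1))
  have t := h z x a b (c.trans_le (mul_le_mul_of_nonneg_right hM e))
  exact ⟨t.t0.trans hδ, fun τ k => (t.t1 τ k).trans (by gcongr), t.t2.trans hδ,
    t.t3.imp (fun k => k.trans hδ) fun k => le_trans (by linarith) k⟩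

theorem leafe : rLEAFE := by
  intro _ form opn mc hol fin stk m flat K ε hε
  by_contra hn
  push Not at hn
  choose l d hl ac tl d0 big using fun k : ℕ => hn (k + 30) k (1 / (k + 1) / 10) (by positivity)
  have z1 : Tendsto (fun k : ℕ => 1 / ((k : ℝ) + 1) / 10) atTop (𝓝 0) := by
    simpa using tendsto_one_div_add_atTop_nhds_zero_nat.div_const (10 : ℝ)
  have z2 : ∀ a > (0 : ℝ), ∀ᶠ k : ℕ in atTop, 1 / ((k : ℝ) + 1) / 10 ≤ a := fun a ha =>
    z1.eventually (ge_mem_nhds ha)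
  have z3 : ∀ a : ℝ, ∀ᶠ k : ℕ in atTop, a ≤ k := fun a =>
    tendsto_natCast_atTop_atTop.eventually (eventually_ge_atTop a)
  have l1 : ∀ k, l k ≤ 1 / 10 := fun k => (hl k).trans (by
    have : 1 / ((k : ℝ) + 1) ≤ 1 := by
      rw [div_le_one (by positivity)]; linarith [Nat.cast_nonneg (α := ℝ) k]
    linarith)
  choose s hS hs using fun k => ex_sh (ac k) (l1 k)
  obtain ⟨C, K', K0, hA⟩ := at_of form opn mc hol m K
  have g8 : ∀ k p, p ∈ (s k).S → ‖p‖ ≤ k → G8 K (l k) (k + 30) (d k) (s k) p := fun k p a b =>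
    hs k p (by rwa [hS k] at a) (by linarith)
  have z0 : ∀ k, 0 ∈ (s k).S := fun k => by rw [hS k]; exact d0 k
  have sq : Seq s C := ⟨z0, fun R η hη => ?_, fun R B n ε hε => ?_⟩
  · obtain ⟨δ, δ0, hδ⟩ := fin form m K ε hε
    have h1 : ∀ᶠ k in atTop, ∀ i j, |d2 ((s k).h 0) 0 i j| ≤ δ :=
      eventually_all.2 fun i => eventually_all.2 fun j =>
        ((flat s C sq i j).abs.eventually (ge_mem_nhds (by simpa using δ0)))
    obtain ⟨k, a, b⟩ := (h1.and (z2 δ δ0)).exists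
    exact (big k).not_ge (hδ _ _ _ _ _ (g8 k 0 (z0 k) (by simp)) ((hl k).trans b) a)
  · filter_upwards [z2 (η / (K' + 1)) (by positivity), z3 R] with k a b p hp hR
    refine (hA _ _ _ _ _ (g8 k p hp (hR.trans b))).mono ?_
    have := (hl k).trans a
    rw [le_div_iff₀ (by positivity)] at this
    nlinarith [(ac k).l0]
  · obtain ⟨M, δ, δ0, l₀, l0, H⟩ := stk m n K C B ε hε
    filter_upwards [z2 δ δ0, z2 l₀ l0, z3 R, z3 M] with k a b c e p G hp
    refine H (l k) _ (K' * l k) (d k) _ p G (ac k) ((hl k).trans b)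
      ((tl k).mono (ac k).l0 (by linarith [l1 k]) e a) fun i => ⟨?_, (hp i).2.2⟩
    have g := g8 k (p i) (hp i).1 ((hp i).2.1.trans c)
    exact ⟨g.toRl, hA _ _ _ _ _ g⟩

end Vale.Agent.P134G
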