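import Vale.Agent.P134G.Tool

/-!
# P134G: the restriction to a column
-/

open MeasureTheory Metric Set Filter Topology
open scoped ContDiff RealInnerProductSpace Gradient

noncomputable section

namespace Vale.Agent.P134G

open Vale.Agent.P134L (E)
open Vale.Agent.P366W (smooth_gradient)

theorem seg_iff (P : ℝ → Prop) (t : ℝ) :
    (∀ θ ∈ Icc (0 : ℝ) 1, P ((1 - θ) * t)) ↔ ∀ r ∈ uIcc t 0, P r := by
  rw [← segment_eq_uIcc, segment_eq_image, forall_mem_image]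
  simp only [smul_eq_mul, mul_zero, add_zero]

theorem line : LINE := fun hb T T1 η' η0 η1 => by
  obtain ⟨l₀, h0, hb⟩ := hb (2 * T) (η' / 2) (by positivity)
  refine ⟨min l₀ (1 / (4 * T)), by positivity,
    fun m σ K l R C η d s p s0 s1 h hl y hy => ?_⟩
  obtain ⟨b1, b2⟩ := hb m K l R d h.ac (hl.trans (min_le_left _ _))
  have l1 : 4 * T * l ≤ 1 := (le_div_iff₀' (by positivity)).1 (hl.trans (min_le_right _ _))
  have l0 := h.ac.l0
  have y1 := mem_ball_zero_iff.1 hy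
  have y4 : y ∈ ball (0 : E m) 4 := mem_ball_zero_iff.2 (by linarith)
  have hh := abs_le.1 (h.da.hle y4)
  have j1 := h.da.J_inv y4
  have j2 : (J (s.h p) y)⁻¹ ≤ 1 := inv_le_one_of_one_le₀ (J_one _ _)
  have mem : ∀ t, s.X p y + t • s.N p ∈ W σ d s p ↔ |s.h p y + t| < 1 ∧
      ∀ r ∈ uIcc t 0, σ / 4 < ⟪∇ d (s.X p y + r • s.N p), s.N p⟫ := fun t => by
    rw [mem_W_col h.da.fr,
      seg_iff (fun r => σ / 4 < ⟪∇ d (s.X p y + r • s.N p), s.N p⟫), and_iff_right y1]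
  have cl : ∀ t, |t| ≤ 2 * T * l →
      |⟪∇ d (s.X p y + t • s.N p), s.N p⟫ - (J (s.h p) y)⁻¹| ≤ η' := fun t ht => by
    have c1 := b1 _ (by linarith [h.XR y4]) (show |d (s.X p y)| ≤ 2 * T * l by
      rw [h.ze y4, abs_zero]
      positivity)
    have c2 := b2 (s.X p y) (s.X p y + t • s.N p) (h.ze y4) (by linarith [h.XR y4])
      (by rwa [add_sub_cancel_left, norm_smul, h.da.N1, mul_one, Real.norm_eq_abs])
    have c3 := abs_real_inner_le_norm (∇ d (s.X p y + t • s.N p) - ∇ d (s.X p y)) (s.N p)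
    rw [h.da.N1, mul_one, inner_sub_left, h.gN y4] at c3
    obtain ⟨c4, c5⟩ := abs_le.1 (c3.trans c2)
    have c6 := h.ac.g1 (s.X p y)
    rw [abs_le]
    constructor <;> nlinarith
  refine ⟨l0, T1, by positivity, η1, by linarith, fun t => hasDerivAt_line h.ac.sm _ _ t, ?_,
    by simpa using h.ze y4, ⟨fun a ha b hb r hr => ?_⟩, fun t ht => ?_, fun t ht => ?_,
    fun t ht => ⟨?_, cl t ht⟩⟩
  · have := (smooth_gradient h.ac.sm).continuous
    fun_prop
  · obtain ⟨a1, a2⟩ := (mem a).1 ha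
    obtain ⟨c1, c2⟩ := (mem b).1 hb
    refine (mem r).2 ⟨abs_lt.2 ⟨by linarith [(abs_lt.1 a1).1, hr.1],
      by linarith [(abs_lt.1 c1).2, hr.2]⟩, fun t ht => ?_⟩
    rcases mem_uIcc.1 ht with ht | ht
    · exact a2 t (mem_uIcc.2 (Or.inl ⟨hr.1.trans ht.1, ht.2⟩))
    · exact c2 t (mem_uIcc.2 (Or.inr ⟨ht.1, ht.2.trans hr.2⟩))
  · obtain ⟨a1, a2⟩ := abs_lt.1 ((mem t).1 ht).1
    exact ⟨by linarith [hh.2], by linarith [hh.1]⟩
  · exact (((mem t).1 ht).2 t left_mem_uIcc).le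
  · obtain ⟨a1, a2⟩ := abs_le.1 ht
    refine (mem t).2 ⟨abs_lt.2 ⟨by linarith [hh.1], by linarith [hh.2]⟩, fun r hr => ?_⟩
    have : |r| ≤ 2 * T * l := by
      rcases mem_uIcc.1 hr with hr | hr <;> rw [abs_le] <;> constructor <;>
        linarith [hr.1, hr.2, abs_nonneg t]
    linarith [(abs_le.1 (cl r this)).1]

end Vale.Agent.P134G
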