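import Vale.Agent.P134G.Defs

/-!
# The row MC: the mean curvature of the zero set
-/

open Metric Set Filter Topology
open scoped ContDiff Gradient RealInnerProductSpace

namespace Vale.Agent.P134G

open Vale.Agent.P134L (E)
open Vale.Agent.P366W

namespace McA

variable {n m : ℕ}

theorem symm {d : E n → ℝ} (h : ContDiff ℝ ∞ d) (x v w : E n) : ⟪Hs d x v, w⟫ = ⟪v, Hs d x w⟫ := by
  have c2 : ContDiff ℝ 2 d := contDiff_infty.1 h 2
  have dd := ((c2.fderiv_right (m := 1) le_rfl).differentiable (by norm_num)) x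
  have e : ∀ v w, ⟪Hs d x v, w⟫ = fderiv ℝ (fderiv ℝ d) x v w := fun v w => by
    have := ((InnerProductSpace.toDual ℝ (E n)).symm.toContinuousLinearEquiv.hasFDerivAt.comp x
      dd.hasFDerivAt).fderiv
    rw [show Hs d x = _ from this]
    simp
  rw [real_inner_comm _ v, e, e]
  exact (c2.contDiffAt.isSymmSndFDerivAt (by simp)) v w

theorem gq {d : E n → ℝ} (h : ContDiff ℝ ∞ d) (x v : E n) :
    ⟪∇ (qd d) x, v⟫ = -2 * ⟪Hs d x v, ∇ d x⟫ := by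
  have dd := ((smooth_gradient h).differentiable (by simp)) x
  have := (dd.hasFDerivAt.norm_sq.const_sub 1).fderiv
  rw [inner_grad, show qd d = fun x => 1 - ‖∇ d x‖ ^ 2 from rfl, this, real_inner_comm]
  simp [Hs]

theorem alg {e : E (m + 1)} {L : E m →ₗᵢ[ℝ] E (m + 1)} (fr : Fr e L) (S : E (m + 1) →L[ℝ] E (m + 1))
    (sy : ∀ v w, ⟪S v, w⟫ = ⟪v, S w⟫) (tr : trc S = 0) (b : E m) :
    ∑ i, ⟪S (L (ee i) + b i • e), L (ee i) + b i • e⟫ -
      (∑ i, ∑ j, b i * b j * ⟪S (L (ee i) + b i • e), L (ee j) + b j • e⟫) / (1 + ‖b‖ ^ 2) =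
      -(⟪S (e - L b), e - L b⟫ / (1 + ‖b‖ ^ 2)) := by
  have n : ∑ k, b k * b k = ‖b‖ ^ 2 := by simp [EuclideanSpace.norm_sq_eq, ← sq]
  have l : ∑ i, b i • L (ee i) = L b := by
    conv_rhs => rw [← sum_single b]
    simp
  have z : ∑ i, b i • (L (ee i) + b i • e) = L b + ‖b‖ ^ 2 • e := by
    simp only [smul_add, Finset.sum_add_distrib, l, smul_smul, ← Finset.sum_smul, n]
  have e2 : ∑ i, ∑ j, b i * b j * ⟪S (L (ee i) + b i • e), L (ee j) + b j • e⟫ =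
      ⟪S (L b + ‖b‖ ^ 2 • e), L b + ‖b‖ ^ 2 • e⟫ := by
    rw [← z, map_sum, sum_inner]
    refine Finset.sum_congr rfl fun i _ => ?_
    rw [inner_sum]
    refine Finset.sum_congr rfl fun j _ => ?_
    rw [map_smul S (b i), real_inner_smul_left, real_inner_smul_right, mul_assoc]
  have s1 : ∀ v, ⟪S v, e⟫ = ⟪S e, v⟫ := fun v => by rw [sy, real_inner_comm]
  have e3 : ∑ i, b i * ⟪S e, L (ee i)⟫ = ⟪S e, L b⟫ := by
    rw [← l, inner_sum]; simp only [real_inner_smul_right]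
  have e1 : ∑ i, ⟪S (L (ee i) + b i • e), L (ee i) + b i • e⟫ =
      ∑ i, ⟪L (ee i), S (L (ee i))⟫ + 2 * ⟪S e, L b⟫ + ‖b‖ ^ 2 * ⟪S e, e⟫ := by
    rw [← e3, ← n, Finset.mul_sum, Finset.sum_mul, ← Finset.sum_add_distrib,
      ← Finset.sum_add_distrib]
    refine Finset.sum_congr rfl fun i _ => ?_
    simp only [map_add, map_smul, inner_add_left, inner_add_right, real_inner_smul_left,
      real_inner_smul_right, s1 (L _), sy (L _) (L _)]
    ring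
  rw [fr.trc, ← sy e e] at tr
  rw [e1, e2, eq_neg_of_add_eq_zero_left tr]
  simp only [map_add, map_sub, map_smul, inner_add_left, inner_add_right, inner_sub_left,
    inner_sub_right, real_inner_smul_left, real_inner_smul_right, s1 (L _)]
  field_simp
  ring

theorem quo {n₁ n₂ D₁ D₂ K δ : ℝ} (h1 : 1 ≤ D₁) (h2 : 1 ≤ D₂) (a : |n₁ - n₂| ≤ 4 * K * δ)
    (b : |n₂| ≤ K) (c : |D₁ - D₂| ≤ δ) : |n₁ / D₁ - n₂ / D₂| ≤ 5 * K * δ := by
  have e : n₁ / D₁ - n₂ / D₂ = (n₁ - n₂) / D₁ - n₂ * (D₁ - D₂) / (D₁ * D₂) := by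
    field_simp; ring
  have k1 : |(n₁ - n₂) / D₁| ≤ 4 * K * δ := by
    rw [abs_div, abs_of_pos (by linarith : 0 < D₁)]
    exact (div_le_self (abs_nonneg _) h1).trans a
  have k2 : |n₂ * (D₁ - D₂) / (D₁ * D₂)| ≤ K * δ := by
    rw [abs_div, abs_of_pos (by positivity : 0 < D₁ * D₂), abs_mul]
    exact (div_le_self (by positivity) (by nlinarith)).trans
      (mul_le_mul b c (abs_nonneg _) ((abs_nonneg _).trans b))
  rw [e]
  linarith [abs_sub ((n₁ - n₂) / D₁) (n₂ * (D₁ - D₂) / (D₁ * D₂))]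

end McA

open McA in
/-- **MC** -/
theorem mc : MC := by
  intro form K
  refine ⟨5 * K, fun m l R d s p g => ?_⟩
  have fm := (form m K l R d s p g).2
  have ac := g.ac
  have K1 := ac.K1
  have l0 := ac.l0
  have l1 := g.l1
  have N1 := g.fr.one
  have xR : ∀ y ∈ ball (0 : E m) 8, ‖s.X p y‖ ≤ R := fun y hy => by
    linarith [norm_le_norm_add_norm_sub' (s.X p y) p, (fm y hy).x, g.pR]
  have f0 : ∀ y ∈ ball (0 : E m) 8, fd l d (s.X p y) = 1 / √2 := fun y hy => by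
    simp [fd, gp, gg, g.ze y hy]
  have q2 : ∀ y ∈ ball (0 : E m) 8, qd d (s.X p y) ≤ 2 * l ^ 2 := fun y hy => by
    have := ac.e _ (xR y hy)
    rw [f0 y hy, div_pow, Real.sq_sqrt zero_le_two] at this
    linarith
  have bQ : ∀ y ∈ ball (0 : E m) 8, ‖∇ (qd d) (s.X p y)‖ ≤ 2 * K * l := fun y hy =>
    (ac.q1 _).trans (by rw [div_le_iff₀ l0]; nlinarith [q2 y hy])
  have bH : ∀ y ∈ ball (0 : E m) 8, ‖Hs (qd d) (s.X p y)‖ ≤ 2 * K := fun y hy =>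
    (ac.q2 _).trans (by rw [div_le_iff₀ (by positivity)]; nlinarith [q2 y hy])
  have bS : ∀ y ∈ ball (0 : E m) 8, ‖Hs d (s.X p y)‖ ≤ 1 / 500 := fun y hy => by
    have := ac.h2 _ (xR y hy)
    rw [f0 y hy, one_div_mul_eq_div, div_le_iff₀ (by positivity)] at this
    nlinarith [Real.sqrt_two_lt_three_halves]
  have lip : ∀ (F : E (m + 1) → ℝ) (c : ℝ), ContDiff ℝ ∞ F →
      (∀ y ∈ ball (0 : E m) 8, ‖Hs F (s.X p y)‖ ≤ c) → ∀ y ∈ ball (0 : E m) 8,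
      ∀ z ∈ ball (0 : E m) 8, ‖∇ F (s.X p y) - ∇ F (s.X p z)‖ ≤ c * (3 / 2) * ‖y - z‖ := by
    intro F c hF hc y hy z hz
    have dX : ∀ w, HasFDerivAt (s.X p) ((s.L p).toContinuousLinearMap +
        (fderiv ℝ (s.h p) w).smulRight (s.N p)) w := fun w =>
      ((s.L p).toContinuousLinearMap.hasFDerivAt.const_add p).add
        ((g.sm.differentiable (by simp) w).hasFDerivAt.smul_const _)
    refine (convex_ball (0 : E m) 8).norm_image_sub_le_of_norm_hasFDerivWithin_le (𝕜 := ℝ)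
      (f := fun w => ∇ F (s.X p w)) (fun w _ => ((((smooth_gradient hF).differentiable (by simp))
        _).hasFDerivAt.comp w (dX w)).hasFDerivWithinAt) (fun w hw => ?_) hz hy
    refine (ContinuousLinearMap.opNorm_comp_le _ _).trans (mul_le_mul (hc w hw)
      ((norm_add_le _ _).trans ?_) (norm_nonneg _) ((norm_nonneg _).trans (hc w hw)))
    rw [ContinuousLinearMap.norm_smulRight_apply, N1, ← norm_gradient]
    linarith [(s.L p).norm_toContinuousLinearMap_le, (fm w hw).g1]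
  have sq : ContDiff ℝ ∞ (qd d) := contDiff_const.sub ((smooth_gradient ac.sm).norm_sq ℝ)
  have la : ∀ y ∈ ball (0 : E m) 8, 49 / 50 ≤ ⟪∇ d (s.X p y), s.N p⟫ := fun y hy => by
    have h1 := abs_real_inner_le_norm (∇ d (s.X p y) - s.N p) (s.N p)
    rw [inner_sub_left, g.fr.ee, N1] at h1
    linarith [g.ti y hy, neg_abs_le (⟪∇ d (s.X p y), s.N p⟫ - 1)]
  have ha : ∀ x, ⟪∇ d x, s.N p⟫ ≤ ‖∇ d x‖ := fun x => by
    simpa [N1] using real_inner_le_norm (∇ d x) (s.N p)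
  have fo : ∀ y ∈ ball (0 : E m) 8, mse (s.h p) y = -⟪∇ (qd d) (s.X p y), ∇ d (s.X p y)⟫ /
      (2 * ‖∇ d (s.X p y)‖ ^ 2 * ⟪∇ d (s.X p y), s.N p⟫) := fun y hy => by
    have a0 : ⟪∇ d (s.X p y), s.N p⟫ ≠ 0 := by linarith [la y hy]
    have P0 : ‖∇ d (s.X p y)‖ ≠ 0 := by linarith [la y hy, ha (s.X p y)]
    have e1 : s.N p - s.L p (∇ (s.h p) y) = ⟪∇ d (s.X p y), s.N p⟫⁻¹ • ∇ d (s.X p y) := by
      conv_rhs => rw [← g.fr.dec (∇ d (s.X p y)), smul_add, smul_smul]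
      rw [(fm y hy).g, map_smul, g.fr.dec, real_inner_comm (∇ d (s.X p y)), inv_mul_cancel₀ a0,
        one_smul, neg_smul, sub_neg_eq_add, add_comm (s.N p)]
    have e2 : 1 + ‖∇ (s.h p) y‖ ^ 2 = ⟪∇ d (s.X p y), s.N p⟫⁻¹ ^ 2 * ‖∇ d (s.X p y)‖ ^ 2 := by
      have := g.fr.norm_sq (-∇ (s.h p) y) 1
      rw [map_neg, one_smul, neg_add_eq_sub, e1, norm_smul, mul_pow, Real.norm_eq_abs, sq_abs,
        norm_neg] at this
      linarith
    have e3 := alg g.fr (Hs d (s.X p y)) (symm ac.sm _) (ac.tr _ (g.ze y hy)) (∇ (s.h p) y)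
    have e4 : ∀ i, dX s p y (ee i) = s.L p (ee i) + ∇ (s.h p) y i • s.N p := fun i => by
      rw [dX, EuclideanSpace.inner_single_right]; simp
    have e5 : mse (s.h p) y = -⟪∇ d (s.X p y), s.N p⟫⁻¹ * _ := Eq.trans (by
      simp only [mse, d2, (fm y hy).h, e4, mul_sub, ← mul_div_assoc, Finset.mul_sum]
      congr 2
      exact Finset.sum_congr rfl fun i _ => Finset.sum_congr rfl fun j _ => by ring)
      (congrArg _ e3)
    rw [e5, e1, e2, gq ac.sm, map_smul, real_inner_smul_left, real_inner_smul_right]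
    field_simp
  have D1 : ∀ y ∈ ball (0 : E m) 8, 1 ≤ 2 * ‖∇ d (s.X p y)‖ ^ 2 * ⟪∇ d (s.X p y), s.N p⟫ :=
    fun y hy => by
      have h1 := la y hy
      have h2 := h1.trans (ha _)
      calc (1 : ℝ) ≤ 2 * (49 / 50) ^ 2 * (49 / 50) := by norm_num
        _ ≤ _ := by gcongr
  have bn : ∀ y ∈ ball (0 : E m) 8, |-⟪∇ (qd d) (s.X p y), ∇ d (s.X p y)⟫| ≤ 2 * K * l :=
    fun y hy => by
      rw [abs_neg]
      exact (abs_real_inner_le_norm _ _).trans ((mul_le_mul (bQ y hy) (ac.g1 _) (norm_nonneg _)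
        (by positivity)).trans_eq (mul_one _))
  intro y hy
  refine ⟨?_, fun z hz => ?_⟩
  · rw [fo y hy, abs_div, abs_of_pos (a := _ * _) (by linarith [D1 y hy])]
    exact ((div_le_self (abs_nonneg _) (D1 y hy)).trans (bn y hy)).trans (by nlinarith)
  rw [fo y hy, fo z hz]
  have k1 := lip _ _ sq bH y hy z hz
  have k2 := lip _ _ ac.sm bS y hy z hz
  have δ0 := norm_nonneg (y - z)
  generalize ‖y - z‖ = δ at *
  refine quo (D1 y hy) (D1 z hz) ?_ ((bn z hz).trans (by nlinarith)) ?_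
  all_goals
    have g1 := ac.g1 (s.X p y)
    have g2 := ac.g1 (s.X p z)
    have b2 := bQ z hz
    have a1 := (la y hy).trans' (show (0 : ℝ) ≤ 49 / 50 by norm_num)
    have a2 := ha (s.X p y)
    generalize ∇ d (s.X p y) = P₁ at *
    generalize ∇ d (s.X p z) = P₂ at *
  · generalize ∇ (qd d) (s.X p y) = Q₁ at *
    generalize ∇ (qd d) (s.X p z) = Q₂ at *
    have e : -⟪Q₁, P₁⟫ - -⟪Q₂, P₂⟫ = -(⟪Q₁ - Q₂, P₁⟫ + ⟪Q₂, P₁ - P₂⟫) := by
      rw [inner_sub_left, inner_sub_right]; ring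
    have t1 : |⟪Q₁ - Q₂, P₁⟫| ≤ 2 * K * (3 / 2) * δ * 1 :=
      (abs_real_inner_le_norm _ _).trans (by gcongr)
    have t2 : |⟪Q₂, P₁ - P₂⟫| ≤ 2 * K * (1 / 10) * (1 / 500 * (3 / 2) * δ) :=
      (abs_real_inner_le_norm _ _).trans (by gcongr; exact b2.trans (by gcongr))
    rw [e, abs_neg]
    nlinarith [abs_add_le ⟪Q₁ - Q₂, P₁⟫ ⟪Q₂, P₁ - P₂⟫, mul_nonneg (zero_le_one.trans K1) δ0]
  · have e : 2 * ‖P₁‖ ^ 2 * ⟪P₁, s.N p⟫ - 2 * ‖P₂‖ ^ 2 * ⟪P₂, s.N p⟫ =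
        2 * ((‖P₁‖ - ‖P₂‖) * (‖P₁‖ + ‖P₂‖) * ⟪P₁, s.N p⟫ + ‖P₂‖ ^ 2 * ⟪P₁ - P₂, s.N p⟫) := by
      rw [inner_sub_left]; ring
    have t1 : |(‖P₁‖ - ‖P₂‖) * (‖P₁‖ + ‖P₂‖) * ⟪P₁, s.N p⟫| ≤
        1 / 500 * (3 / 2) * δ * (1 + 1) * 1 := by
      rw [abs_mul, abs_mul, abs_of_nonneg a1, abs_of_nonneg (a := _ + _) (by positivity)]
      gcongr
      exacts [(abs_norm_sub_norm_le _ _).trans k2, a2.trans g1]
    have t2 : |‖P₂‖ ^ 2 * ⟪P₁ - P₂, s.N p⟫| ≤ 1 ^ 2 * (1 / 500 * (3 / 2) * δ * 1) := by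
      rw [abs_mul, abs_of_nonneg (sq_nonneg _)]
      gcongr
      exact (abs_real_inner_le_norm _ _).trans (by rw [N1]; gcongr)
    rw [e, abs_mul, abs_two]
    linarith [abs_add_le ((‖P₁‖ - ‖P₂‖) * (‖P₁‖ + ‖P₂‖) * ⟪P₁, s.N p⟫) (‖P₂‖ ^ 2 * ⟪P₁ - P₂, s.N p⟫)]

end Vale.Agent.P134G
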