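import Vale.Agent.P134G.Tool

/-!
# P134G: the disc is open in the zero set
-/

open MeasureTheory Metric Set Filter Topology
open scoped ContDiff RealInnerProductSpace Gradient

noncomputable section

namespace Vale.Agent.P134G

open Vale.Agent.P134L (E)

theorem opn : OPN := by
  intro m K l R d s p h y hy
  have f := h.fr
  have hd := h.ac.sm
  have h8 : ∀ y ∈ ball (0 : E m) 4, y ∈ ball (0 : E m) 8 := fun y hy =>
    ball_subset_ball (by norm_num) hy
  have ha : 0 < ⟪∇ d (s.X p y), s.N p⟫ := by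
    have h1 := abs_real_inner_le_norm (∇ d (s.X p y) - s.N p) (s.N p)
    rw [inner_sub_left, f.ee, f.one, mul_one] at h1
    linarith [h.ti y (h8 y hy), neg_abs_le (⟪∇ d (s.X p y), s.N p⟫ - 1)]
  have hc : Continuous fun x => ⟪∇ d x, s.N p⟫ :=
    (P366W.smooth_gradient hd).continuous.inner continuous_const
  obtain ⟨ε, hε, hB⟩ := Metric.eventually_nhds_iff_ball.1
    (continuousAt_const.eventually_lt hc.continuousAt ha)
  have hX : Continuous (s.X p) := by
    have := h.sm.continuous
    unfold Sh.X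
    fun_prop
  have h1 : ∀ᶠ z in 𝓝 (s.X p y), yy s p z ∈ ball (0 : E m) 4 :=
    continuous_yy.continuousAt.eventually (by rw [yy_X f]; exact isOpen_ball.mem_nhds hy)
  have h2 : ∀ᶠ z in 𝓝 (s.X p y), s.X p (yy s p z) ∈ ball (s.X p y) ε :=
    (hX.comp continuous_yy).continuousAt.eventually (by
      rw [Function.comp_apply, yy_X f]; exact ball_mem_nhds _ hε)
  filter_upwards [self_mem_nhdsWithin, mem_nhdsWithin_of_mem_nhds h1,
    mem_nhdsWithin_of_mem_nhds h2, mem_nhdsWithin_of_mem_nhds (ball_mem_nhds _ hε)]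
    with z hz k1 k2 k3
  refine ⟨_, k1, ?_⟩
  have e := col_dec f z
  have z0 : d z = 0 := by rwa [h.S] at hz
  have z1 := h.ze _ (h8 _ k1)
  generalize s.X p (yy s p z) = a at e k2 z1
  generalize ta s p z = t at e
  obtain ⟨c, hc1, hc2⟩ := exists_hasDerivAt_eq_zero (f := fun θ : ℝ => d (a + θ • t • s.N p))
    one_pos (fun θ _ => (hasDerivAt_line hd a _ θ).continuousAt.continuousWithinAt)
    (by simp [e, z0, z1]) fun θ _ => hasDerivAt_line hd a _ θ
  have k4 : a + c • t • s.N p ∈ ball (s.X p y) ε :=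
    (convex_ball _ _).add_smul_mem k2 (by rwa [e]) ⟨hc1.1.le, hc1.2.le⟩
  rw [inner_smul_right, mul_eq_zero] at hc2
  rw [← e, hc2.resolve_right (hB _ k4).ne', zero_smul, add_zero]

end Vale.Agent.P134G
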