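import Vale.Agent.P134G.Defs

/-!
# P134G: the main term for a pair of discs
-/

open MeasureTheory Metric Set Filter Topology
open scoped ContDiff RealInnerProductSpace Gradient

noncomputable section

namespace Vale.Agent.P134G

open Vale.Agent.P134L (E)
open Vale.Agent.P366W (Fr adj contDiff_gradient smooth_gradient)

namespace PairA

theorem cgp : Continuous gp := by
  have h : Continuous Real.tanh := by
    rw [show Real.tanh = fun x => Real.sinh x / Real.cosh x from
      funext Real.tanh_eq_sinh_div_cosh]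
    exact Real.continuous_sinh.div Real.continuous_cosh fun x => (Real.cosh_pos x).ne'
  unfold gp gg
  fun_prop

theorem gp0 (t : ℝ) : 0 ≤ gp t :=
  div_nonneg (sub_nonneg.2 (Real.tanh_sq_lt_one _).le) (Real.sqrt_nonneg _)

theorem gp1 (t : ℝ) : gp t ≤ 1 := by
  have h : (1 : ℝ) ≤ √2 := Real.one_le_sqrt.2 (by norm_num)
  rw [gp, div_le_one (by linarith)]
  linarith [sq_nonneg (gg t)]

theorem gp2 (t : ℝ) : gp t ^ 2 ≤ gp t := by nlinarith [gp0 t, gp1 t]

/-- one column -/
theorem col {A : Set ℝ} {g f : ℝ → ℝ} {a P M e η l c : ℝ} (hA : MeasurableSet A)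
    (hb : A ⊆ Icc (-2) 2) (hg : Continuous g) (hf : Measurable f) (h1 : ∀ t ∈ A, |f t - P| ≤ e)
    (e0 : 0 ≤ e) (hP : |P| ≤ M) (a0 : 9 / 10 ≤ a) (h2 : ∫ t in A, gp (g t) ≤ 8 * l)
    (h3 : |a * (∫ t in A, gp (g t) ^ 2) - c| ≤ 8 * η * l) :
    |(∫ t in A, gp (g t) ^ 2 * f t) - c * (P * a⁻¹)| ≤ (8 * e + 16 * M * η) * l := by
  have c1 := cgp.comp hg
  have i1 : IntegrableOn (fun t => gp (g t)) A := (c1.integrableOn_Icc).mono_set hb
  have i2 : IntegrableOn (fun t => gp (g t) ^ 2) A := ((c1.pow 2).integrableOn_Icc).mono_set hb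
  have b1 : ∀ᵐ t ∂volume.restrict A, ‖gp (g t) ^ 2 * (f t - P)‖ ≤ e * gp (g t) := by
    filter_upwards [ae_restrict_mem hA] with t ht
    rw [Real.norm_eq_abs, abs_mul, abs_of_nonneg (sq_nonneg _), mul_comm]
    exact mul_le_mul (h1 t ht) (gp2 _) (sq_nonneg _) e0
  have i3 : IntegrableOn (fun t => gp (g t) ^ 2 * (f t - P)) A := (i1.const_mul e).mono'
    (((c1.pow 2).measurable.mul (hf.sub_const P)).aestronglyMeasurable) b1
  have b2 := norm_integral_le_of_norm_le (i1.const_mul e) b1
  have b3 : ∫ t in A, gp (g t) ^ 2 * f t =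
      (∫ t in A, gp (g t) ^ 2 * (f t - P)) + (∫ t in A, gp (g t) ^ 2) * P := by
    rw [← integral_mul_const, ← integral_add i3 (i2.mul_const P)]
    exact integral_congr_ae (.of_forall fun t => by ring)
  rw [integral_const_mul, Real.norm_eq_abs] at b2
  have a1 : 0 < a := by linarith
  have a2 : a⁻¹ ≤ 2 := by rw [inv_le_comm₀ a1 two_pos]; linarith
  have b4 : |(a * (∫ t in A, gp (g t) ^ 2) - c) * (P * a⁻¹)| ≤ 8 * η * l * (M * 2) := by
    rw [abs_mul, abs_mul P, abs_of_pos (inv_pos.2 a1)]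
    exact mul_le_mul h3 (mul_le_mul hP a2 (inv_pos.2 a1).le ((abs_nonneg _).trans hP))
      (by positivity) ((abs_nonneg _).trans h3)
  have b5 : (∫ t in A, gp (g t) ^ 2 * f t) - c * (P * a⁻¹) =
      (∫ t in A, gp (g t) ^ 2 * (f t - P)) +
        (a * (∫ t in A, gp (g t) ^ 2) - c) * (P * a⁻¹) := by
    rw [b3]; field_simp; ring
  rw [b5]
  linarith [abs_add_le (∫ t in A, gp (g t) ^ 2 * (f t - P))
    ((a * (∫ t in A, gp (g t) ^ 2) - c) * (P * a⁻¹)), mul_le_mul_of_nonneg_left h2 e0]

end PairA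

open PairA

theorem pair : rPAIR := by
  intro hI hB hC hU h1 h2 hQ hc hW hCol hL hF m K C B ε ε0
  set V := volume.real (ball (0 : E m) 1) + 1 with hV
  set M := ((m : ℝ) + 2) * B ^ 2 with hM
  have V0 : 0 < V := by positivity
  have M0 : 0 ≤ M := by positivity
  set e := ε / (16 * V) with he
  set η' := min (1 / 10) (ε / (32 * V * (M + 1))) with hη
  have e0 : 0 < e := by positivity
  have η0 : 0 < η' := by positivity
  have k0 : (8 * e + 16 * M * η') * V ≤ ε := by
    have a1 : e * (16 * V) = ε := div_mul_cancel₀ _ (by positivity)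
    have a2 : η' * (32 * V * (M + 1)) ≤ ε :=
      (le_div_iff₀ (by positivity)).1 (min_le_right _ _)
    nlinarith [mul_pos η0 V0]
  obtain ⟨σ₀, s0, H1⟩ := hI hB hC hU h1 h2 m K C B e e0
  refine ⟨σ₀, s0, fun σ hσ T hT => ?_⟩
  obtain ⟨l₁, l1, H2⟩ := H1 σ hσ T
  obtain ⟨l₂, l2, H3⟩ := hL hB T hT η' η0 (min_le_left _ _)
  refine ⟨min l₁ l₂, lt_min l1 l2, fun l R η ϑ d s p q G H pf hp hq tG tH hl => ?_⟩
  replace H2 := H2 l R η ϑ d s p q G H pf hp hq tG tH (hl.trans (min_le_left _ _))
  replace H3 := H3 m σ K l R C η d s p pf.s0 (by linarith [pf.s1]) hp (hl.trans (min_le_right _ _))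
  obtain ⟨-, q2, q3⟩ := hQ h2 m s p q C η B G H hp.da hq.da tG tH
  have fr : Fr (s.N p) (s.L p) := ⟨hp.da.N1, hp.da.NL⟩
  have sd := hp.ac.sm
  have cd := sd.continuous
  have l0 := hp.ac.l0
  have cP : Continuous (Ps ϑ d G H) := by
    have a1 := (smooth_gradient sd).continuous
    have a2 := (contDiff_gradient (k := 1) tG.sm).continuous
    have a3 := (contDiff_gradient (k := 1) tH.sm).continuous
    have a4 := hc _ σ ϑ d pf sd
    have a5 := pf.c2.continuous
    have a6 := tG.sm.continuous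
    have a7 := tH.sm.continuous
    unfold Ps
    fun_prop
  have mP : Measurable ((W σ d s q).indicator (Ps ϑ d G H)) :=
    cP.measurable.indicator (hW m σ C η d s q sd hq.da).measurableSet
  have mA : MeasurableSet (W σ d s p ∩ {x | |d x| ≤ T * l}) :=
    (hW m σ C η d s p sd hp.da).measurableSet.inter
      (isClosed_le cd.abs continuous_const).measurableSet
  have cf : Continuous (fd l d) := cgp.comp (cd.div_const l)
  have iF : Integrable (Fp l T σ ϑ d s p q G H) := by
    refine (integrable_indicator_iff mA).2 (Measure.integrableOn_of_bounded (M := e + M)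
      ((measure_mono fun x hx => ?_).trans_lt (measure_closedBall_lt_top (x := p) (r := 2))).ne
      ((cf.pow 2).measurable.mul mP).aestronglyMeasurable ?_)
    · have a1 := fr.norm_sq (yy s p x) (tt s p x)
      rw [show s.L p (yy s p x) + tt s p x • s.N p = x - p from fr.dec _] at a1
      have a2 := pow_le_pow_left₀ (norm_nonneg _) hx.1.1.le 2
      have a3 := pow_le_pow_left₀ (abs_nonneg _) hx.1.2.1.le 2
      rw [mem_closedBall_iff_norm]
      rw [sq_abs] at a3
      nlinarith [norm_nonneg (x - p)]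
    · filter_upwards [ae_restrict_mem mA] with x hx
      have a1 := abs_le.1 (H2 x hx.1 hx.2)
      have a2 := abs_le.1 (q2 _ (mem_ball_zero_iff.2 hx.1.1))
      rw [Real.norm_eq_abs, abs_mul, abs_of_nonneg (sq_nonneg _)]
      exact (mul_le_of_le_one_left (abs_nonneg _) ((gp2 _).trans (gp1 _))).trans
        (abs_le.2 ⟨by linarith, by linarith⟩)
  refine ⟨iF, ?_⟩
  obtain ⟨f1, f2⟩ := hF m C η s p _ hp.da iF fun x hx =>
    indicator_of_notMem (fun k => absurd k.1.1 (not_lt.2 hx)) _
  rw [f2, ← integral_const_mul, ← integral_sub f1 (q3.const_mul _), ← Real.norm_eq_abs]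
  refine (norm_setIntegral_le_of_norm_le_const (C := (8 * e + 16 * M * η') * l)
    measure_ball_lt_top fun y hy => ?_).trans ?_
  · have co := H3 y hy
    obtain ⟨-, c2, c3⟩ := hCol.2 _ _ _ _ _ _ _ _ co
    have ct : Continuous fun t : ℝ => s.X p y + t • s.N p := by fun_prop
    have yt : ∀ t : ℝ, yy s p (s.X p y + t • s.N p) = y := fun t => by
      rw [yy, Sh.X, show p + s.L p y + s.h p y • s.N p + t • s.N p - p =
        s.L p y + (s.h p y + t) • s.N p by module, fr.adj_pt]
    have := col (f := fun t => (W σ d s q).indicator (Ps ϑ d G H) (s.X p y + t • s.N p))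
      (ct.measurable mA) (fun t ht => co.bd ht.1) ((cd.comp ct).div_const l)
      (mP.comp ct.measurable) (fun t ht => by simpa only [yt t] using H2 _ ht.1 ht.2) e0.le
      (q2 y hy) co.a0 c2 c3
    rw [inv_inv, ← integral_indicator (ct.measurable mA)] at this
    exact this
  · nlinarith [mul_le_mul_of_nonneg_right k0 l0.le,
      mul_nonneg (show 0 ≤ 8 * e + 16 * M * η' by positivity) l0.le]

end Vale.Agent.P134G
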