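import Vale.Agent.P134G.Defs

/-!
# P134G: the pointwise inequality
-/

open MeasureTheory Metric Set Filter Topology
open scoped ContDiff RealInnerProductSpace Gradient

noncomputable section

namespace Vale.Agent.P134G

open Vale.Agent.P134L (E)

namespace Pw

variable {n : ℕ}

theorem gp0 (t : ℝ) : 0 ≤ gp t := by
  have := Real.tanh_sq_lt_one (t / √2)
  unfold gp gg
  exact div_nonneg (by linarith) (by positivity)

theorem gp1 (t : ℝ) : gp t ≤ 1 := by
  have h : (1 : ℝ) ≤ √2 := Real.one_le_sqrt.2 (by norm_num)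
  unfold gp
  rw [div_le_one (by positivity)]
  nlinarith [sq_nonneg (gg t)]

theorem gmul {f g : E n → ℝ} {x : E n} (hf : DifferentiableAt ℝ f x)
    (hg : DifferentiableAt ℝ g x) : ∇ (fun y => f y * g y) x = f x • ∇ g x + g x • ∇ f x := by
  unfold gradient
  rw [fderiv_fun_mul hf hg]
  simp

theorem nsq {k : ℕ} (v : Fin k → E n) : ‖∑ i, v i‖ ^ 2 ≤ k * ∑ i, ‖v i‖ ^ 2 := by
  have h := sq_sum_le_card_mul_sum_sq (s := Finset.univ) (f := fun i => ‖v i‖)
  simp only [Finset.card_univ, Fintype.card_fin] at h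
  exact (pow_le_pow_left₀ (norm_nonneg _) (norm_sum_le _ _) 2).trans h

end Pw

open Pw

theorem pw : PW := by
  intro k B c hc
  refine ⟨k * B ^ 2 * (7 + 2 * c), by positivity, ?_⟩
  intro m l T σ ϑ d b ξ s p G x hϑ hG hb b0 b1 g1 hcut hW e0 e1
  classical
  set w : Fin k → ℝ := fun i => if x ∈ W σ d s (p i) then 1 else 0 with hw
  have w0 : ∀ i, 0 ≤ w i := fun i => by simp only [hw]; split_ifs <;> norm_num
  have dG : ∀ i, DifferentiableAt ℝ (G i) x := fun i =>
    (hG i).sm.differentiable (by norm_num) x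
  have f0 : 0 ≤ fd l d x := gp0 _
  have f1 : fd l d x ≤ 1 := gp1 _
  have t0 := hϑ.nn ‖∇ d x‖
  have t1 : ϑ ‖∇ d x‖ ≤ 1 := (hϑ.le _ (norm_nonneg _)).trans g1
  have a0 : 0 ≤ wa ϑ d x := by
    have := hϑ.d0 ‖∇ d x‖
    unfold wa an
    positivity
  have s0 := hϑ.s0
  have G2 : ∀ i, G i x ^ 2 ≤ B ^ 2 := fun i => sq_le_sq' (abs_le.1 ((hG i).b0 x)).1
    (abs_le.1 ((hG i).b0 x)).2
  have G3 : ∀ i, ‖∇ (G i) x‖ ^ 2 ≤ B ^ 2 := fun i =>
    pow_le_pow_left₀ (norm_nonneg _) ((hG i).b1 x) 2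
  have x2 : ξ x ^ 2 ≤ k * B ^ 2 * ∑ i, w i := by
    have h := sq_sum_le_card_mul_sum_sq (s := Finset.univ)
      (f := fun i => (W σ d s (p i)).indicator (fun x => G i x * b x) x)
    simp only [Finset.card_univ, Fintype.card_fin] at h
    rw [e0, mul_assoc, Finset.mul_sum _ _ (B ^ 2)]
    refine h.trans (mul_le_mul_of_nonneg_left (Finset.sum_le_sum fun i _ => ?_) (by positivity))
    by_cases hx : x ∈ W σ d s (p i)
    · simp only [hw, hx, indicator_of_mem, if_true, mul_one, mul_pow]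
      exact (mul_le_of_le_one_right (sq_nonneg _) (pow_le_one₀ b0 b1)).trans (G2 i)
    · simp [hw, hx]
  have hS : 0 ≤ ∑ i, w i := Finset.sum_nonneg fun i _ => w0 i
  have kB : (0 : ℝ) ≤ k * B ^ 2 := by positivity
  have hF : ∑ i, Ft l T σ d s (p i) x =
      fd l d x * (σ + {x | T * l < |d x|}.indicator 1 x) * ∑ i, w i := by
    rw [Finset.mul_sum]
    refine Finset.sum_congr rfl fun i _ => ?_
    by_cases hx : x ∈ W σ d s (p i) <;> simp [Ft, hw, hx]
  have x3 : 5 * σ * fd l d x * ξ x ^ 2 ≤ 5 * σ * fd l d x * (k * B ^ 2 * ∑ i, w i) :=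
    mul_le_mul_of_nonneg_left x2 (by positivity)
  have P0 : 0 ≤ k * B ^ 2 * (fd l d x * σ * ∑ i, w i) := by positivity
  have P1 : 0 ≤ k * B ^ 2 * (fd l d x * ∑ i, w i) := by positivity
  rw [hF]
  unfold sz
  by_cases hco : |d x| ≤ T * l
  · rw [indicator_of_notMem (by simpa using hco), add_zero]
    have key : fd l d x ^ 2 * (ϑ ‖∇ d x‖ ^ 2 * ‖∇ ξ x‖ ^ 2 - wa ϑ d x * ξ x ^ 2) =
        ∑ i, ∑ j, Fp l T σ ϑ d s (p i) (p j) (G i) (G j) x := by
      by_cases hσ : σ < ‖∇ d x‖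
      · obtain ⟨c1, c2⟩ := (hcut hσ).2 hco
        rw [← real_inner_self_eq_norm_sq, e1, e0, sum_inner, sq (∑ i, _), Finset.sum_mul_sum,
          Finset.mul_sum, Finset.mul_sum, ← Finset.sum_sub_distrib, Finset.mul_sum]
        refine Finset.sum_congr rfl fun i _ => ?_
        rw [inner_sum, Finset.mul_sum, Finset.mul_sum, ← Finset.sum_sub_distrib, Finset.mul_sum]
        refine Finset.sum_congr rfl fun j _ => ?_
        by_cases hi : x ∈ W σ d s (p i) <;> by_cases hj : x ∈ W σ d s (p j) <;>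
          simp [Fp, Ps, hi, hj, hco, gmul (dG _) hb, c1, c2]
      · have hn : ∀ i, x ∉ W σ d s (p i) := fun i h => hσ (hW i h hco)
        simp [e0, e1, Fp, hn]
    rw [key]
    nlinarith [mul_nonneg hc P0]
  · rw [indicator_of_mem (by simpa using hco)]
    have z : ∑ i, ∑ j, Fp l T σ ϑ d s (p i) (p j) (G i) (G j) x = 0 := by simp [Fp, hco]
    have key : fd l d x ^ 2 * (ϑ ‖∇ d x‖ ^ 2 * ‖∇ ξ x‖ ^ 2) ≤
        k * B ^ 2 * (fd l d x * ∑ i, w i) * (2 + 2 * c) := by
      by_cases hσ : σ < ‖∇ d x‖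
      · have c1 := (hcut hσ).1
        have v2 : ‖∇ ξ x‖ ^ 2 ≤ k * B ^ 2 * (∑ i, w i) * (2 + 2 * ‖∇ b x‖ ^ 2) := by
          rw [e1, mul_assoc, mul_assoc, Finset.sum_mul, Finset.mul_sum _ _ (B ^ 2)]
          refine (nsq _).trans (mul_le_mul_of_nonneg_left (Finset.sum_le_sum fun i _ => ?_)
            (by positivity))
          by_cases hx : x ∈ W σ d s (p i)
          · simp only [hw, hx, indicator_of_mem, if_true, one_mul, gmul (dG i) hb]
            have h1 := norm_add_le (G i x • ∇ b x) (b x • ∇ (G i) x)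
            rw [norm_smul, norm_smul, Real.norm_eq_abs, Real.norm_of_nonneg b0] at h1
            have h2 := pow_le_pow_left₀ (norm_nonneg _) h1 2
            have h3 : (|G i x| * ‖∇ b x‖) ^ 2 ≤ B ^ 2 * ‖∇ b x‖ ^ 2 := by
              rw [mul_pow, sq_abs]
              exact mul_le_mul_of_nonneg_right (G2 i) (sq_nonneg _)
            have h4 : (b x * ‖∇ (G i) x‖) ^ 2 ≤ B ^ 2 := by
              rw [mul_pow]
              exact (mul_le_of_le_one_left (sq_nonneg _) (pow_le_one₀ b0 b1)).trans (G3 i)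
            nlinarith [sq_nonneg (|G i x| * ‖∇ b x‖ - b x * ‖∇ (G i) x‖)]
          · simp [hw, hx]
        have v3 : ϑ ‖∇ d x‖ ^ 2 * ‖∇ ξ x‖ ^ 2 ≤ _ :=
          (mul_le_of_le_one_left (sq_nonneg _) (pow_le_one₀ t0 t1)).trans v2
        have v4 := mul_le_mul_of_nonneg_left v3 (sq_nonneg (fd l d x))
        have v5 : fd l d x * (2 + 2 * ‖∇ b x‖ ^ 2) ≤ 2 + 2 * c := by linarith
        have v6 := mul_le_mul_of_nonneg_left v5 P1
        nlinarith
      · rw [hϑ.z _ (not_lt.1 hσ)]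
        simp only [ne_eq, OfNat.ofNat_ne_zero, not_false_eq_true, zero_pow, zero_mul, mul_zero]
        positivity
    rw [z, Pi.one_apply]
    have : 0 ≤ fd l d x ^ 2 * (wa ϑ d x * ξ x ^ 2) := by positivity
    nlinarith [mul_nonneg hc P0]

end Vale.Agent.P134G
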