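import Vale.Agent.P134G.Tool

/-!
# P134G: integrability on the disc
-/

open MeasureTheory Metric Set Filter Topology
open scoped ContDiff RealInnerProductSpace Gradient

noncomputable section

namespace Vale.Agent.P134G

open Vale.Agent.P134L (E)

theorem qi : QI := fun ha m s p q C η B G H hp hq hG hH => by
  have sb : ball (0 : E m) 1 ⊆ ball 0 4 := ball_subset_ball (by norm_num)
  have cX : ∀ {p}, s.At p C η → ContinuousOn (s.X p) (ball 0 1) := fun {p} h =>
    (continuousOn_const.add (s.L p).continuous.continuousOn).add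
      ((h.sm.continuousOn.mono sb).smul continuousOn_const)
  have cA : ContinuousOn (s.A2 p) (ball 0 1) := Metric.continuousOn_iff.2 fun y hy ε e0 => by
    obtain ⟨δ, d0, h⟩ := ha m C (ε / 2) (by positivity)
    exact ⟨δ, d0, fun z hz h1 => ((h s p η hp z (sb hz)).2 y (sb hy)
      (dist_eq_norm z y ▸ h1.le)).trans_lt (half_lt_self e0)⟩
  have mD : MeasurableSet (s.D q) := measurableSet_ball.image_of_continuousOn_injOn (cX hq)
    fun y _ z _ h => by rw [← yy_X hq.fr y, h, yy_X hq.fr]
  have cg : ∀ {F : E (m + 1) → ℝ}, ContDiff ℝ 2 F → Continuous (∇ F) := fun h =>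
    (P366W.contDiff_gradient (k := 1) (by simpa [one_add_one_eq_two] using h)).continuous
  have m1 : AEStronglyMeasurable (Pt s p q G H) (volume.restrict (ball 0 1)) :=
    (((((cg hG.sm).comp_continuousOn (cX hp)).inner (𝕜 := ℝ) ((cg hH.sm).comp_continuousOn (cX hp))).sub
      (cA.mul ((hG.sm.continuous.comp_continuousOn (cX hp)).mul
        (hH.sm.continuous.comp_continuousOn (cX hp))))).aestronglyMeasurable
          measurableSet_ball).indicator₀
      (((cX hp).aemeasurable measurableSet_ball).nullMeasurableSet_preimage mD)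
  have B0 : 0 ≤ B := (abs_nonneg _).trans (hG.b0 0)
  have bd : ∀ y ∈ ball (0 : E m) 1, |Pt s p q G H y| ≤ (m + 2) * B ^ 2 := fun y hy => by
    refine le_trans (norm_indicator_le_norm_self (fun x => ⟪∇ G x, ∇ H x⟫ - s.A2 p y * (G x * H x))
      (s.X p y)) ((abs_sub _ _).trans ?_)
    obtain ⟨δ, -, h⟩ := ha m C 1 one_pos
    have a0 : 0 ≤ s.A2 p y := Finset.sum_nonneg fun _ _ => sq_nonneg _
    have a1 := (abs_real_inner_le_norm _ _).trans
      (mul_le_mul (hG.b1 (s.X p y)) (hH.b1 (s.X p y)) (norm_nonneg _) B0)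
    have a2 := mul_le_mul (h s p η hp y (sb hy)).1
      (mul_le_mul (hG.b0 (s.X p y)) (hH.b0 (s.X p y)) (abs_nonneg _) B0) (by positivity)
      (by positivity)
    rw [abs_mul, abs_mul, abs_of_nonneg a0]
    linarith
  have cJ : ContinuousOn (J (s.h p)) (ball 0 1) := fun y hy => by
    have : ContinuousAt (∇ (s.h p)) y :=
      (InnerProductSpace.toDual ℝ (E m)).symm.continuous.continuousAt.comp
        ((hp.cda (sb hy)).continuousAt_fderiv (by simp))
    exact (continuousAt_const.add (this.norm.pow 2)).sqrt.continuousWithinAt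
  refine ⟨m1, bd, .of_bound measure_ball_lt_top
    (m1.mul (cJ.aestronglyMeasurable measurableSet_ball)) ((m + 2) * B ^ 2 * (101 / 100))
    ((ae_restrict_iff' measurableSet_ball).2 (.of_forall fun y hy => ?_))⟩
  rw [norm_mul, Real.norm_of_nonneg (zero_le_one.trans (J_one _ y))]
  exact mul_le_mul (bd y hy) (hp.J_le (sb hy)) (zero_le_one.trans (J_one _ y)) (by positivity)

end Vale.Agent.P134G
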