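import Vale.Agent.P134G.Defs

/-!
# P134G: no jump at the boundary of the region which is seen from a disc
-/

open MeasureTheory Metric Set Filter Topology
open scoped ContDiff RealInnerProductSpace Gradient

noncomputable section

namespace Vale.Agent.P134G

open Vale.Agent.P134L (E)
open Vale.Agent.P366W (Fr adj inner_grad smooth_gradient)
open Vale.Agent.P134B (lg)

namespace Reg

variable {n m : ℕ}

theorem hs_eq {d : E n → ℝ} (hd : ContDiff ℝ ∞ d) (x v w : E n) :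
    ⟪Hs d x v, w⟫ = fderiv ℝ (fderiv ℝ d) x v w := by
  have h1 : DifferentiableAt ℝ (fderiv ℝ d) x :=
    ((hd.fderiv_right (m := 1) (by norm_cast)).differentiable (by simp)).differentiableAt
  have h2 := (InnerProductSpace.toDual ℝ (E n)).symm.toContinuousLinearEquiv.hasFDerivAt.comp x
    h1.hasFDerivAt
  have h3 : Hs d x = _ := h2.fderiv
  rw [h3]
  simp

theorem hs_symm {d : E n → ℝ} (hd : ContDiff ℝ ∞ d) (x v w : E n) :
    ⟪Hs d x v, w⟫ = ⟪Hs d x w, v⟫ := by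
  rw [hs_eq hd, hs_eq hd]
  exact (hd.contDiffAt.isSymmSndFDerivAt (by simp; norm_cast)) v w

/-- where the slope in the direction `N` is small, the gradient is small and the slope moves -/
theorem zs_key {σ l : ℝ} {d : E n → ℝ} {e N x : E n} (hd : ContDiff ℝ ∞ d) (s0 : 0 < σ)
    (s1 : σ ≤ 1 / 10) (l0 : 0 < l) (he : ‖e‖ = 1) (hN : ‖N‖ = 1) (ha : 99 / 100 ≤ ⟪N, e⟫)
    (hz : Zs (σ / 100) l d e x) (hk : ⟪∇ d x, N⟫ = σ / 4) :
    ‖∇ d x‖ < σ / 2 ∧ ⟪Hs d x N, N⟫ ≠ 0 := by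
  have t0 := hz.t0
  have a1 : ⟪N, e⟫ ≤ 1 := (real_inner_le_norm _ _).trans (by rw [he, hN, mul_one])
  have e1 : ⟪∇ d x - ⟪∇ d x, e⟫ • e, N⟫ = σ / 4 - ⟪∇ d x, e⟫ * ⟪N, e⟫ := by
    rw [inner_sub_left, real_inner_smul_left, hk, real_inner_comm N e]
  have b1 : |σ / 4 - ⟪∇ d x, e⟫ * ⟪N, e⟫| ≤ σ / 100 := by
    rw [← e1]
    exact (abs_real_inner_le_norm _ _).trans (by rw [hN, mul_one]; exact t0)
  obtain ⟨b2, b3⟩ := abs_le.1 b1
  have b4 : |⟪∇ d x, e⟫| ≤ 3 * σ / 10 := by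
    rw [abs_le]
    constructor <;> nlinarith
  have b5 : ‖∇ d x‖ ≤ 2 * σ / 5 := by
    have := norm_add_le (∇ d x - ⟪∇ d x, e⟫ • e) (⟪∇ d x, e⟫ • e)
    rw [sub_add_cancel, norm_smul, he, mul_one, Real.norm_eq_abs] at this
    linarith
  refine ⟨by linarith, fun h0 => ?_⟩
  have q1 : 99 / 100 ≤ qd d x := by
    unfold qd
    nlinarith [norm_nonneg (∇ d x)]
  have g1 : 1 - σ / 100 ≤ |gg (d x / l)| := hz.t3.resolve_left (by linarith)
  have r2 : (141 / 100 : ℝ) ≤ √2 := Real.le_sqrt_of_sq_le (by norm_num)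
  have c1 : 13 / 10 ≤ |l * ⟪Hs d x e, e⟫| := by
    have c2 : |√2 * gg (d x / l) * qd d x| = √2 * |gg (d x / l)| * qd d x := by
      rw [abs_mul, abs_mul, abs_of_nonneg (a := √2) (by linarith),
        abs_of_nonneg (a := qd d x) (by linarith)]
    have c3 : 141 / 100 * (999 / 1000) * (99 / 100) ≤ √2 * |gg (d x / l)| * qd d x := by
      gcongr
      linarith
    have c4 := abs_sub (l * ⟪Hs d x e, e⟫ + √2 * gg (d x / l) * qd d x) (l * ⟪Hs d x e, e⟫)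
    rw [add_sub_cancel_left, c2] at c4
    linarith [hz.t2]
  have ee : ⟪e, e⟫ = 1 := by
    rw [real_inner_self_eq_norm_sq, he]
    norm_num
  obtain ⟨τ, hτ⟩ : ∃ τ, τ = N - ⟪N, e⟫ • e := ⟨_, rfl⟩
  have τ0 : ⟪τ, e⟫ = 0 := by
    rw [hτ, inner_sub_left, real_inner_smul_left, ee]
    ring
  have τ1 : ‖τ‖ ≤ 1 := by
    refine (abs_le_of_sq_le_sq' ?_ zero_le_one).2
    rw [hτ, norm_sub_sq_real, real_inner_smul_right, norm_smul, he, hN, Real.norm_eq_abs, mul_one,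
      sq_abs]
    nlinarith [sq_nonneg ⟪N, e⟫]
  have c5 : l * ‖Hs d x τ‖ ≤ 1 / 1000 := (hz.t1 τ τ0).trans (by nlinarith)
  have c6 : ∀ w : E n, ‖w‖ = 1 → |l * ⟪Hs d x τ, w⟫| ≤ 1 / 1000 := fun w hw => by
    rw [abs_mul, abs_of_pos l0]
    refine le_trans ?_ c5
    gcongr
    exact (abs_real_inner_le_norm _ _).trans (by rw [hw, mul_one])
  have eN : N = τ + ⟪N, e⟫ • e := by rw [hτ, sub_add_cancel]
  have e2 : ⟪Hs d x e, N⟫ = ⟪Hs d x τ, e⟫ + ⟪N, e⟫ * ⟪Hs d x e, e⟫ := by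
    conv_lhs => rw [eN, inner_add_right, real_inner_smul_right, hs_symm hd x e τ]
  have e3 : ⟪Hs d x N, N⟫ = ⟪Hs d x τ, N⟫ + ⟪N, e⟫ * ⟪Hs d x e, N⟫ := by
    have : Hs d x N = Hs d x τ + ⟪N, e⟫ • Hs d x e := by
      conv_lhs => rw [eN, map_add, map_smul]
    rw [this, inner_add_left, real_inner_smul_left]
  rw [h0, e2] at e3
  obtain ⟨c7, c8⟩ := abs_le.1 (c6 N hN)
  obtain ⟨c9, c10⟩ := abs_le.1 (c6 e he)
  generalize ⟪N, e⟫ = a at *
  have e4 : a ^ 2 * (l * ⟪Hs d x e, e⟫) = -(l * ⟪Hs d x τ, N⟫) - a * (l * ⟪Hs d x τ, e⟫) := by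
    linear_combination (-l) * e3
  have a2 : 98 / 100 ≤ a ^ 2 := by nlinarith
  rcases le_abs.1 c1 with c | c <;> nlinarith

variable {σ K l R C η : ℝ} {d : E (m + 1) → ℝ} {s : Sh m} {p : E (m + 1)}

theorem foot (h : s.At p C η) (x : E (m + 1)) : x - ta s p x • s.N p = s.X p (yy s p x) := by
  have := (⟨h.N1, h.NL⟩ : Fr (s.N p) (s.L p)).dec (x - p)
  simp only [Sh.X, ta, tt, yy, sub_smul]
  rw [eq_sub_of_add_eq this]
  abel

/-- the normal at a point of the disc -/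
theorem nu_foot (h : Hy K l R C η d s p) {y : E m} (hy : y ∈ ball (0 : E m) 4) :
    ‖nu d (s.X p y)‖ = 1 ∧ 99 / 100 ≤ ⟪s.N p, nu d (s.X p y)⟫ := by
  have fr : Fr (s.N p) (s.L p) := ⟨h.da.N1, h.da.NL⟩
  have e1 := h.da.nor y hy
  have b1 := h.da.b1 y hy
  have j0 : 0 < J (s.h p) y := Real.sqrt_pos.2 (by positivity)
  have j1 : J (s.h p) y ≤ 100 / 99 := Real.sqrt_le_iff.2
    ⟨by norm_num, by nlinarith [norm_nonneg (∇ (s.h p) y)]⟩
  rw [← h.N, e1]
  constructor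
  · have e2 := fr.norm_sq (-∇ (s.h p) y) 1
    rw [map_neg, one_smul, neg_add_eq_sub, norm_neg] at e2
    have e3 : J (s.h p) y = ‖s.N p - s.L p (∇ (s.h p) y)‖ := by
      rw [J, ← Real.sqrt_sq (norm_nonneg (s.N p - s.L p (∇ (s.h p) y))), e2]
      congr 1
      ring
    rw [norm_smul, norm_inv, Real.norm_of_nonneg j0.le, ← e3, inv_mul_cancel₀ j0.ne']
  · rw [real_inner_smul_right, inner_sub_right, fr.ee, fr.ort, sub_zero, mul_one,
      le_inv_comm₀ (by norm_num) j0]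
    linarith

/-- the slope does not touch the threshold from above -/
theorem touch (s0 : 0 < σ) (s1 : σ ≤ 1 / 10) (h : Hy K l R C η d s p) (l1 : l ≤ 1 / 10)
    (hT : Tl (13 / σ) (σ / 100) l R d) {x : E (m + 1)} (hx : ‖x - p‖ ≤ 1 / 2)
    (hd : |d x| ≤ 3 * (l * lg l)) (hg : σ / 2 ≤ ‖∇ d x‖)
    (hk : ∀ θ ∈ Icc (0 : ℝ) 1, σ / 4 ≤ ⟪∇ d (x - (θ * ta s p x) • s.N p), s.N p⟫) :
    ∀ θ ∈ Icc (0 : ℝ) 1, σ / 4 < ⟪∇ d (x - (θ * ta s p x) • s.N p), s.N p⟫ := by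
  have fr : Fr (s.N p) (s.L p) := ⟨h.da.N1, h.da.NL⟩
  have sm := h.ac.sm
  have l0 := h.ac.l0
  have N1 := h.da.N1
  have y1 : ‖yy s p x‖ ≤ 1 / 2 := (fr.norm_adj _).trans hx
  have y4 : yy s p x ∈ ball (0 : E m) 4 := mem_ball_zero_iff.2 (by linarith)
  obtain ⟨z, hz⟩ : ∃ z, z = s.X p (yy s p x) := ⟨_, rfl⟩
  have ez : x - ta s p x • s.N p = z := by rw [hz, foot h.da]
  have z0 : d z = 0 := by
    have := h.da.mem _ y4
    rwa [h.S, ← hz] at this
  obtain ⟨n1, n2⟩ := nu_foot h y4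
  rw [← hz] at n1 n2
  generalize ta s p x = a at *
  have lg0 : 0 < l * lg l := mul_pos l0 (neg_pos.2 (Real.log_neg l0 (by linarith)))
  have hγ : ∀ θ : ℝ, HasDerivAt (fun θ : ℝ => x - (θ * a) • s.N p) (-(a • s.N p)) θ := fun θ => by
    simpa using (((hasDerivAt_id θ).mul_const a).smul_const (s.N p)).const_sub x
  have hφ : ∀ θ : ℝ, HasDerivAt (fun θ : ℝ => d (x - (θ * a) • s.N p))
      (-(a * ⟪∇ d (x - (θ * a) • s.N p), s.N p⟫)) θ := fun θ => by
    have := (sm.differentiable (by simp) _).hasFDerivAt.comp_hasDerivAt θ (hγ θ)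
    rw [map_neg, map_smul, smul_eq_mul, ← inner_grad] at this
    exact this
  have ha : |a| * (σ / 4) ≤ |d x| := by
    obtain ⟨c, hc, e⟩ := exists_hasDerivAt_eq_slope _ _ zero_lt_one
      (fun θ _ => (hφ θ).continuousAt.continuousWithinAt) fun θ _ => hφ θ
    simp only [one_mul, ez, z0, zero_mul, zero_smul, sub_zero, zero_sub, div_one, neg_inj] at e
    have := hk c ⟨hc.1.le, hc.2.le⟩
    rw [← e, abs_mul]
    gcongr
    exact this.trans (le_abs_self _)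
  have ha' : |a| < 13 / σ * (l * lg l) := by
    rw [div_mul_eq_mul_div, lt_div_iff₀ s0]
    nlinarith
  have zR : ‖z‖ ≤ R := by
    have e1 : z - p = s.L p (yy s p x) + s.h p (yy s p x) • s.N p := by
      rw [hz, Sh.X]
      abel
    have hh : ‖s.h p (yy s p x) - s.h p 0‖ ≤ 1 / 10 * ‖yy s p x - 0‖ :=
      (convex_ball (0 : E m) 4).norm_image_sub_le_of_norm_fderiv_le
        (fun y hy => (h.da.sm.contDiffAt (isOpen_ball.mem_nhds hy)).differentiableAt (by simp))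
        (fun y hy => by rw [← P366W.norm_gradient]; exact h.da.b1 y hy)
        (mem_ball_self (by norm_num)) y4
    rw [h.da.h0, sub_zero, sub_zero] at hh
    have e2 := norm_add_le (s.L p (yy s p x)) (s.h p (yy s p x) • s.N p)
    rw [← e1, norm_smul, N1, (s.L p).norm_map] at e2
    linarith [norm_le_insert' z p, h.pR]
  have hZ : ∀ θ ∈ Icc (0 : ℝ) 1, Zs (σ / 100) l d (nu d z) (x - (θ * a) • s.N p) := fun θ hθ => by
    refine hT z _ z0 zR (lt_of_le_of_lt ?_ ha')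
    have e1 : x - (θ * a) • s.N p - z = ((1 - θ) * a) • s.N p := by
      rw [← ez, sub_mul, one_mul, sub_smul]
      abel
    rw [e1, norm_smul, N1, mul_one, Real.norm_eq_abs, abs_mul, abs_of_nonneg (by linarith [hθ.2])]
    nlinarith [abs_nonneg a, hθ.1]
  intro θ hθ
  refine lt_of_le_of_ne (hk θ hθ) fun e => ?_
  obtain ⟨k1, k2⟩ := zs_key sm s0 s1 l0 n1 N1 n2 (hZ θ hθ) e.symm
  have a0 : θ * a ≠ 0 := fun e0 => by
    rw [e0, zero_smul, sub_zero] at k1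
    linarith
  have θ1 : θ ≠ 1 := fun e1 => by
    have q1 := (hZ θ hθ).t3
    rw [e1, one_mul, ez] at k1 q1
    rw [z0, zero_div, gg, zero_div, Real.tanh_zero, abs_zero, qd] at q1
    rcases q1 with q1 | q1 <;> nlinarith [norm_nonneg (∇ d z)]
  have θm : θ ∈ Ioo (0 : ℝ) 1 :=
    ⟨lt_of_le_of_ne hθ.1 (left_ne_zero_of_mul a0).symm, lt_of_le_of_ne hθ.2 θ1⟩
  have hmin : IsLocalMin (fun θ : ℝ => ⟪∇ d (x - (θ * a) • s.N p), s.N p⟫) θ := by
    filter_upwards [Icc_mem_nhds θm.1 θm.2] with t ht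
    exact e.ge.trans (hk t ht)
  have hD := ((((smooth_gradient sm).differentiable (by simp) _).hasFDerivAt.comp_hasDerivAt θ
    (hγ θ)).inner ℝ (hasDerivAt_const θ (s.N p)))
  have e0 := hmin.hasDerivAt_eq_zero hD
  rw [inner_zero_right, zero_add, map_neg, map_smul, inner_neg_left, real_inner_smul_left,
    neg_eq_zero, mul_eq_zero] at e0
  exact e0.elim (right_ne_zero_of_mul a0) k2

theorem dich (s0 : 0 < σ) (s1 : σ ≤ 1 / 10) (h : Hy K l R C η d s p) (l1 : l ≤ 1 / 10)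
    (hT : Tl (13 / σ) (σ / 100) l R d) {F : E (m + 1) → ℝ}
    (hF : ∀ x, 1 / 2 ≤ ‖x - p‖ ∨ 3 * (l * lg l) ≤ |d x| ∨ ‖∇ d x‖ ≤ σ / 2 → F x = 0)
    {x : E (m + 1)} (hx : x ∉ W σ d s p) : (W σ d s p).indicator F =ᶠ[𝓝 x] 0 := by
  have fr : Fr (s.N p) (s.L p) := ⟨h.da.N1, h.da.NL⟩
  have cd := h.ac.sm.continuous
  have cg := (smooth_gradient h.ac.sm).continuous
  have z : (∀ᶠ y in 𝓝 x, F y = 0) → (W σ d s p).indicator F =ᶠ[𝓝 x] 0 := fun hz =>
    hz.mono fun y hy => by simp [hy]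
  by_cases h1 : 1 / 2 < ‖x - p‖
  · exact z (((continuous_id.sub continuous_const).norm.continuousAt.eventually
      (lt_mem_nhds h1)).mono fun y hy => hF y (Or.inl hy.le))
  by_cases h2 : 3 * (l * lg l) < |d x|
  · exact z ((cd.abs.continuousAt.eventually (lt_mem_nhds h2)).mono fun y hy =>
      hF y (Or.inr (Or.inl hy.le)))
  by_cases h3 : ‖∇ d x‖ < σ / 2
  · exact z ((cg.norm.continuousAt.eventually (gt_mem_nhds h3)).mono fun y hy =>
      hF y (Or.inr (Or.inr hy.le)))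
  rw [not_lt] at h1 h2 h3
  have y1 : ‖yy s p x‖ ≤ 1 / 2 := (fr.norm_adj _).trans h1
  have t1 : |tt s p x| ≤ 1 / 2 := (abs_real_inner_le_norm _ _).trans (by rwa [h.da.N1, one_mul])
  by_cases hk : ∀ θ ∈ Icc (0 : ℝ) 1, σ / 4 ≤ ⟪∇ d (x - (θ * ta s p x) • s.N p), s.N p⟫
  · exact absurd ⟨by linarith, by linarith, touch s0 s1 h l1 hT h1 h2 h3 hk⟩ hx
  push Not at hk
  obtain ⟨θ, hθ, hk⟩ := hk
  have cy : Continuous (yy s p) := by
    unfold yy
    fun_prop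
  have ct : Continuous (tt s p) := by
    unfold tt
    fun_prop
  have ca : ContinuousAt (ta s p) x := ct.continuousAt.sub
    (ContinuousAt.comp (h.da.sm.continuousOn.continuousAt
      (isOpen_ball.mem_nhds (mem_ball_zero_iff.2 (by linarith)))) cy.continuousAt)
  have ck : ContinuousAt (fun x => ⟪∇ d (x - (θ * ta s p x) • s.N p), s.N p⟫) x :=
    (cg.continuousAt.comp (continuousAt_id.sub ((continuousAt_const.mul ca).smul
      continuousAt_const))).inner continuousAt_const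
  filter_upwards [ck.eventually (gt_mem_nhds hk)] with y hy
  exact indicator_of_notMem (fun hw => absurd (hw.2.2 θ hθ) (not_lt.2 hy.le)) _

end Reg

theorem reg : REG := fun wop σ s0 s1 m K l R C η d s p h l1 hT F hF h0 => by
  have ho := wop m σ C η d s p h.ac.sm h.da
  have a1 : ∀ x ∈ W σ d s p, (W σ d s p).indicator F =ᶠ[𝓝 x] F := fun x hx =>
    (show ∀ᶠ y in 𝓝 x, y ∈ W σ d s p from ho.mem_nhds hx).mono fun y hy => indicator_of_mem hy _
  refine ⟨contDiff_iff_contDiffAt.2 fun x => ?_, fun x => ?_⟩ <;> by_cases hx : x ∈ W σ d s p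
  · exact hF.contDiffAt.congr_of_eventuallyEq (a1 x hx)
  · exact contDiffAt_const.congr_of_eventuallyEq (Reg.dich s0 s1 h l1 hT h0 hx)
  · rw [indicator_of_mem hx, (a1 x hx).gradient_eq]
  · rw [indicator_of_notMem hx, (Reg.dich s0 s1 h l1 hT h0 hx).gradient_eq]
    exact gradient_fun_const x 0

end Vale.Agent.P134G
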