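import Vale.Agent.P134G.Spec

/-!
# P134G, row SCL: the derivatives of the scaled phase
-/

open MeasureTheory Metric Set Filter Topology
open scoped ContDiff RealInnerProductSpace Gradient

noncomputable section

namespace Vale.Agent.P134G

open Vale.Agent.P134L (E)
open Vale.Agent.P134B (Ok ps ff pp SS qq)

variable {n : ℕ}

theorem fderiv_sc {F : Type} [NormedAddCommGroup F] [NormedSpace ℝ F] (f : E n → F) (z x : E n)
    (a c : ℝ) : fderiv ℝ (fun x => c • f (z + a • x)) x = (c * a) • fderiv ℝ f (z + a • x) := by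
  rw [show (fun x => c • f (z + a • x)) = c • fun x => (fun y => f (z + y)) (a • x) from rfl,
    fderiv_const_smul_field, Pi.smul_apply, fderiv_comp_smul (f := fun y => f (z + y)),
    fderiv_comp_add_left, smul_smul]

theorem fderiv_sc1 {F : Type} [NormedAddCommGroup F] [NormedSpace ℝ F] (f : E n → F) (z x : E n)
    (a : ℝ) : fderiv ℝ (fun x => f (z + a • x)) x = a • fderiv ℝ f (z + a • x) := by
  simpa using fderiv_sc f z x a 1

theorem scl : SCL := by
  intro n C l u z ok l0
  have g : ∇ (sc u z l) = fun x => pp u (z + l⁻¹ • x) := funext fun x => by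
    have := fderiv_sc (ps u) z x l⁻¹ l
    rw [mul_inv_cancel₀ l0.ne', one_smul] at this
    exact congrArg (InnerProductSpace.toDual ℝ (E n)).symm this
  have h : Hs (sc u z l) = fun x => l⁻¹ • SS u (z + l⁻¹ • x) := funext fun x => by
    rw [Hs, g, fderiv_sc1, SS]
  have q : qd (sc u z l) = fun x => qq u (z + l⁻¹ • x) := funext fun x => by rw [qd, g, qq]
  have q' : ∇ (qd (sc u z l)) = fun x => l⁻¹ • ∇ (qq u) (z + l⁻¹ • x) := funext fun x => by
    rw [q, gradient, fderiv_sc1, map_smul, gradient]
  have v : ∀ x, gg (sc u z l x / l) = u (z + l⁻¹ • x) := fun x => by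
    rw [sc, mul_div_cancel_left₀ _ l0.ne', gg, ← ok.th]
  have nu' : nu (sc u z l) = fun x => nu (ps u) (z + l⁻¹ • x) := funext fun x => by
    rw [nu, g]; rfl
  refine ⟨contDiff_const.mul (ok.smp.comp (by fun_prop)), fun x => ⟨congrFun g x, congrFun h x,
    by rw [h, sq]; exact fderiv_sc (SS u) z x _ _, congrFun q x, congrFun q' x,
    by rw [Hs, q', fderiv_sc, sq], v x, by rw [fd, gp, v, ff], ?_⟩⟩
  simp only [an, nu', fderiv_sc1, Finset.mul_sum, smul_apply, norm_smul,
    mul_pow, Real.norm_eq_abs, sq_abs]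

end Vale.Agent.P134G
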