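import Vale.Agent.P134G.Tool

/-!
# P134G: the stability of the system of discs
-/

open MeasureTheory Metric Set Filter Topology
open scoped ContDiff RealInnerProductSpace Gradient

noncomputable section

namespace Vale.Agent.P134G

open Vale.Agent.P134L (E BERN)
open Vale.Agent.P366W (inner_grad contDiff_gradient)
open Vale.Agent.P134B (lg)

theorem grad_sum {n k : ℕ} {F : Fin k → E n → ℝ} (hF : ∀ i, ContDiff ℝ 1 (F i)) (x : E n) :
    ∇ (fun x => ∑ i, F i x) x = ∑ i, ∇ (F i) x := by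
  refine ext_inner_right ℝ fun v => ?_
  rw [inner_grad, sum_inner, fderiv_fun_sum fun i _ => (hF i).differentiable one_ne_zero x]
  simp

theorem sz_int {n : ℕ} (ct : CONT) {l σ R : ℝ} {ϑ : ℝ → ℝ} {d ξ : E n → ℝ} (hp : Pf σ ϑ)
    (hd : ContDiff ℝ ∞ d) (hξ : ContDiff ℝ 1 ξ) (h0 : ∀ x, R ≤ ‖x‖ → ξ x = 0) :
    Integrable (sz l σ ϑ d ξ) := by
  have c1 := ct n σ ϑ d hp hd
  have c2 : Continuous (fd l d) := continuous_gp.comp (hd.continuous.div_const l)
  have c3 : Continuous (∇ ξ) := (contDiff_gradient (k := 0) (by simpa using hξ)).continuous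
  have c4 := (Vale.Agent.P366W.smooth_gradient hd).continuous
  have c5 := hp.c2.continuous
  have c6 := hξ.continuous
  refine Continuous.integrable_of_hasCompactSupport (by unfold sz; fun_prop) ?_
  refine HasCompactSupport.intro (isCompact_closedBall 0 R) fun x hx => ?_
  rw [mem_closedBall_zero_iff, not_le] at hx
  have e : ξ =ᶠ[𝓝 x] fun _ => 0 := by
    filter_upwards [continuous_norm.continuousAt.eventually (lt_mem_nhds hx)] with y hy
    exact h0 y hy.le
  simp [sz, e.gradient_eq, h0 x hx.le]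

theorem stk : rSTK := by
  intro bl ct prof wop reg cut col pair tail pw m k K C B ε hε
  obtain ⟨c, c0, hc⟩ := cut
  obtain ⟨c', c1, hw⟩ := pw k B c c0
  set ε' := ε / (10 * ((k : ℝ) * k + c' * k + 1)) with he
  have e0 : 0 < ε' := by positivity
  obtain ⟨σ₁, s1, h1⟩ := pair m K C B ε' e0
  obtain ⟨σ₂, s2, h2⟩ := tail m ε' e0
  set σ := min (min σ₁ σ₂) (1 / 10) with hσ
  have s0 : 0 < σ := by positivity
  have s3 : σ ≤ 1 / 10 := min_le_right _ _
  obtain ⟨T, T1, l₂, a2, h2⟩ := h2 σ ((min_le_left _ _).trans (min_le_right _ _)) s0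
  obtain ⟨l₁, a1, h1⟩ := h1 σ ((min_le_left _ _).trans (min_le_left _ _)) T T1
  obtain ⟨l₃, a3, hc⟩ := hc T
  obtain ⟨l₄, a4, hb⟩ := bl T (1 / 2) (by norm_num)
  obtain ⟨ϑ, hϑ⟩ := prof σ s0 s3
  refine ⟨13 / σ, σ / 100, by positivity, min (min (min l₁ l₂) (min l₃ l₄)) (1 / 10),
    by positivity, fun l R η d s p G ac hl tl H => ?_⟩
  simp only [le_min_iff] at hl
  obtain ⟨⟨⟨b1, b2⟩, b3, b4⟩, b5⟩ := hl
  obtain ⟨b, bs, b01, bz, bg⟩ := hc _ σ l d s0 ac.l0 b3 ac.sm ac.g1
  have gs : ∀ i, ContDiff ℝ 1 fun x => G i x * b x := fun i =>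
    ((H i).2.sm.of_le (by norm_num)).mul bs
  have rg := fun i => reg wop σ s0 s3 m K l R C η d s (p i) (H i).1 b5 tl _ (gs i) fun x hx => by
    rcases hx with hx | hx
    · rw [(H i).2.supp x hx, zero_mul]
    · rw [bz x hx, mul_zero]
  set ξ : E (m + 1) → ℝ := fun x => ∑ i, (W σ d s (p i)).indicator (fun x => G i x * b x) x with hξ
  have ξs : ContDiff ℝ 1 ξ := ContDiff.sum fun i _ => (rg i).1
  have ξ0 : ∀ x, R ≤ ‖x‖ → ξ x = 0 := fun x hx => Finset.sum_eq_zero fun i _ => by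
    refine indicator_apply_eq_zero.2 fun _ => ?_
    rw [(H i).2.supp x (by linarith [norm_sub_norm_le x (p i), (H i).1.pR]), zero_mul]
  have P := fun i j => h1 l R η ϑ d s (p i) (p j) (G i) (G j) hϑ (H i).1 (H j).1 (H i).2 (H j).2 b1
  have Q := fun i => h2 K l R C η d s (p i) (H i).1 b2
  have i1 : Integrable fun x => ∑ i, ∑ j, Fp l T σ ϑ d s (p i) (p j) (G i) (G j) x :=
    integrable_finsetSum _ fun i _ => integrable_finsetSum _ fun j _ => (P i j).1
  have i2 : Integrable fun x => ∑ i, Ft l T σ d s (p i) x :=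
    integrable_finsetSum _ fun i _ => (Q i).1
  have k1 := (ac.st σ ϑ hϑ ξ ξs ξ0).trans (integral_mono (sz_int ct hϑ ac.sm ξs ξ0)
    (i1.add (i2.const_mul c')) fun x => hw m l T σ ϑ d b ξ s p G x hϑ (fun i => (H i).2)
      (bs.differentiable one_ne_zero x) (b01 x).1 (b01 x).2 (ac.g1 x) (bg x) (fun i hx h0 => by
        have := (hb m K l R d ac b4).1 x
          (by linarith [norm_sub_norm_le x (p i), (H i).1.pR, W_sub (H i).1.da.fr hx]) h0
        linarith) rfl
      ((grad_sum (fun i => (rg i).1) x).trans (Finset.sum_congr rfl fun i _ => (rg i).2 x)))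
  simp only [Pi.add_apply] at k1
  rw [integral_add i1 (i2.const_mul c'), integral_const_mul,
    integral_finsetSum _ fun i _ => integrable_finsetSum _ fun j _ => (P i j).1,
    integral_finsetSum _ fun i _ => (Q i).1] at k1
  have k2 : ∑ i, ∫ x, ∑ j, Fp l T σ ϑ d s (p i) (p j) (G i) (G j) x ≤
      l * sT T * s.Q p G + k * k * (ε' * l) := by
    have : ∀ i, ∫ x, ∑ j, Fp l T σ ϑ d s (p i) (p j) (G i) (G j) x ≤ ∑ j, (l * sT T *
        (∫ y in ball (0 : E m) 1, Pt s (p i) (p j) (G i) (G j) y * J (s.h (p i)) y) + ε' * l) := by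
      intro i
      rw [integral_finsetSum _ fun j _ => (P i j).1]
      exact Finset.sum_le_sum fun j _ => by linarith [(abs_le.1 (P i j).2).2]
    refine (Finset.sum_le_sum fun i _ => this i).trans (le_of_eq ?_)
    simp only [Finset.sum_add_distrib, ← Finset.mul_sum, Finset.sum_const, Finset.card_univ,
      Fintype.card_fin, nsmul_eq_mul, mul_assoc]
    congr 1
    ring
  have k3 : ∑ i, ∫ x, Ft l T σ d s (p i) x ≤ k * (ε' * l) := by
    simpa using Finset.sum_le_sum fun i (_ : i ∈ Finset.univ) => (Q i).2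
  have k4 : 0 ≤ l * (sT T * s.Q p G + (k * k + c' * k) * ε') := by
    nlinarith [mul_le_mul_of_nonneg_left k3 c1]
  have k6 : 0 ≤ sT T * s.Q p G + (k * k + c' * k) * ε' := le_of_mul_le_mul_left
    (by simpa using k4) ac.l0
  have k7 : ((k : ℝ) * k + c' * k) * ε' ≤ ε / 10 := by
    rw [he, mul_div_assoc', div_le_div_iff₀ (by positivity) (by norm_num)]
    nlinarith
  have k8 := col.1 T T1
  by_contra hn
  nlinarith

end Vale.Agent.P134G
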