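import Vale.Agent.P134G.Defs

/-!
# P134G: tools
-/

open MeasureTheory Metric Set Filter Topology
open scoped ContDiff RealInnerProductSpace Gradient

noncomputable section

namespace Vale.Agent.P134G

open Vale.Agent.P134L (E BERN)
open Vale.Agent.P366W (Fr adj trc adj_L inner_grad norm_gradient smooth_gradient)

variable {n m : ℕ}

/-! ## The profile -/

theorem s2_lo : (7 / 5 : ℝ) ≤ √2 := Real.le_sqrt_of_sq_le (by norm_num)

theorem s2_hi : √2 ≤ (3 / 2 : ℝ) := Real.sqrt_le_iff.2 ⟨by norm_num, by norm_num⟩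

theorem gp_eq (t : ℝ) : gp t = (√2 * Real.cosh (t / √2) ^ 2)⁻¹ := by
  have h := Real.cosh_pos (t / √2)
  have h2 := Real.cosh_sq (t / √2)
  rw [gp, gg, Real.tanh_eq_sinh_div_cosh]
  field_simp
  linarith

theorem gp_pos (t : ℝ) : 0 < gp t := by
  have h := Real.cosh_pos (t / √2)
  rw [gp_eq]; positivity

theorem gp_zero : gp 0 = (√2)⁻¹ := by simp [gp_eq]

theorem gp_zero_sq : gp 0 ^ 2 = 1 / 2 := by rw [gp_zero, inv_pow, Real.sq_sqrt] <;> norm_num

theorem gp_le_one (t : ℝ) : gp t ≤ 1 := by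
  rw [gp_eq]
  exact inv_le_one_of_one_le₀ (by nlinarith [Real.one_le_cosh (t / √2), s2_lo])

theorem exp_two (t : ℝ) : Real.exp |t / √2| ^ 2 = Real.exp (√2 * |t|) := by
  rw [← Real.exp_nat_mul, abs_div, abs_of_nonneg (Real.sqrt_nonneg 2)]
  congr 1
  have : √2 * √2 = (2 : ℝ) := Real.mul_self_sqrt (by norm_num)
  field_simp
  push_cast
  rw [sq, this, mul_comm]

theorem gp_lo (t : ℝ) : Real.exp (-(√2 * |t|)) / √2 ≤ gp t := by
  have h := Real.cosh_pos (t / √2)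
  have h1 : Real.cosh (t / √2) ≤ Real.exp |t / √2| := by
    rw [← Real.cosh_abs, Real.cosh_eq]
    have : Real.exp (-|t / √2|) ≤ Real.exp |t / √2| :=
      Real.exp_le_exp.2 (by linarith [abs_nonneg (t / √2)])
    linarith
  rw [gp_eq, Real.exp_neg, ← exp_two, div_eq_mul_inv, ← mul_inv, mul_comm]
  gcongr

theorem gp_hi (t : ℝ) : gp t ≤ 3 * Real.exp (-|t|) := by
  have h1 : Real.exp |t / √2| ≤ 2 * Real.cosh (t / √2) := by
    rw [← Real.cosh_abs, Real.cosh_eq]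
    linarith [Real.exp_pos (-|t / √2|)]
  have h2 : Real.exp |t| ≤ 4 * Real.cosh (t / √2) ^ 2 := by
    have h3 := pow_le_pow_left₀ (Real.exp_pos _).le h1 2
    rw [exp_two] at h3
    have : Real.exp |t| ≤ Real.exp (√2 * |t|) :=
      Real.exp_le_exp.2 (by nlinarith [abs_nonneg t, s2_lo])
    nlinarith
  have h := Real.cosh_pos (t / √2)
  have h0 := Real.exp_pos |t|
  rw [gp_eq, Real.exp_neg, ← div_eq_mul_inv, inv_eq_one_div, div_le_div_iff₀ (by positivity) h0]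
  nlinarith [s2_lo, sq_nonneg (Real.cosh (t / √2))]

theorem gp_one {t : ℝ} (ht : |t| ≤ 1) : 1 / 3 ≤ gp t := by
  have h := Real.cosh_pos (t / √2)
  have h1 := Real.cosh_le_exp_half_sq (t / √2)
  have h2 : (t / √2) ^ 2 / 2 ≤ 1 / 4 := by
    rw [div_pow, Real.sq_sqrt (by norm_num)]
    nlinarith [sq_abs t, abs_nonneg t]
  have h3 : Real.exp (1 / 4) ≤ 4 / 3 := by
    have := Real.add_one_le_exp (-(1 / 4))
    rw [Real.exp_neg, le_inv_comm₀ (by norm_num) (Real.exp_pos _)] at this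
    linarith
  have h4 := (h1.trans (Real.exp_le_exp.2 h2)).trans h3
  rw [gp_eq, one_div]
  exact inv_anti₀ (by positivity) (by nlinarith [s2_hi, s2_lo])

theorem continuous_gp : Continuous gp := by
  rw [funext gp_eq]
  exact Continuous.inv₀ (by fun_prop) fun t => by have := Real.cosh_pos (t / √2); positivity

theorem fd_pos (l : ℝ) (d : E n → ℝ) (x : E n) : 0 < fd l d x := gp_pos _

theorem fd_le (l : ℝ) (d : E n → ℝ) (x : E n) : fd l d x ≤ 1 := gp_le_one _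

/-- the lower bound in the core -/
theorem fd_lo {l A : ℝ} {d : E n → ℝ} {x : E n} (hl : 0 < l) (h : |d x| ≤ A * l) :
    Real.exp (-(2 * A)) / 2 ≤ fd l d x := by
  refine le_trans ?_ (gp_lo _)
  have h1 : |d x / l| ≤ A := by rwa [abs_div, abs_of_pos hl, div_le_iff₀ hl]
  have h2 := s2_hi
  have h3 := s2_lo
  gcongr
  · linarith
  · linarith

theorem an_nonneg (d : E n → ℝ) (x : E n) : 0 ≤ an d x := Finset.sum_nonneg fun _ _ => sq_nonneg _

theorem Pf.wa_nonneg {σ : ℝ} {ϑ : ℝ → ℝ} (h : Pf σ ϑ) (d : E n → ℝ) (x : E n) : 0 ≤ wa ϑ d x :=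
  mul_nonneg (mul_nonneg (mul_nonneg (h.nn _) (h.d0 _)) (norm_nonneg _)) (an_nonneg _ _)

/-! ## The Hessian -/

section
variable {d : E n → ℝ}

theorem hasFDerivAt_grad (hd : ContDiff ℝ ∞ d) (x : E n) : HasFDerivAt (∇ d) (Hs d x) x :=
  ((smooth_gradient hd).differentiable (by simp) x).hasFDerivAt

theorem smooth_Hs (hd : ContDiff ℝ ∞ d) : ContDiff ℝ ∞ (Hs d) :=
  (smooth_gradient hd).fderiv_right (m := ∞) (by simp)

theorem inner_Hs (hd : ContDiff ℝ ∞ d) (x v w : E n) :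
    ⟪Hs d x v, w⟫ = fderiv ℝ (fderiv ℝ d) x v w := by
  have h1 := (hasFDerivAt_grad hd x).inner ℝ (hasFDerivAt_const w x)
  have h2 : HasFDerivAt (fun y => fderiv ℝ d y w) _ x :=
    (((hd.fderiv_right (m := ∞) (by simp)).differentiable (by simp) x).hasFDerivAt).clm_apply
      (hasFDerivAt_const w x)
  simp only [inner_grad] at h1
  simpa using DFunLike.congr_fun (h1.unique h2) v

theorem Hs_symm (hd : ContDiff ℝ ∞ d) (x v w : E n) : ⟪Hs d x v, w⟫ = ⟪v, Hs d x w⟫ := by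
  rw [real_inner_comm _ v, inner_Hs hd, inner_Hs hd]
  exact (hd.contDiffAt.isSymmSndFDerivAt (by
    simp only [minSmoothness_of_isRCLikeNormedField]; exact WithTop.coe_le_coe.2 le_top)).eq v w

theorem smooth_qd (hd : ContDiff ℝ ∞ d) : ContDiff ℝ ∞ (qd d) :=
  contDiff_const.sub ((smooth_gradient hd).norm_sq ℝ)

theorem grad_qd (hd : ContDiff ℝ ∞ d) (x : E n) :
    ∇ (qd d) x = (-2 : ℝ) • Hs d x (∇ d x) := by
  refine ext_inner_right ℝ fun v => ?_
  have h : HasFDerivAt (qd d) _ x := (hasFDerivAt_grad hd x).norm_sq.const_sub 1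
  rw [inner_grad, h.fderiv, inner_smul_left, Hs_symm hd]
  simp

theorem hasDerivAt_line (hd : ContDiff ℝ ∞ d) (x v : E n) (t : ℝ) :
    HasDerivAt (fun t : ℝ => d (x + t • v)) ⟪∇ d (x + t • v), v⟫ t := by
  have h := (hd.differentiable (by simp) (x + t • v)).hasFDerivAt.comp_hasDerivAt t
    (((hasDerivAt_id t).smul_const v).const_add x)
  rw [inner_grad]
  rw [one_smul] at h
  exact h

theorem hasDerivAt_grad_line (hd : ContDiff ℝ ∞ d) (x v : E n) (t : ℝ) :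
    HasDerivAt (fun t : ℝ => ∇ d (x + t • v)) (Hs d (x + t • v) v) t := by
  have h := (hasFDerivAt_grad hd (x + t • v)).comp_hasDerivAt t
    (((hasDerivAt_id t).smul_const v).const_add x)
  rw [one_smul] at h
  exact h

theorem nu_cda (hd : ContDiff ℝ ∞ d) {x : E n} (h : ∇ d x ≠ 0) : ContDiffAt ℝ ∞ (nu d) x :=
  (((smooth_gradient hd).contDiffAt.norm ℝ h).inv (norm_ne_zero_iff.2 h)).smul
    (smooth_gradient hd).contDiffAt

theorem norm_nu {x : E n} (h : ∇ d x ≠ 0) : ‖nu d x‖ = 1 := norm_smul_inv_norm h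

theorem smul_nu (d : E n → ℝ) (x : E n) : ‖∇ d x‖ • nu d x = ∇ d x := by
  by_cases h : ∇ d x = 0
  · simp [h]
  · rw [nu, smul_smul, mul_inv_cancel₀ (norm_ne_zero_iff.2 h), one_smul]

theorem fderiv_nu (hd : ContDiff ℝ ∞ d) {x : E n} (h : ∇ d x ≠ 0) (v : E n) :
    fderiv ℝ (nu d) x v = ‖∇ d x‖⁻¹ • (Hs d x v - ⟪nu d x, Hs d x v⟫ • nu d x) := by
  have h0 := norm_ne_zero_iff.2 h
  have hn := ((nu_cda hd h).differentiableAt (by simp)).hasFDerivAt
  have hw := (((smooth_gradient hd).contDiffAt.norm ℝ h).differentiableAt (by simp)).hasFDerivAt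
  have h1 := hw.smul hn
  have h2 : HasFDerivAt (fun y => ‖∇ d y‖ • nu d y) _ x := h1
  simp only [smul_nu] at h2
  have h3 := DFunLike.congr_fun (h2.unique (hasFDerivAt_grad hd x)) v
  have h4 : (fun y => ⟪nu d y, nu d y⟫) =ᶠ[𝓝 x] fun _ => (1 : ℝ) := by
    filter_upwards [(smooth_gradient hd).continuous.continuousAt.eventually_ne h] with y hy
    rw [real_inner_self_eq_norm_sq, norm_nu hy, one_pow]
  have h5 := DFunLike.congr_fun (((hn.inner ℝ hn).congr_of_eventuallyEq h4.symm).unique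
    (hasFDerivAt_const (1 : ℝ) x)) v
  simp only [add_apply, smul_apply, ContinuousLinearMap.smulRight_apply,
    ContinuousLinearMap.comp_apply, ContinuousLinearMap.prod_apply, fderivInnerCLM_apply,
    zero_apply] at h3 h5
  have h6 : ⟪nu d x, fderiv ℝ (nu d) x v⟫ = 0 := by
    rw [real_inner_comm (nu d x)] at h5; linarith
  rw [← h3, inner_add_right, inner_smul_right, inner_smul_right, h6, real_inner_self_eq_norm_sq,
    norm_nu h]
  simp [smul_smul, inv_mul_cancel₀ h0]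

end

/-! ## The phase -/

namespace Ac

variable {K l R : ℝ} {d : E (m + 1) → ℝ}

theorem lip (h : Ac K l R d) (x z : E (m + 1)) : |d x - d z| ≤ ‖x - z‖ := by
  simpa using convex_univ.norm_image_sub_le_of_norm_fderiv_le (𝕜 := ℝ) (C := 1)
    (fun y _ => h.sm.differentiable (by simp) y) (fun y _ => norm_gradient d y ▸ h.g1 y)
    (mem_univ z) (mem_univ x)

theorem q0 (h : Ac K l R d) (x : E (m + 1)) : 0 ≤ qd d x := by
  have := h.g1 x
  unfold qd
  nlinarith [norm_nonneg (∇ d x)]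

theorem one_sub_q (h : Ac K l R d) (x : E (m + 1)) : 1 - qd d x ≤ ‖∇ d x‖ := by
  have := h.g1 x
  unfold qd
  nlinarith [norm_nonneg (∇ d x)]

theorem zq (h : Ac K l R d) {x : E (m + 1)} (hx : ‖x‖ ≤ R) (h0 : d x = 0) :
    qd d x ≤ 2 * l ^ 2 := by
  have := h.e x hx
  rw [fd, h0, zero_div, gp_zero_sq] at this
  linarith

theorem zH (h : Ac K l R d) {x : E (m + 1)} (hx : ‖x‖ ≤ R) (h0 : d x = 0) :
    ‖Hs d x‖ ≤ 1 / 500 := by
  have := h.h2 x hx
  have h1 : 1 / 2 ≤ fd l d x := by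
    rw [fd, h0, zero_div, gp_zero, one_div]
    exact inv_anti₀ (by positivity) (by linarith [s2_hi])
  nlinarith [norm_nonneg (Hs d x)]

theorem cq (h : Ac K l R d) {A : ℝ} {x : E (m + 1)} (hx : ‖x‖ ≤ R) (h0 : |d x| ≤ A * l) :
    qd d x ≤ 4 * Real.exp (4 * A) * l ^ 2 := by
  have h1 := pow_le_pow_left₀ (by positivity) (fd_lo h.l0 h0) 2
  have h2 : (Real.exp (-(2 * A)) / 2) ^ 2 * (4 * Real.exp (4 * A)) = 1 := by
    rw [div_pow, ← Real.exp_nat_mul, div_mul_eq_mul_div, mul_left_comm, ← Real.exp_add]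
    norm_num
    ring
  have h3 := (mul_le_mul_of_nonneg_right h1 (h.q0 x)).trans (h.e x hx)
  have h4 := mul_le_mul_of_nonneg_left h3 (show 0 ≤ 4 * Real.exp (4 * A) by positivity)
  calc qd d x = (Real.exp (-(2 * A)) / 2) ^ 2 * (4 * Real.exp (4 * A)) * qd d x := by
        rw [h2, one_mul]
    _ = _ := by ring
    _ ≤ _ := h4

theorem cH (h : Ac K l R d) {A : ℝ} {x : E (m + 1)} (hx : ‖x‖ ≤ R) (h0 : |d x| ≤ A * l) :
    ‖Hs d x‖ ≤ Real.exp (2 * A) := by
  have h3 := (mul_le_mul_of_nonneg_right (fd_lo h.l0 h0) (norm_nonneg _)).trans (h.h2 x hx)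
  rw [Real.exp_neg, div_mul_eq_mul_div, div_le_iff₀ two_pos, inv_mul_le_iff₀ (Real.exp_pos _)] at h3
  linarith [Real.exp_pos (2 * A)]

end Ac

theorem ball' : BALL := by
  intro A η hη
  have e1 := Real.exp_pos (4 * A)
  have e2 := Real.exp_pos (2 * A)
  refine ⟨min (min 1 (η / (4 * Real.exp (4 * A)))) (min (1 / (|A| + 1))
    (η / (Real.exp (2 * A) * (|A| + 1)))), by positivity, fun m K l R d h hl => ⟨fun x hx h0 => ?_,
      fun z x hz hR hx => ?_⟩⟩
  · simp only [le_min_iff] at hl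
    have h1 := hl.1.2
    rw [le_div_iff₀' (by positivity)] at h1
    have h2 := h.cq hx h0
    have h3 := h.one_sub_q x
    have : 4 * Real.exp (4 * A) * l ^ 2 ≤ 4 * Real.exp (4 * A) * l := by
      gcongr; nlinarith [h.l0, hl.1.1]
    linarith
  · simp only [le_min_iff] at hl
    have h1 := hl.2.1
    have h2 := hl.2.2
    rw [le_div_iff₀' (by positivity)] at h1 h2
    have h3 : A * l ≤ (|A| + 1) * l := by gcongr; exacts [h.l0.le, by linarith [le_abs_self A]]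
    have := (convex_closedBall z (A * l)).norm_image_sub_le_of_norm_hasFDerivWithin_le
      (f' := Hs d) (C := Real.exp (2 * A))
      (fun y _ => (hasFDerivAt_grad h.sm y).hasFDerivWithinAt) (fun y hy => ?_)
      (mem_closedBall_self ((norm_nonneg _).trans hx)) (mem_closedBall_iff_norm.2 hx)
    · refine this.trans (le_trans ?_ h2)
      rw [mul_assoc]; gcongr; linarith
    · rw [mem_closedBall_iff_norm] at hy
      refine h.cH ?_ (by simpa [hz] using (h.lip y z).trans hy)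
      linarith [norm_sub_norm_le y z]

/-! ## The discs -/

theorem J_one (h : E m → ℝ) (y : E m) : 1 ≤ J h y :=
  Real.le_sqrt_of_sq_le (by nlinarith [sq_nonneg ‖∇ h y‖])

theorem J_sq (h : E m → ℝ) (y : E m) : J h y ^ 2 = 1 + ‖∇ h y‖ ^ 2 := Real.sq_sqrt (by positivity)

section
variable {s : Sh m} {p : E (m + 1)}

theorem yy_col (f : Fr (s.N p) (s.L p)) (y : E m) (t : ℝ) : yy s p (s.X p y + t • s.N p) = y := by
  rw [yy, Sh.X, show p + s.L p y + s.h p y • s.N p + t • s.N p - p =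
    s.L p y + (s.h p y + t) • s.N p by rw [add_smul]; abel, f.adj_pt]

theorem tt_col (f : Fr (s.N p) (s.L p)) (y : E m) (t : ℝ) :
    tt s p (s.X p y + t • s.N p) = s.h p y + t := by
  rw [tt, Sh.X, show p + s.L p y + s.h p y • s.N p + t • s.N p - p =
    s.L p y + (s.h p y + t) • s.N p by rw [add_smul]; abel, f.e_pt]

theorem ta_col (f : Fr (s.N p) (s.L p)) (y : E m) (t : ℝ) : ta s p (s.X p y + t • s.N p) = t := by
  rw [ta, tt_col f, yy_col f]; ring

theorem yy_X (f : Fr (s.N p) (s.L p)) (y : E m) : yy s p (s.X p y) = y := by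
  simpa using yy_col f y 0

/-- every point lies in a column -/
theorem col_dec (f : Fr (s.N p) (s.L p)) (x : E (m + 1)) :
    s.X p (yy s p x) + ta s p x • s.N p = x := by
  have := f.dec (x - p)
  rw [Sh.X, ta, add_assoc, ← add_smul, add_sub_cancel, add_assoc, yy, tt, this, add_sub_cancel]

theorem yy_lip (f : Fr (s.N p) (s.L p)) (x z : E (m + 1)) : ‖yy s p x - yy s p z‖ ≤ ‖x - z‖ := by
  rw [yy, yy, ← map_sub, sub_sub_sub_cancel_right]
  exact f.norm_adj _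

theorem yy_le (f : Fr (s.N p) (s.L p)) (x : E (m + 1)) : ‖yy s p x‖ ≤ ‖x - p‖ := f.norm_adj _

theorem tt_lip (f : Fr (s.N p) (s.L p)) (x z : E (m + 1)) : |tt s p x - tt s p z| ≤ ‖x - z‖ := by
  rw [tt, tt, ← inner_sub_right, sub_sub_sub_cancel_right]
  simpa [f.one] using abs_real_inner_le_norm (s.N p) (x - z)

theorem tt_le (f : Fr (s.N p) (s.L p)) (x : E (m + 1)) : |tt s p x| ≤ ‖x - p‖ := by
  simpa [f.one, tt] using abs_real_inner_le_norm (s.N p) (x - p)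

theorem continuous_yy : Continuous (yy s p) := by unfold yy; fun_prop

theorem continuous_tt : Continuous (tt s p) := by unfold tt; fun_prop

theorem mem_W_col (f : Fr (s.N p) (s.L p)) {σ : ℝ} {d : E (m + 1) → ℝ} (y : E m) (t : ℝ) :
    s.X p y + t • s.N p ∈ W σ d s p ↔ ‖y‖ < 1 ∧ |s.h p y + t| < 1 ∧ ∀ θ ∈ Icc (0 : ℝ) 1,
      σ / 4 < ⟪∇ d (s.X p y + ((1 - θ) * t) • s.N p), s.N p⟫ := by
  have e : ∀ θ : ℝ, s.X p y + t • s.N p - (θ * t) • s.N p = s.X p y + ((1 - θ) * t) • s.N p := by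
    intro θ; rw [add_sub_assoc, ← sub_smul]; congr 2; ring
  simp only [W, mem_ofPred_eq, yy_col f, tt_col f, ta_col f, e]

theorem W_sub (f : Fr (s.N p) (s.L p)) {σ : ℝ} {d : E (m + 1) → ℝ} {x : E (m + 1)}
    (hx : x ∈ W σ d s p) : ‖x - p‖ ≤ 2 := by
  rw [← f.dec (x - p)]
  refine (norm_add_le _ _).trans ?_
  rw [norm_smul, f.one, (s.L p).norm_map]
  have h1 : ‖adj (s.L p) (x - p)‖ < 1 := hx.1
  have h2 : |⟪s.N p, x - p⟫| < 1 := hx.2.1
  rw [Real.norm_eq_abs]; linarith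

namespace Sh.At

variable {C η : ℝ} (h : s.At p C η)
include h

theorem fr : Fr (s.N p) (s.L p) := ⟨h.N1, h.NL⟩

theorem X0 : s.X p 0 = p := by simp [Sh.X, h.h0]

theorem cda {y : E m} (hy : y ∈ ball (0 : E m) 4) : ContDiffAt ℝ ∞ (s.h p) y :=
  h.sm.contDiffAt (isOpen_ball.mem_nhds hy)

theorem hlip {y z : E m} (hy : y ∈ ball (0 : E m) 4) (hz : z ∈ ball (0 : E m) 4) :
    |s.h p y - s.h p z| ≤ 1 / 10 * ‖y - z‖ :=
  (convex_ball _ _).norm_image_sub_le_of_norm_fderiv_le (𝕜 := ℝ)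
    (fun _ hw => (h.cda hw).differentiableAt (by simp))
    (fun w hw => norm_gradient (s.h p) w ▸ h.b1 w hw) hz hy

theorem hle {y : E m} (hy : y ∈ ball (0 : E m) 4) : |s.h p y| ≤ 1 / 10 * ‖y‖ := by
  simpa [h.h0] using h.hlip hy (mem_ball_self four_pos)

theorem Xlip {y z : E m} (hy : y ∈ ball (0 : E m) 4) (hz : z ∈ ball (0 : E m) 4) :
    ‖s.X p y - s.X p z‖ ≤ 11 / 10 * ‖y - z‖ := by
  rw [show s.X p y - s.X p z = s.L p (y - z) + (s.h p y - s.h p z) • s.N p by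
    simp only [Sh.X, map_sub, sub_smul]; abel]
  refine (norm_add_le _ _).trans ?_
  rw [norm_smul, h.N1, (s.L p).norm_map, Real.norm_eq_abs]
  linarith [h.hlip hy hz]

theorem Xle {y : E m} (hy : y ∈ ball (0 : E m) 4) : ‖s.X p y - p‖ ≤ 5 := by
  have := h.Xlip hy (mem_ball_self four_pos)
  rw [h.X0, sub_zero] at this
  linarith [mem_ball_zero_iff.1 hy]

theorem J_le {y : E m} (hy : y ∈ ball (0 : E m) 4) : J (s.h p) y ≤ 101 / 100 :=
  Real.sqrt_le_iff.2 ⟨by norm_num, by nlinarith [h.b1 y hy, norm_nonneg (∇ (s.h p) y)]⟩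

theorem J_inv {y : E m} (hy : y ∈ ball (0 : E m) 4) : 99 / 100 ≤ (J (s.h p) y)⁻¹ := by
  rw [le_inv_comm₀ (by norm_num) (by linarith [J_one (s.h p) y])]
  linarith [h.J_le hy]

theorem NN {y : E m} (hy : y ∈ ball (0 : E m) 4) :
    ⟪s.N (s.X p y), s.N p⟫ = (J (s.h p) y)⁻¹ := by
  rw [h.nor y hy, inner_smul_left, inner_sub_left, h.fr.ee, h.fr.ort']
  simp

theorem NX {y : E m} (hy : y ∈ ball (0 : E m) 4) : ‖s.N (s.X p y)‖ = 1 := by
  have h1 := h.fr.norm_sq (-∇ (s.h p) y) 1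
  rw [norm_neg, one_pow, one_smul, map_neg, neg_add_eq_sub, add_comm (_ ^ 2) (1 : ℝ), ← J_sq,
    sq_eq_sq₀ (norm_nonneg _) (by linarith [J_one (s.h p) y])] at h1
  rw [h.nor y hy, norm_smul, h1, norm_inv, Real.norm_of_nonneg (by linarith [J_one (s.h p) y]),
    inv_mul_cancel₀ (by linarith [J_one (s.h p) y])]

end Sh.At

namespace Hy

variable {K l R C η : ℝ} {d : E (m + 1) → ℝ} (h : Hy K l R C η d s p)
include h

theorem ze {y : E m} (hy : y ∈ ball (0 : E m) 4) : d (s.X p y) = 0 := by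
  have := h.da.mem y hy
  rwa [h.S] at this

theorem XR {y : E m} (hy : y ∈ ball (0 : E m) 4) : ‖s.X p y‖ + 25 ≤ R := by
  linarith [h.da.Xle hy, h.pR, norm_sub_norm_le (s.X p y) p]

theorem gN {y : E m} (hy : y ∈ ball (0 : E m) 4) :
    ⟪∇ d (s.X p y), s.N p⟫ = ‖∇ d (s.X p y)‖ * (J (s.h p) y)⁻¹ := by
  rw [← h.da.NN hy]
  conv_lhs => rw [← smul_nu d (s.X p y), inner_smul_left, ← h.N]
  simp

theorem ne {y : E m} (hy : y ∈ ball (0 : E m) 4) : ∇ d (s.X p y) ≠ 0 := fun h0 => by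
  have := h.da.NX hy
  rw [h.N, nu, h0] at this
  simp at this

/-- the height is controlled by the phase -/
theorem ta_le {σ : ℝ} (hσ : 0 < σ) {x : E (m + 1)} (hy : ‖yy s p x‖ < 4)
    (hx : ∀ θ ∈ Icc (0 : ℝ) 1, σ / 4 ≤ ⟪∇ d (x - (θ * ta s p x) • s.N p), s.N p⟫) :
    σ / 4 * |ta s p x| ≤ |d x| := by
  have e : ∀ θ : ℝ, x - (θ * ta s p x) • s.N p = x + θ • (-(ta s p x) • s.N p) := by
    intro θ; rw [smul_smul, mul_neg, neg_smul, sub_eq_add_neg]
  obtain ⟨θ, hθ, h1⟩ := exists_hasDerivAt_eq_slope (fun t : ℝ => d (x + t • (-(ta s p x) • s.N p)))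
    _ zero_lt_one (fun t _ => (hasDerivAt_line h.ac.sm x _ t).continuousAt.continuousWithinAt)
    (fun t _ => hasDerivAt_line h.ac.sm x _ t)
  have h2 : x + -(ta s p x) • s.N p = s.X p (yy s p x) := by
    conv_lhs => rw [← col_dec h.da.fr x, ta_col h.da.fr]
    simp
  have h3 := hx θ (Ioo_subset_Icc_self hθ)
  simp only [one_smul, h2, h.ze (mem_ball_zero_iff.2 hy), zero_smul, add_zero, inner_smul_right,
    ← e] at h1
  have h4 : |d x| = |ta s p x| * ⟪∇ d (x - (θ * ta s p x) • s.N p), s.N p⟫ := by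
    rw [show d x = ta s p x * ⟪∇ d (x - (θ * ta s p x) • s.N p), s.N p⟫ by linarith, abs_mul,
      abs_of_nonneg (le_trans (by positivity) h3)]
  rw [h4, mul_comm]
  gcongr

end Hy

end

end Vale.Agent.P134G
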