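import Vale.Agent.P134G.Spec
import Vale.Agent.P134G.Tool
import Vale.Agent.P134T.Calc

/-!
# P134G: the inequality of Sternberg and Zumbrun with a convex profile
-/

open MeasureTheory Metric Set Filter Topology
open scoped ContDiff RealInnerProductSpace Gradient

noncomputable section

namespace Vale.Agent.P134G.Sz

open Vale.Agent.P134L (E)
open Vale.Agent.P134B (Ok Stab ps ff pp SS qq EE PP pe lap Lf hs)
open Vale.Agent.P134T
open Vale.Agent.P366W

variable {n : ℕ} {σ C : ℝ} {ϑ : ℝ → ℝ} {u : E n → ℝ}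

theorem lap_sum {ι : Type} (s : Finset ι) {F : ι → E n → ℝ} (h : ∀ i, ContDiff ℝ 2 (F i))
    (x : E n) : lap (fun y => ∑ i ∈ s, F i y) x = ∑ i ∈ s, lap (F i) x := by
  classical
  induction s using Finset.induction_on with
  | empty => simpa using lap_const 0 x
  | insert a s ha ih =>
    simp only [Finset.sum_insert ha]
    rw [lap_add (h a) (ContDiff.sum fun i _ => h i), ih]

theorem nsq (v : E n) : ‖v‖ ^ 2 = ∑ i, ⟪v, ee i⟫ * ⟪v, ee i⟫ := by
  rw [EuclideanSpace.real_norm_sq_eq]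
  simp [EuclideanSpace.inner_single_right, sq]

theorem grad_r (h : Ok C u) (x : E n) :
    ∇ (fun y => ‖pp u y‖ ^ 2) x = (2 : ℝ) • SS u x (pp u x) := by
  have e : (fun y => ‖pp u y‖ ^ 2) = fun y => 1 - qq u y := by funext y; simp [qq]
  have : ContDiff ℝ ∞ (qq u) := contDiff_const.sub (h.tcp.norm_sq ℝ)
  rw [e, grad_sub (differentiableAt_const _) (P134T.d2 (c2 this) x), grad_const, h.gq]
  simp

theorem lap_r (h : Ok C u) (x : E n) : lap (fun y => ‖pp u y‖ ^ 2) x =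
    -2 * PP u x * ‖pp u x‖ ^ 2 + 2 * hs (SS u x) +
      4 * √2 * u x * ⟪pp u x, SS u x (pp u x)⟫ := by
  have e : (fun y => ‖pp u y‖ ^ 2) = fun y => ∑ i, pe u (ee i) y * pe u (ee i) y :=
    funext fun y => nsq _
  have k : ∀ i, lap (fun y => pe u (ee i) y * pe u (ee i) y) x =
      -2 * PP u x * (⟪pp u x, ee i⟫ * ⟪pp u x, ee i⟫) + 2 * ‖SS u x (ee i)‖ ^ 2 +
        4 * √2 * u x * ⟪pp u x, SS u x (pp u x i • ee i)⟫ := fun i => by
    have j := h.jac (ee i) x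
    rw [Lf, h.gp] at j
    rw [lap_mul (c2 (h.tcpe _)) (c2 (h.tcpe _)), h.gp, real_inner_self_eq_norm_sq, map_smul,
      inner_smul_right]
    have : pp u x i = pe u (ee i) x := by simp [pe, EuclideanSpace.inner_single_right]
    rw [this]
    unfold pe at *
    linear_combination (2 * ⟪pp u x, ee i⟫) * j
  rw [e, lap_sum _ fun i => (c2 (h.tcpe _)).mul (c2 (h.tcpe _)), Finset.sum_congr rfl fun i _ => k i,
    Finset.sum_add_distrib, Finset.sum_add_distrib, ← Finset.mul_sum, ← Finset.mul_sum,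
    ← Finset.mul_sum, ← nsq, ← inner_sum, ← map_sum, sum_single]
  rfl

theorem dz (hp : Pf σ ϑ) {t : ℝ} (ht : t < σ) : deriv ϑ =ᶠ[𝓝 t] fun _ => 0 := by
  filter_upwards [Iio_mem_nhds ht] with r hr
  have : ϑ =ᶠ[𝓝 r] fun _ => 0 := by
    filter_upwards [Iio_mem_nhds hr] with a ha using hp.z a ha.le
  rw [this.deriv_eq, deriv_const]

theorem ev (hp : Pf σ ϑ) {ρ : ℝ} (h : ρ < σ ^ 2) : ∀ᶠ r in 𝓝 ρ, √r < σ := by
  filter_upwards [Iio_mem_nhds h] with r hr using (Real.sqrt_lt' hp.s0).2 hr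

theorem cΦ (hp : Pf σ ϑ) : ContDiff ℝ 2 fun ρ => ϑ √ρ := by
  refine contDiff_iff_contDiffAt.2 fun ρ => ?_
  rcases lt_or_ge ρ (σ ^ 2) with h | h
  · refine (contDiffAt_const (c := 0)).congr_of_eventuallyEq ?_
    filter_upwards [ev hp h] with r hr using hp.z _ hr.le
  · exact hp.c2.contDiffAt.comp ρ (contDiffAt_id.sqrt ((pow_pos hp.s0 2).trans_le h).ne')

theorem dΦ (hp : Pf σ ϑ) (ρ : ℝ) : HasDerivAt (fun ρ => ϑ √ρ) (deriv ϑ √ρ / (2 * √ρ)) ρ := by
  rcases lt_or_ge ρ (σ ^ 2) with h | h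
  · rw [(dz hp (ev hp h).self_of_nhds).self_of_nhds, zero_div]
    refine (hasDerivAt_const ρ 0).congr_of_eventuallyEq ?_
    filter_upwards [ev hp h] with r hr using hp.z _ hr.le
  · have h0 : ρ ≠ 0 := ((pow_pos hp.s0 2).trans_le h).ne'
    have := (hp.c2.differentiable (by norm_num) √ρ).hasDerivAt.comp ρ (Real.hasDerivAt_sqrt h0)
    rw [mul_one_div] at this
    exact this

theorem ddΦ (hp : Pf σ ϑ) {ρ : ℝ} (h0 : 0 < ρ) : HasDerivAt (fun ρ => deriv ϑ √ρ / (2 * √ρ))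
    (deriv (deriv ϑ) √ρ / (4 * √ρ ^ 2) - deriv ϑ √ρ / (4 * √ρ ^ 3)) ρ := by
  have c1 : ContDiff ℝ 1 (deriv ϑ) := (contDiff_succ_iff_deriv (n := 1)).1 hp.c2 |>.2.2
  have s := Real.hasDerivAt_sqrt h0.ne'
  have s0 := Real.sqrt_pos.2 h0
  have := ((c1.differentiable one_ne_zero √ρ).hasDerivAt.comp ρ s).div (s.const_mul 2)
    (by positivity)
  refine this.congr_deriv ?_
  simp only [Function.comp]
  field_simp
  ring

theorem hs_ge (h : Ok C u) {x : E n} (h0 : pp u x ≠ 0) :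
    ‖pp u x‖ ^ 2 * an (ps u) x + ‖SS u x (nu (ps u) x)‖ ^ 2 ≤ hs (SS u x) := by
  have n1 : ‖nu (ps u) x‖ = 1 := norm_nu h0
  have p0 : ‖pp u x‖ ≠ 0 := norm_ne_zero_iff.2 h0
  set ν := nu (ps u) x with hν
  set S := SS u x with hS
  have k : ∀ i, ‖pp u x‖ ^ 2 * ‖fderiv ℝ (nu (ps u)) x (ee i - ν i • ν)‖ ^ 2 ≤
      ‖S (ee i)‖ ^ 2 - 2 * ⟪S (ν i • ee i), S ν⟫ + ν i ^ 2 * ‖S ν‖ ^ 2 := fun i => by
    have e : ‖pp u x‖ • fderiv ℝ (nu (ps u)) x (ee i - ν i • ν) =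
        S (ee i - ν i • ν) - ⟪ν, S (ee i - ν i • ν)⟫ • ν := by
      rw [fderiv_nu h.smp h0, smul_smul]
      exact (congrArg (· • _) (mul_inv_cancel₀ p0)).trans (one_smul _ _)
    have e2 : ‖S (ee i - ν i • ν)‖ ^ 2 =
        ‖S (ee i)‖ ^ 2 - 2 * ⟪S (ν i • ee i), S ν⟫ + ν i ^ 2 * ‖S ν‖ ^ 2 := by
      rw [map_sub, map_smul, map_smul, norm_sub_sq_real, inner_smul_right, inner_smul_left,
        norm_smul, mul_pow, Real.norm_eq_abs, sq_abs]
      simp
    rw [← mul_pow, ← norm_norm (pp u x), ← norm_smul, e, ← e2, norm_sub_sq_real, inner_smul_right,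
      norm_smul, n1, real_inner_comm ν, mul_one, Real.norm_eq_abs, sq_abs]
    nlinarith [sq_nonneg ⟪S (ee i - ν i • ν), ν⟫]
  have k2 := Finset.sum_le_sum fun i (_ : i ∈ Finset.univ) => k i
  rw [Finset.sum_add_distrib, Finset.sum_sub_distrib, ← Finset.mul_sum, ← Finset.mul_sum,
    ← Finset.sum_mul, ← sum_inner, ← map_sum, sum_single, ← EuclideanSpace.real_norm_sq_eq, n1,
    real_inner_self_eq_norm_sq] at k2
  unfold an hs
  linarith

theorem cT (h : Ok C u) (hp : Pf σ ϑ) : ContDiff ℝ 2 fun y => ϑ ‖pp u y‖ := by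
  simpa [Function.comp_def] using (cΦ hp).comp (c2 (h.tcp.norm_sq ℝ))

/-- the pointwise inequality -/
theorem key (h : Ok C u) (hp : Pf σ ϑ) (x : E n) :
    wa ϑ (ps u) x - 3 * σ * PP u x * ϑ ‖pp u x‖ ≤ ϑ ‖pp u x‖ *
      (Lf u (fun y => ϑ ‖pp u y‖) x + PP u x * ϑ ‖pp u x‖) := by
  by_cases h0 : pp u x = 0
  · have : ϑ ‖pp u x‖ = 0 := hp.z _ (by simp [h0, hp.s0.le])
    have e : ∇ (ps u) x = pp u x := rfl
    simp [wa, e, this]
  have p0 : 0 < ‖pp u x‖ := norm_pos_iff.2 h0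
  have e : (fun y => ϑ ‖pp u y‖) = fun y => ϑ √(‖pp u y‖ ^ 2) := by simp
  have r2 := c2 (h.tcp.norm_sq ℝ)
  have k1 := lap_comp (x := x) r2 (fun y => dΦ hp _) (ddΦ hp (by positivity))
  have k2 := grad_comp (dΦ hp _) (P134T.d2 r2 x)
  have k3 := hs_ge h h0
  have k4 : SS u x (pp u x) = ‖pp u x‖ • SS u x (nu (ps u) x) := by
    rw [← map_smul]; exact congrArg _ (smul_nu (ps u) x).symm
  have k5 : ‖(2 : ℝ) • SS u x (pp u x)‖ ^ 2 = 4 * ‖pp u x‖ ^ 2 * ‖SS u x (nu (ps u) x)‖ ^ 2 := by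
    rw [k4, norm_smul, norm_smul]; simp; ring
  have P0 : 0 ≤ PP u x := mul_nonneg (mul_nonneg (by positivity) (h.tff_pos x).le) (h.q0 x)
  rw [Lf, e, k1, k2, grad_r h, lap_r h, k5, inner_smul_right, inner_smul_right,
    Real.sqrt_sq p0.le]
  have e2 : wa ϑ (ps u) x = ϑ ‖pp u x‖ * (deriv ϑ ‖pp u x‖ * ‖pp u x‖ * an (ps u) x) := by
    unfold wa pp; ring
  rw [e2, mul_comm _ (ϑ ‖pp u x‖), ← mul_sub]
  refine mul_le_mul_of_nonneg_left ?_ (hp.nn _)
  have a1 := mul_le_mul_of_nonneg_left (hp.tg _ p0.le) P0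
  have a2 := mul_nonneg (hp.cv ‖pp u x‖) (sq_nonneg ‖SS u x (nu (ps u) x)‖)
  have a3 := mul_le_mul_of_nonneg_left k3 (div_nonneg (hp.d0 ‖pp u x‖) p0.le)
  refine le_of_sub_nonneg (le_of_le_of_eq (add_nonneg (add_nonneg (sub_nonneg.2 a1) a2)
    (sub_nonneg.2 a3)) ?_)
  field_simp
  ring

theorem lap_ff (h : Ok C u) (x : E n) :
    lap (ff u) x = (3 * u x ^ 2 - 1) * ff u x + PP u x * ff u x := by
  have s : √2 * √2 = (2 : ℝ) := Real.mul_self_sqrt (by norm_num)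
  have k := lap_comp (x := x) (φ := fun t => (1 - t ^ 2) / √2) (φ₁ := fun t => -(√2 * t)) (c2 h.sm)
    (fun y => by
      refine ((((hasDerivAt_id (u y)).pow 2).const_sub 1).div_const √2).congr_deriv ?_
      simp only [id]; field_simp; norm_num)
    ((hasDerivAt_id (u x)).const_mul √2).neg
  have f : √2 * ff u x = 1 - u x ^ 2 := by unfold ff; field_simp
  refine k.trans ?_
  rw [h.eq, h.gu, norm_smul, mul_pow, Real.norm_eq_abs, sq_abs, PP, qq]
  linear_combination (-ff u x - √2 * u x ^ 2) * f + (u x ^ 2 * ff u x) * s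

end Vale.Agent.P134G.Sz

namespace Vale.Agent.P134G

open Vale.Agent.P134L (E)
open Vale.Agent.P134B (Ok Stab ps ff pp SS qq EE PP pe lap Lf hs)
open Vale.Agent.P134T
open Vale.Agent.P366W

theorem sz1' : SZ1 := by
  intro ct n C σ ϑ u ξ h st hp hξ hc
  have T2 := Sz.cT h hp
  have f2 := c2 h.tcf
  set w : E n → ℝ := fun y => ff u y * ϑ ‖pp u y‖ with hw
  have w2 : ContDiff ℝ 2 w := f2.mul T2
  have w1 : ContDiff ℝ 1 w := w2.of_le (by norm_num)
  have g1 : ContDiff ℝ 1 (∇ w) := contDiff_gradient (k := 1) w2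
  have a1 : ContDiff ℝ 1 fun y => w y * (ξ y * ξ y) := w1.mul (hξ.mul hξ)
  have Y1 : ContDiff ℝ 1 fun y => (w y * (ξ y * ξ y)) • ∇ w y := a1.smul g1
  have Yc : HasCompactSupport fun y => (w y * (ξ y * ξ y)) • ∇ w y :=
    hc.mono' fun y hy => subset_tsupport _ fun h0 => hy (by simp [h0])
  have cg : Continuous (∇ ξ) := (contDiff_gradient (k := 0) (by simpa using hξ)).continuous
  have z : ∀ y, y ∉ tsupport ξ → ξ y = 0 ∧ ∇ ξ y = 0 := fun y hy => by
    have e := notMem_tsupport_iff_eventuallyEq.1 hy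
    exact ⟨e.self_of_nhds, e.gradient_eq.trans (grad_const 0 y)⟩
  have k := st (fun y => w y * ξ y) (w1.mul hξ) hc.mul_left
  have c1 := ct n σ ϑ (ps u) hp h.smp
  have c3 := T2.continuous
  have c4 := f2.continuous
  have c5 := hξ.continuous
  have c6 : Continuous (EE u) := (c4.pow 2).mul (continuous_const.sub (h.tcp.continuous.norm.pow 2))
  have c7 := h.sm.continuous
  have c8 := w2.continuous
  have c9 : Continuous (∇ fun y => w y * ξ y) :=
    (contDiff_gradient (k := 0) (by simpa using w1.mul hξ)).continuous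
  have i1 : Integrable fun x => ff u x ^ 2 * (ϑ ‖pp u x‖ ^ 2 * ‖∇ ξ x‖ ^ 2 -
      wa ϑ (ps u) x * ξ x ^ 2) + 5 * σ * ff u x * EE u x * ξ x ^ 2 :=
    Continuous.integrable_of_hasCompactSupport (((c4.pow 2).mul (((c3.pow 2).mul
      (cg.norm.pow 2)).sub (c1.mul (c5.pow 2)))).add (by fun_prop))
      (HasCompactSupport.intro hc fun y hy => by simp [z y hy])
  have i2 := (continuous_dvg Y1).integrable_of_hasCompactSupport (μ := volume) (hcs_dvg Yc)
  have gm : ∀ y, ∇ (fun y => w y * ξ y) y = w y • ∇ ξ y + ξ y • ∇ w y := fun y =>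
    grad_mul (P134T.d2 w2 y) (hξ.differentiable one_ne_zero y)
  refine k.trans ((integral_mono (Continuous.integrable_of_hasCompactSupport (by fun_prop)
    (HasCompactSupport.intro hc fun y hy => by simp [gm, z y hy])) (i1.add i2) fun x => ?_).trans
    (le_of_eq ?_))
  · have dξ := hξ.differentiable one_ne_zero x
    have e1 := Sz.key h hp x
    have e2 : lap w x = ff u x * Lf u (fun y => ϑ ‖pp u y‖) x + ϑ ‖pp u x‖ * lap (ff u) x := by
      rw [hw, lap_mul f2 T2, h.gf, inner_smul_left, Lf]; simp; ring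
    have e3 : 3 * σ * PP u x * ϑ ‖pp u x‖ * ff u x ≤ 5 * σ * EE u x := by
      have b1 := (hp.le _ (norm_nonneg _)).trans (h.tpp_le x)
      have b2 := mul_nonneg hp.s0.le (h.tEE_nn x)
      have : 3 * σ * PP u x * ϑ ‖pp u x‖ * ff u x = 3 * (√2 * ϑ ‖pp u x‖) * (σ * EE u x) := by
        unfold PP EE; ring
      rw [this, mul_assoc 5]
      refine mul_le_mul_of_nonneg_right ?_ b2
      nlinarith [s2_hi, hp.nn ‖pp u x‖]
    simp only [Pi.add_apply]
    rw [dvg_smul (a1.differentiable one_ne_zero x) (g1.differentiable one_ne_zero x), ← inner_grad,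
      grad_mul (P134T.d2 w2 x) (dξ.fun_mul dξ), grad_mul dξ dξ, gm, norm_add_sq_real, norm_smul, norm_smul,
      mul_pow, mul_pow, Real.norm_eq_abs, Real.norm_eq_abs, sq_abs, sq_abs]
    simp only [inner_add_left, inner_smul_left, inner_smul_right, real_inner_self_eq_norm_sq,
      conj_trivial]
    change _ ≤ _ + (_ * lap w x + _)
    rw [e2, Sz.lap_ff h]
    have b3 := mul_le_mul_of_nonneg_left e1 (mul_nonneg (sq_nonneg (ff u x)) (sq_nonneg (ξ x)))
    have b4 := mul_le_mul_of_nonneg_left e3 (mul_nonneg (h.tff_pos x).le (sq_nonneg (ξ x)))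
    simp only [hw]
    nlinarith
  · simp only [Pi.add_apply]
    rw [integral_add i1 i2, integral_dvg_zero Y1 Yc, add_zero]

end Vale.Agent.P134G
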