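import Vale.Agent.P134G.Defs

/-!
# P134G, row TAIL: the error term is small
-/

open MeasureTheory Metric Set Filter Topology
open scoped ContDiff RealInnerProductSpace Gradient

noncomputable section

namespace Vale.Agent.P134G

open Vale.Agent.P134L (E)
open Vale.Agent.P366W (Fr adj)

namespace Tail

theorem gp_nn (t : ℝ) : 0 ≤ gp t :=
  div_nonneg (sub_nonneg.2 (Real.tanh_sq_lt_one _).le) (Real.sqrt_nonneg _)

theorem gp_le (t : ℝ) : gp t ≤ 1 := by
  have h : (1 : ℝ) ≤ √2 := Real.one_le_sqrt.2 (by norm_num)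
  rw [gp, div_le_one (by positivity)]
  nlinarith [sq_nonneg (gg t)]

theorem gp_ct : Continuous gp := by
  have h : Continuous Real.tanh := by
    have e : Real.tanh = fun x => Real.sinh x / Real.cosh x :=
      funext Real.tanh_eq_sinh_div_cosh
    rw [e]
    exact Real.continuous_sinh.div Real.continuous_cosh fun x => (Real.cosh_pos x).ne'
  unfold gp gg
  fun_prop

variable {m : ℕ} {s : Sh m} {p : E (m + 1)} {C η σ l T : ℝ} {d : E (m + 1) → ℝ}

theorem W_sub (h : s.At p C η) : W σ d s p ⊆ ball p 2 := by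
  intro x hx
  have f : Fr (s.N p) (s.L p) := ⟨h.N1, h.NL⟩
  have e := f.dec (x - p)
  rw [mem_ball_iff_norm, ← e]
  refine (norm_add_le _ _).trans_lt ?_
  rw [norm_smul, h.N1, LinearIsometry.norm_map, Real.norm_eq_abs, mul_one]
  have h1 : ‖adj (s.L p) (x - p)‖ < 1 := hx.1
  have h2 : |⟪s.N p, x - p⟫| < 1 := hx.2.1
  linarith

theorem integ (h : s.At p C η) (hW : IsOpen (W σ d s p)) (hd : Continuous d) (hσ : 0 ≤ σ) :
    Integrable (Ft l T σ d s p) := by
  rw [Ft, integrable_indicator_iff hW.measurableSet]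
  have hm : MeasurableSet {x | T * l < |d x|} :=
    (isOpen_lt continuous_const hd.abs).measurableSet
  refine Measure.integrableOn_of_bounded (M := σ + 1)
    ((measure_mono (W_sub h)).trans_lt measure_ball_lt_top).ne ?_ (.of_forall fun x => ?_)
  · exact ((gp_ct.comp (hd.div_const l)).measurable.mul
      (measurable_const.add (measurable_one.indicator hm))).aestronglyMeasurable
  · have i0 : 0 ≤ {x | T * l < |d x|}.indicator (1 : E (m + 1) → ℝ) x :=
      indicator_nonneg (fun _ _ => zero_le_one) x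
    have i1 : {x | T * l < |d x|}.indicator (1 : E (m + 1) → ℝ) x ≤ 1 :=
      indicator_le_self' (fun _ _ => zero_le_one) x
    have g0 := gp_nn (d x / l)
    have g1 := gp_le (d x / l)
    rw [Real.norm_eq_abs, fd, abs_of_nonneg (by positivity)]
    nlinarith

theorem col (hC : COL) {a : ℝ} {φ φ' : ℝ → ℝ} {I : Set ℝ} (hσ : 0 < σ)
    (h : Col l T (σ / 4) η a φ φ' I) :
    ∫ t, I.indicator (fun t => gp (φ t / l) * (σ + {t | T * l < |φ t|}.indicator 1 t)) t ≤
      l * (8 * σ + 24 * (1 + σ⁻¹) * Real.exp (-T)) := by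
  obtain ⟨c1, c2, -⟩ := hC.2 _ _ _ _ _ _ _ _ h
  have hφ : Continuous φ := continuous_iff_continuousAt.2 fun t => (h.dv t).continuousAt
  have hI : MeasurableSet I := h.oc.measurableSet
  have hm : MeasurableSet {t | T * l < |φ t|} := (isOpen_lt continuous_const hφ.abs).measurableSet
  have hg : IntegrableOn (fun t => gp (φ t / l)) I :=
    ((gp_ct.comp (hφ.div_const l)).integrableOn_Icc).mono_set h.bd
  have e : (fun t => gp (φ t / l) * (σ + {t | T * l < |φ t|}.indicator 1 t)) =
      fun t => σ * gp (φ t / l) + {t | T * l < |φ t|}.indicator (fun t => gp (φ t / l)) t := by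
    funext t
    by_cases k : t ∈ {t | T * l < |φ t|}
    · simp only [indicator_of_mem k, Pi.one_apply]; ring
    · simp only [indicator_of_notMem k]; ring
  have e2 : I \ {t | T * l < |φ t|} = I ∩ {t | |φ t| ≤ T * l} := by
    ext t; simp
  rw [integral_indicator hI, e, integral_add (hg.const_mul σ) (hg.indicator hm), integral_const_mul,
    setIntegral_indicator hm, ← integral_inter_add_sdiff hm hg, e2]
  have e3 : 6 * l * Real.exp (-T) / (σ / 4) = 24 * l * Real.exp (-T) * σ⁻¹ := by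
    field_simp; ring
  rw [e3] at c1
  have e4 : σ * (24 * l * Real.exp (-T) * σ⁻¹) = 24 * l * Real.exp (-T) := by field_simp
  nlinarith [mul_le_mul_of_nonneg_left c1 hσ.le, mul_le_mul_of_nonneg_left c2 hσ.le]

end Tail

open Tail in
theorem tail : rTAIL := by
  intro hB hW hC hL hF m ε hε
  set V : ℝ := volume.real (ball (0 : E m) 1) with hV
  have V0 : 0 ≤ V := measureReal_nonneg
  refine ⟨min 1 (ε / (16 * (V + 1))), by positivity, fun σ hσ σ0 => ?_⟩
  have t : ∀ᶠ T : ℝ in atTop, Real.exp (-T) ≤ ε / (48 * (1 + σ⁻¹) * (V + 1)) :=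
    Real.tendsto_exp_neg_atTop_nhds_zero.eventually (ge_mem_nhds (by positivity))
  obtain ⟨T, T1, hT⟩ := ((eventually_ge_atTop (1 : ℝ)).and t).exists
  obtain ⟨l₀, l0, hL⟩ := hL hB T T1 (1 / 10) (by norm_num) le_rfl
  refine ⟨T, T1, l₀, l0, fun K l R C η d s p h hl => ?_⟩
  have hi : Integrable (Ft l T σ d s p) :=
    integ h.da (hW m σ C η d s p h.ac.sm h.da) h.ac.sm.continuous σ0.le
  obtain ⟨f1, f2⟩ := hF m C η s p _ h.da hi fun x hx =>
    indicator_of_notMem (fun k => absurd k.1 (not_lt.2 hx)) _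
  refine ⟨hi, f2 ▸ ?_⟩
  have b : ∀ y ∈ ball (0 : E m) 1, ∫ t : ℝ, Ft l T σ d s p (s.X p y + t • s.N p) ≤
      l * (8 * σ + 24 * (1 + σ⁻¹) * Real.exp (-T)) := fun y hy =>
    col hC σ0 (hL m σ K l R C η d s p σ0 (hσ.trans (min_le_left _ _)) h hl y hy)
  refine (setIntegral_mono_on f1 (integrableOn_const measure_ball_lt_top.ne) measurableSet_ball
    b).trans ?_
  rw [setIntegral_const, smul_eq_mul, ← hV]
  have s1 := (le_div_iff₀ (by positivity)).1 (hσ.trans (min_le_right _ _))
  have s2 := (le_div_iff₀ (by positivity)).1 hT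
  have s3 : 0 ≤ 8 * σ + 24 * (1 + σ⁻¹) * Real.exp (-T) := by positivity
  have s4 : V * (8 * σ + 24 * (1 + σ⁻¹) * Real.exp (-T)) ≤ ε := by nlinarith
  nlinarith [mul_le_mul_of_nonneg_left s4 h.ac.l0.le]

end Vale.Agent.P134G
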