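import Vale.Agent.P134G.Defs

/-!
# P134G, row UNQ: zeros near the disc lie in the disc
-/

open MeasureTheory Metric Set Filter Topology
open scoped ContDiff RealInnerProductSpace Gradient

noncomputable section

namespace Vale.Agent.P134G

open Vale.Agent.P134L (E)
open Vale.Agent.P366W (Fr adj adj_L inner_grad norm_gradient)

namespace Unq

variable {m : ℕ} {s : Sh m} {p : E (m + 1)} {C η : ℝ}

theorem lip (h : s.At p C η) {y z : E m} (hy : ‖y‖ < 4) (hz : ‖z‖ < 4) :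
    |s.h p z - s.h p y| ≤ 1 / 10 * ‖z - y‖ :=
  (convex_ball (0 : E m) 4).norm_image_sub_le_of_norm_fderiv_le (𝕜 := ℝ)
    (fun x hx => (h.sm.contDiffAt (isOpen_ball.mem_nhds hx)).differentiableAt (by simp))
    (fun x hx => by rw [← norm_gradient]; exact h.b1 x hx) (mem_ball_zero_iff.2 hy)
    (mem_ball_zero_iff.2 hz)

theorem lipX (h : s.At p C η) {y z : E m} (hy : ‖y‖ < 4) (hz : ‖z‖ < 4) :
    ‖s.X p z - s.X p y‖ ≤ 11 / 10 * ‖z - y‖ := by
  have e : s.X p z - s.X p y = s.L p (z - y) + (s.h p z - s.h p y) • s.N p := by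
    rw [Sh.X, Sh.X, map_sub, sub_smul]; abel
  rw [e]
  refine (norm_add_le _ _).trans ?_
  rw [norm_smul, h.N1, LinearIsometry.norm_map, Real.norm_eq_abs]
  linarith [lip h hy hz]

theorem X0 (h : s.At p C η) : s.X p 0 = p := by simp [Sh.X, h.h0]

theorem yy_X (h : s.At p C η) (y : E m) : yy s p (s.X p y) = y := by
  rw [yy, Sh.X, add_assoc, add_sub_cancel_left]
  exact Fr.adj_pt ⟨h.N1, h.NL⟩ _ _

theorem nor (h : s.At p C η) {y : E m} (hy : ‖y‖ < 4) : 9 / 10 ≤ ⟪s.N (s.X p y), s.N p⟫ := by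
  have f : Fr (s.N p) (s.L p) := ⟨h.N1, h.NL⟩
  have b := h.b1 y (mem_ball_zero_iff.2 hy)
  have j : J (s.h p) y ≤ 10 / 9 :=
    Real.sqrt_le_iff.2 ⟨by norm_num, by nlinarith [norm_nonneg (∇ (s.h p) y)]⟩
  have j0 : 0 < J (s.h p) y := Real.sqrt_pos.2 (by positivity)
  rw [h.nor y (mem_ball_zero_iff.2 hy), real_inner_smul_left, inner_sub_left, f.ee, f.ort',
    sub_zero, mul_one, le_inv_comm₀ (by norm_num) j0]
  linarith

end Unq

theorem unq : UNQ := by
  intro hB A
  obtain ⟨l₁, l10, hB⟩ := hB (2 * A) (1 / 20) (by norm_num)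
  refine ⟨min l₁ (1 / (|A| + 1)), lt_min l10 (by positivity),
    fun m K l R C η d s p h hl y hy z z0 hz => ?_⟩
  obtain ⟨b1, b2⟩ := hB m K l R d h.ac (hl.trans (min_le_left _ _))
  have f : Fr (s.N p) (s.L p) := ⟨h.da.N1, h.da.NL⟩
  have l0 := h.ac.l0
  have r1 : A * l ≤ 1 := by
    have := (le_div_iff₀ (by positivity)).1 (hl.trans (min_le_right _ _))
    nlinarith [le_abs_self A]
  have r0 : 0 ≤ A * l := (norm_nonneg _).trans hz
  have y4 : ‖y‖ < 4 := by linarith
  have e1 : yy s p z - y = adj (s.L p) (z - s.X p y) := by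
    conv_lhs => rw [← Unq.yy_X h.da y]
    rw [yy, yy, ← map_sub, sub_sub_sub_cancel_right]
  have k1 : ‖yy s p z - y‖ ≤ A * l := e1 ▸ (f.norm_adj _).trans hz
  have k2 : ‖yy s p z‖ < 4 := by linarith [norm_le_norm_sub_add (yy s p z) y]
  have zero : ∀ v : E m, ‖v‖ < 4 → d (s.X p v) = 0 := fun v hv => by
    have := h.da.mem v (mem_ball_zero_iff.2 hv)
    rwa [h.S] at this
  have k3 : ‖s.X p y‖ + 1 ≤ R := by
    have := Unq.lipX h.da (y := 0) (by simp) y4
    rw [Unq.X0 h.da, sub_zero] at this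
    linarith [norm_le_norm_sub_add (s.X p y) p, h.pR]
  have k4 := b1 (s.X p y) (by linarith) (by rw [zero y y4, abs_zero]; linarith)
  have k5 : 4 / 5 ≤ ⟪∇ d (s.X p y), s.N p⟫ := by
    have := Unq.nor h.da y4
    rw [congrFun h.N (s.X p y), nu, real_inner_smul_left, le_inv_mul_iff₀ (by linarith)] at this
    linarith
  have k6 : ∀ x ∈ closedBall (s.X p y) (2 * A * l), ⟪∇ d x, s.N p⟫ ≠ 0 := fun x hx => by
    have a := b2 _ x (zero y y4) k3 (mem_closedBall_iff_norm.1 hx)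
    have b := abs_real_inner_le_norm (∇ d x - ∇ d (s.X p y)) (s.N p)
    rw [f.one, mul_one, inner_sub_left] at b
    linarith [(abs_le.1 b).1]
  obtain ⟨c, hc⟩ : ∃ c : ℝ, z = s.X p (yy s p z) + c • s.N p :=
    ⟨⟪s.N p, z - p⟫ - s.h p (yy s p z), by
      rw [Sh.X, sub_smul, yy, add_assoc, add_sub_cancel, add_assoc, f.dec, add_sub_cancel]⟩
  have dv : ∀ t : ℝ, HasDerivAt (fun t : ℝ => d (s.X p (yy s p z) + t • c • s.N p))
      (c * ⟪∇ d (s.X p (yy s p z) + t • c • s.N p), s.N p⟫) t := fun t => by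
    have a : HasDerivAt (fun t : ℝ => s.X p (yy s p z) + t • c • s.N p) (c • s.N p) t := by
      simpa using ((hasDerivAt_id t).smul_const (c • s.N p)).const_add (s.X p (yy s p z))
    rw [← real_inner_smul_right, inner_grad]
    exact (h.ac.sm.differentiable (by simp) _).hasFDerivAt.comp_hasDerivAt t a
  obtain ⟨t, ht, h0⟩ := exists_hasDerivAt_eq_zero (zero_lt_one' ℝ)
    (fun t _ => (dv t).continuousAt.continuousWithinAt)
    (by rw [zero_smul, add_zero, one_smul, ← hc, zero _ k2, z0]) fun t _ => dv t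
  have m1 : s.X p (yy s p z) ∈ closedBall (s.X p y) (2 * A * l) :=
    mem_closedBall_iff_norm.2 (by linarith [Unq.lipX h.da y4 k2])
  have m2 : s.X p (yy s p z) + c • s.N p ∈ closedBall (s.X p y) (2 * A * l) :=
    hc ▸ mem_closedBall_iff_norm.2 (by linarith)
  have m3 := (convex_closedBall _ _).add_smul_mem m1 m2 (Ioo_subset_Icc_self ht)
  rw [(mul_eq_zero.1 h0).resolve_right (k6 _ m3), zero_smul, add_zero] at hc
  exact hc.symm

end Vale.Agent.P134G
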