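import Vale.Agent.P134G.Defs

/-!
# P134G, row WOP: the set of the points which are seen from the disc is open
-/

open MeasureTheory Metric Set Filter Topology
open scoped ContDiff RealInnerProductSpace Gradient

noncomputable section

namespace Vale.Agent.P134G

open Vale.Agent.P134L (E)
open Vale.Agent.P366W (smooth_gradient)

theorem wop : WOP := by
  intro m σ C η d s p hd h
  have cy : Continuous (yy s p) := by unfold yy; fun_prop
  have ct : Continuous (tt s p) := by unfold tt; fun_prop
  have cg := (smooth_gradient hd).continuous
  refine isOpen_iff_mem_nhds.2 fun x ⟨h1, h2, h3⟩ => ?_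
  have ca : ContinuousAt (ta s p) x :=
    ct.continuousAt.sub ((h.sm.continuousOn.continuousAt
      (isOpen_ball.mem_nhds (mem_ball_zero_iff.2 (by linarith)))).comp cy.continuousAt)
  have k : ∀ᶠ z in 𝓝 x, ∀ θ ∈ Icc (0 : ℝ) 1,
      σ / 4 < ⟪∇ d (z - (θ * ta s p z) • s.N p), s.N p⟫ := by
    refine isCompact_Icc.eventually_forall_of_forall_eventually fun θ hθ => ?_
    have c1 : ContinuousAt (fun w : E (m + 1) × ℝ => ta s p w.1) (x, θ) :=
      ContinuousAt.comp (g := ta s p) (f := Prod.fst) (x := (x, θ)) ca continuousAt_fst
    exact continuousAt_const.eventually_lt ((cg.continuousAt.comp (continuousAt_fst.sub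
      ((continuousAt_snd.mul c1).smul continuousAt_const))).inner continuousAt_const) (h3 θ hθ)
  filter_upwards [cy.norm.continuousAt.eventually_lt continuousAt_const h1,
    ct.abs.continuousAt.eventually_lt continuousAt_const h2, k] with z a b c using ⟨a, b, c⟩

end Vale.Agent.P134G
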