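import Vale.Agent.P134G.Br
import Vale.Agent.P134G.Br2
import Vale.Agent.P134G.Col
import Vale.Agent.P134G.Cont
import Vale.Agent.P134G.Core
import Vale.Agent.P134G.Cut
import Vale.Agent.P134G.Fin
import Vale.Agent.P134G.Form
import Vale.Agent.P134G.Fub
import Vale.Agent.P134G.Ha1
import Vale.Agent.P134G.Ha2
import Vale.Agent.P134G.Hol
import Vale.Agent.P134G.Ind
import Vale.Agent.P134G.Leafe
import Vale.Agent.P134G.Line
import Vale.Agent.P134G.Mc
import Vale.Agent.P134G.Opn
import Vale.Agent.P134G.Pair
import Vale.Agent.P134G.Prof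
import Vale.Agent.P134G.Pw
import Vale.Agent.P134G.Qi
import Vale.Agent.P134G.Reg
import Vale.Agent.P134G.Scl
import Vale.Agent.P134G.Stk
import Vale.Agent.P134G.Sz1b
import Vale.Agent.P134G.Tail
import Vale.Agent.P134G.Unq
import Vale.Agent.P134G.Wop
import Vale.Agent.P134B.Spec2

/-!
# P134G: the curvature estimate from the flatness of limits of systems of discs
-/

namespace Vale.Agent.P134G

theorem stk' : STK :=
  stk ball' cont prof wop reg cut col
    (pair ind ball' core unq ha1 ha2 qi cont wop col line fub) (tail ball' wop col line fub) pw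

theorem leafe' {m : ℕ} (h : FLAT m) : LEAFE m := leafe ball' form opn mc hol fin stk' m h

/-- **LEAF** -/
theorem leaf (gr : P134B.GR) (tl : P134B.TL) {m : ℕ} (h : FLAT m) : P134B.LEAF m := by
  intro C η hη
  obtain ⟨R, ε₀, h0, H⟩ := leaf_of scl (br cont sz1' scl br2 gr tl) (leafe' h) C η hη
  refine ⟨max R 1, by positivity, ε₀, h0, fun u ε z a b c d e f => H u ε z a b c d ?_ f⟩
  exact fun x hx => e x (Metric.ball_subset_ball (by gcongr; exact le_max_left _ _) hx)

end Vale.Agent.P134G
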