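import Vale.Agent.P134G.Spec

/-!
# P134G: the scaled phase has all properties (row BR)
-/

open MeasureTheory Metric Set Filter Topology
open scoped ContDiff RealInnerProductSpace Gradient

noncomputable section

namespace Vale.Agent.P134G

open Vale.Agent.P134L (E)
open Vale.Agent.P366W (Fr trc)
open Vale.Agent.P134B (Ok Stab Gd Fl ps ff pp SS qq EE GR TL lg pt)

namespace BRa

variable {n : ℕ} {C ε : ℝ} {u : E n → ℝ} {y : E n}

theorem fq (ok : Ok C u) (e0 : 0 < ε) (h : EE u y ≤ ε ^ 2) : ff u y * √(qq u y) ≤ ε := by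
  refine (abs_le_of_sq_le_sq' ?_ e0.le).2
  rwa [mul_pow, Real.sq_sqrt (ok.q0 y)]

theorem qz (h : EE u y ≤ ε ^ 2) (z : u y = 0) : qq u y ≤ 2 * ε ^ 2 := by
  rw [EE, ff, z, div_pow, Real.sq_sqrt two_pos.le] at h
  linarith

theorem tilt (ok : Ok C u) (h : ‖‖pp u y‖⁻¹ • pp u y‖ = 1) :
    ‖pp u y - ‖pp u y‖⁻¹ • pp u y‖ ≤ qq u y := by
  have p0 : ‖pp u y‖ ≠ 0 := fun k => by simp [k] at h
  have p1 : ‖pp u y‖ ≤ 1 :=
    (pow_le_one_iff_of_nonneg (norm_nonneg _) two_ne_zero).1 (sub_nonneg.1 (ok.q0 y))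
  have e : pp u y - ‖pp u y‖⁻¹ • pp u y = (‖pp u y‖ - 1) • ‖pp u y‖⁻¹ • pp u y := by
    rw [sub_smul, smul_inv_smul₀ p0, one_smul]
  rw [e, norm_smul, h, mul_one, Real.norm_eq_abs, abs_sub_comm, abs_of_nonneg (sub_nonneg.2 p1), qq]
  nlinarith [norm_nonneg (pp u y)]

end BRa

open BRa in
/-- Row BR. -/
theorem br : rBR := by
  intro cont sz1 scl br2 gr tl m C R M δ hδ
  obtain ⟨ε₁, h1, GR⟩ := gr m C
  obtain ⟨ε₂, h2, TL⟩ := tl m C |M| δ hδ
  refine ⟨min (min ε₁ ε₂) (min (Real.exp (-1)) (1 / (2000 * |C| + 25))), by positivity,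
    fun u ε z ok st e0 e1 gd => ?_⟩
  simp only [le_min_iff] at e1
  obtain ⟨⟨e1, e2⟩, e3, e4⟩ := e1
  have C1 := ok.C1
  rw [abs_of_nonneg (zero_le_one.trans C1), le_div_iff₀ (by positivity)] at e4
  obtain ⟨l, hl⟩ : ∃ l, l = 2000 * C * ε := ⟨_, rfl⟩
  rw [← hl]
  have Ce : ε ≤ C * ε := le_mul_of_one_le_left e0.le C1
  have l0 : 0 < l := by linarith
  have el : ε ≤ l := by linarith
  have l1 : l ≤ 1 := by linarith
  have e5 : ε ≤ 1 / 25 := by linarith
  obtain ⟨sm, S⟩ := scl _ C l u z ok l0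
  have nl : ∀ x : E (m + 1), ‖l⁻¹ • x‖ = ‖x‖ / l := fun x => by
    rw [norm_smul, norm_inv, Real.norm_of_nonneg l0.le, inv_mul_eq_div]
  have gd' : ∀ x y : E (m + 1), ‖x‖ ≤ R → ε * ‖y - (z + l⁻¹ • x)‖ < 2 → EE u y ≤ ε ^ 2 :=
    fun x y hx hy => by
      refine gd y (mem_ball_iff_norm.2 ((lt_div_iff₀' e0).2 ?_))
      have a1 := norm_sub_le_norm_sub_add_norm_sub y (z + l⁻¹ • x) z
      rw [add_sub_cancel_left, nl] at a1
      have a2 : ε * (‖x‖ / l) ≤ ‖x‖ := by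
        rw [← mul_div_assoc, div_le_iff₀' l0]
        gcongr
      nlinarith
  have g0 : ∀ x : E (m + 1), ‖x‖ ≤ R → EE u (z + l⁻¹ • x) ≤ ε ^ 2 := fun x hx =>
    gd' x _ hx (by simp)
  have f0 : ∀ y, 0 ≤ ff u y := fun y => le_trans (by positivity) (ok.flo y)
  have uz : ∀ x, sc u z l x = 0 → u (z + l⁻¹ • x) = 0 := fun x k => by
    rw [← (S x).v, k]
    simp [gg]
  have n1 : ‖l⁻¹‖ = l⁻¹ := Real.norm_of_nonneg (by positivity)
  have n2 : ‖l⁻¹ ^ 2‖ = (l ^ 2)⁻¹ := by rw [norm_pow, n1, inv_pow]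
  refine ⟨⟨C1, l0, sm, fun x => ?_, fun x hx => ?_, fun x hx => ?_, fun x hx => ?_, fun x => ?_,
    fun x => ?_, fun x => ?_, fun x k => ?_, fun p L p0 pR fr => ?_,
    fun σ ϑ pf ξ c k => br2 cont sz1 scl _ C ε l R σ ϑ u ξ z ok st e0 el gd pf c k⟩,
    fun w x w0 wR hx => ?_⟩
  · rw [(S x).g]
    exact (pow_le_one_iff_of_nonneg (norm_nonneg _) two_ne_zero).1 (sub_nonneg.1 (ok.q0 _))
  · rw [(S x).f, (S x).q]
    exact (g0 x hx).trans (by gcongr)
  · rw [(S x).f, (S x).h, norm_smul, n1, mul_left_comm, inv_mul_le_iff₀ l0]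
    have a1 := mul_le_mul_of_nonneg_left (ok.S0 (z + l⁻¹ • x)) (f0 (z + l⁻¹ • x))
    have a2 := mul_le_mul_of_nonneg_left (fq ok e0 (g0 x hx)) (zero_le_one.trans C1)
    linarith
  · rw [(S x).f, (S x).h']
    refine (mul_le_mul_of_nonneg_left (ContinuousLinearMap.opNorm_smul_le _ _) (f0 _)).trans ?_
    rw [n2, mul_left_comm, inv_mul_le_iff₀ (by positivity),
      show l ^ 2 * (C / l) = C * l by field_simp]
    have a1 := mul_le_mul_of_nonneg_left (ok.S1 (z + l⁻¹ • x)) (f0 (z + l⁻¹ • x))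
    have a2 := mul_le_mul_of_nonneg_left ((fq ok e0 (g0 x hx)).trans el) (zero_le_one.trans C1)
    linarith
  · rw [(S x).h', (S x).g, (S x).q, smul_apply, norm_smul, n2, inv_mul_eq_div]
    exact div_le_div_of_nonneg_right (ok.S2 _) (by positivity)
  · rw [(S x).q', (S x).q, norm_smul, n1, inv_mul_eq_div]
    exact div_le_div_of_nonneg_right (ok.q1 _) l0.le
  · rw [(S x).q'', (S x).q, norm_smul, n2, inv_mul_eq_div]
    exact div_le_div_of_nonneg_right (ok.q2 _) (by positivity)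
  · rw [(S x).h, P366W.trc_smul, ok.tr, uz x k]
    simp
  · have G : Gd u ε (z + l⁻¹ • p) (|0| + 3 * (8 / l) + 3) := fun y hy => by
      refine gd' p y (by linarith) ?_
      have a1 := mul_lt_mul_of_pos_left (mem_ball_iff_norm.1 hy) e0
      have a2 : ε * (8 / l) ≤ 1 / 100 := by
        rw [← mul_div_assoc, div_le_iff₀' l0]
        linarith
      rw [abs_zero] at a1
      linarith
    have N : nu (sc u z l) p = ‖pp u (z + l⁻¹ • p)‖⁻¹ • pp u (z + l⁻¹ • p) := by rw [nu, (S p).g]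
    have b : 2 * ε ^ 2 + 2 * (2 * C * ε) * (8 / l) ≤ 1 / 50 := by
      have : 2 * (2 * C * ε) * (8 / l) = 2 / 125 := by
        rw [hl]; field_simp; norm_num
      nlinarith
    obtain ⟨h, h0, H⟩ := GR u ε 0 (8 / l) (2 * ε ^ 2) (2 * C * ε) (z + l⁻¹ • p) _ L ok fr e0 e1
      (by positivity) (by positivity) G (fun y hy k => (ok.S0 y).trans (by
        have : √(qq u y) ≤ 2 * ε := Real.sqrt_le_iff.2 ⟨by positivity, by
          nlinarith [qz (G y hy) k, sq_nonneg ε]⟩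
        nlinarith)) (by simpa using uz p p0) (by
        rw [zero_smul, add_zero, N]
        exact (tilt ok (N ▸ fr.one)).trans (qz (g0 p (by linarith)) (uz p p0))) (by linarith)
    refine ⟨fun y => l * h (l⁻¹ • y), contDiff_const.mul (H.sm.comp (contDiff_const_smul _)),
      by simp [h0], fun y hy => ?_⟩
    have y1 : l⁻¹ • y ∈ ball (0 : E m) (8 / l) := by
      rw [mem_ball_zero_iff, norm_smul, n1, inv_mul_eq_div]
      exact div_lt_div_of_pos_right (mem_ball_zero_iff.1 hy) l0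
    have e : z + l⁻¹ • (p + L y + (l * h (l⁻¹ • y)) • nu (sc u z l) p) =
        pt (z + l⁻¹ • p) (nu (sc u z l) p) L (l⁻¹ • y) (h (l⁻¹ • y)) := by
      rw [pt, smul_add, smul_add, smul_smul, inv_mul_cancel_left₀ l0.ne', map_smul]
      abel
    refine ⟨?_, ?_⟩
    · rw [sc, e, ps, H.ze _ y1]
      simp
    · rw [(S _).g, e]
      exact (H.ti _ y1).trans b
  · have a1 : 1 ≤ lg ε := by
      have := Real.log_le_log e0 e3
      rw [Real.log_exp] at this
      rw [lg]; linarith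
    have a2 : 0 ≤ lg l := neg_nonneg.2 (Real.log_nonpos l0.le l1)
    have a3 : lg l ≤ lg ε := neg_le_neg (Real.log_le_log e0 el)
    have a4 : δ / lg ε ≤ δ := div_le_self hδ.le a1
    have Z := TL u ε (z + l⁻¹ • w) ok e0 e2 (fun y hy => gd' w y wR (by
      have := (lt_div_iff₀' e0).1 (mem_ball_iff_norm.1 hy)
      linarith)) (uz w w0) (z + l⁻¹ • x) (by
      rw [mem_ball_iff_norm, add_sub_add_left_eq_sub, ← smul_sub, nl, div_lt_iff₀' l0]
      refine hx.trans_le ?_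
      rw [mul_left_comm]
      exact mul_le_mul_of_nonneg_left (mul_le_mul (le_abs_self M) a3 a2 (abs_nonneg M)) l0.le)
    have N : nu (sc u z l) w = ‖pp u (z + l⁻¹ • w)‖⁻¹ • pp u (z + l⁻¹ • w) := by rw [nu, (S w).g]
    rw [← N] at Z
    refine ⟨?_, fun τ k => ?_, ?_, ?_⟩
    · rw [(S x).g]
      exact Z.t0.trans a4
    · rw [(S x).h, smul_apply, norm_smul, n1, mul_inv_cancel_left₀ l0.ne']
      exact (Z.t1 τ k).trans (by gcongr)
    · rw [(S x).h, (S x).v, (S x).q, smul_apply, real_inner_smul_left,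
        mul_inv_cancel_left₀ l0.ne']
      exact Z.t2.trans a4
    · rw [(S x).v, (S x).q]
      exact Z.t3.imp (·.trans a4) fun k => by linarith

end Vale.Agent.P134G
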