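import Vale.Agent.P134G.Sheet
import Vale.Agent.P134B.Defs

/-!
# P134G: from the equation of Allen and Cahn to systems of discs

`d = l * ps u (z + · / l)` is the scaled phase; all rows are about `d` only.
-/

open MeasureTheory Metric Set Filter Topology
open scoped ContDiff RealInnerProductSpace Gradient

noncomputable section

namespace Vale.Agent.P134G

open Vale.Agent.P134L (E BERN)
open Vale.Agent.P366W (Fr adj trc)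
open Vale.Agent.P134B (lg)

variable {n m : ℕ}

/-- the profile -/
def gg (t : ℝ) : ℝ := Real.tanh (t / √2)
/-- the derivative of the profile -/
def gp (t : ℝ) : ℝ := (1 - gg t ^ 2) / √2
/-- the energy of the core -/
def sT (T : ℝ) : ℝ := ∫ t in -T..T, gp t ^ 2
/-- the Hessian -/
def Hs (d : E n → ℝ) (x : E n) : E n →L[ℝ] E n := fderiv ℝ (∇ d) x
def qd (d : E n → ℝ) (x : E n) : ℝ := 1 - ‖∇ d x‖ ^ 2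
def fd (l : ℝ) (d : E n → ℝ) (x : E n) : ℝ := gp (d x / l)
/-- the unit normal of the level sets -/
def nu (d : E n → ℝ) (x : E n) : E n := ‖∇ d x‖⁻¹ • ∇ d x
/-- the squared norm of the second fundamental form of the level sets -/
def an (d : E n → ℝ) (x : E n) : ℝ := ∑ i, ‖fderiv ℝ (nu d) x (ee i - nu d x i • nu d x)‖ ^ 2

/-- a convex profile which vanishes below `σ` and has slope one above `3 σ` -/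
structure Pf (σ : ℝ) (ϑ : ℝ → ℝ) : Prop where
  s0 : 0 < σ
  s1 : σ ≤ 1 / 10
  c2 : ContDiff ℝ 2 ϑ
  z : ∀ t, t ≤ σ → ϑ t = 0
  nn : ∀ t, 0 ≤ ϑ t
  le : ∀ t, 0 ≤ t → ϑ t ≤ t
  cv : ∀ t, 0 ≤ deriv (deriv ϑ) t
  tg : ∀ t, 0 ≤ t → -(3 * σ) ≤ ϑ t - t * deriv ϑ t
  d0 : ∀ t, 0 ≤ deriv ϑ t
  d1 : ∀ t, 3 * σ ≤ t → deriv ϑ t = 1

/-- the weight of the curvature -/
def wa (ϑ : ℝ → ℝ) (d : E n → ℝ) (x : E n) : ℝ :=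
  ϑ ‖∇ d x‖ * deriv ϑ ‖∇ d x‖ * ‖∇ d x‖ * an d x

/-- the integrand of the inequality of Sternberg and Zumbrun -/
def sz (l σ : ℝ) (ϑ : ℝ → ℝ) (d ξ : E n → ℝ) (x : E n) : ℝ :=
  fd l d x ^ 2 * (ϑ ‖∇ d x‖ ^ 2 * ‖∇ ξ x‖ ^ 2 - wa ϑ d x * ξ x ^ 2) + 5 * σ * fd l d x * ξ x ^ 2

/-- all that is used about the scaled phase in the ball of radius `R` -/
structure Ac (K l R : ℝ) (d : E (m + 1) → ℝ) : Prop where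
  K1 : 1 ≤ K
  l0 : 0 < l
  sm : ContDiff ℝ ∞ d
  g1 : ∀ x, ‖∇ d x‖ ≤ 1
  e : ∀ x, ‖x‖ ≤ R → fd l d x ^ 2 * qd d x ≤ l ^ 2
  h2 : ∀ x, ‖x‖ ≤ R → fd l d x * ‖Hs d x‖ ≤ 1 / 1000
  h3 : ∀ x, ‖x‖ ≤ R → fd l d x * ‖fderiv ℝ (Hs d) x‖ ≤ K / l
  h4 : ∀ x, ‖fderiv ℝ (Hs d) x (∇ d x)‖ ≤ K * qd d x / l ^ 2
  q1 : ∀ x, ‖∇ (qd d) x‖ ≤ K * qd d x / l
  q2 : ∀ x, ‖Hs (qd d) x‖ ≤ K * qd d x / l ^ 2
  tr : ∀ x, d x = 0 → trc (Hs d x) = 0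
  gr : ∀ p (L : E m →ₗᵢ[ℝ] E (m + 1)), d p = 0 → ‖p‖ + 30 ≤ R → Fr (nu d p) L →
    ∃ h : E m → ℝ, ContDiff ℝ ∞ h ∧ h 0 = 0 ∧ ∀ y ∈ ball (0 : E m) 8,
      d (p + L y + h y • nu d p) = 0 ∧ ‖∇ d (p + L y + h y • nu d p) - nu d p‖ ≤ 1 / 50
  st : ∀ σ ϑ, Pf σ ϑ → ∀ ξ : E (m + 1) → ℝ, ContDiff ℝ 1 ξ → (∀ x, R ≤ ‖x‖ → ξ x = 0) →
    0 ≤ ∫ x, sz l σ ϑ d ξ x

/-- at `x` the phase is one-dimensional in the direction `e` up to the error `δ` -/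
structure Zs (δ l : ℝ) (d : E n → ℝ) (e x : E n) : Prop where
  t0 : ‖∇ d x - ⟪∇ d x, e⟫ • e‖ ≤ δ
  t1 : ∀ τ, ⟪τ, e⟫ = 0 → l * ‖Hs d x τ‖ ≤ δ * ‖τ‖
  t2 : |l * ⟪Hs d x e, e⟫ + √2 * gg (d x / l) * qd d x| ≤ δ
  t3 : qd d x ≤ δ ∨ 1 - δ ≤ |gg (d x / l)|

/-- the tilt up to logarithmic height -/
def Tl (M δ l R : ℝ) (d : E n → ℝ) : Prop :=
  ∀ z x, d z = 0 → ‖z‖ ≤ R → ‖x - z‖ < M * (l * lg l) → Zs δ l d (nu d z) x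

/-! ## The discs -/

/-- `s` describes the zero set of `d`, and `p` is a zero far from the boundary -/
structure Rl (K l R : ℝ) (d : E (m + 1) → ℝ) (s : Sh m) (p : E (m + 1)) : Prop where
  ac : Ac K l R d
  S : s.S = {x | d x = 0}
  N : s.N = nu d
  p0 : d p = 0
  pR : ‖p‖ + 30 ≤ R

/-- the raw graph over the ball of radius `8` -/
structure G8 (K l R : ℝ) (d : E (m + 1) → ℝ) (s : Sh m) (p : E (m + 1)) : Prop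
    extends Rl K l R d s p where
  l1 : l ≤ 1 / 10
  fr : Fr (s.N p) (s.L p)
  sm : ContDiff ℝ ∞ (s.h p)
  h0 : s.h p 0 = 0
  ze : ∀ y ∈ ball (0 : E m) 8, d (s.X p y) = 0
  ti : ∀ y ∈ ball (0 : E m) 8, ‖∇ d (s.X p y) - s.N p‖ ≤ 1 / 50

/-- the differential of the parametrisation -/
def dX (s : Sh m) (p : E (m + 1)) (y v : E m) : E (m + 1) :=
  s.L p v + ⟪∇ (s.h p) y, v⟫ • s.N p

/-- the derivatives of the graph -/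
structure Fm (d : E (m + 1) → ℝ) (s : Sh m) (p : E (m + 1)) (y : E m) : Prop where
  g : ∇ (s.h p) y = (-⟪∇ d (s.X p y), s.N p⟫⁻¹) • adj (s.L p) (∇ d (s.X p y))
  g1 : ‖∇ (s.h p) y‖ ≤ 1 / 40
  x : ‖s.X p y - p‖ ≤ 9
  nor : s.N (s.X p y) = (J (s.h p) y)⁻¹ • (s.N p - s.L p (∇ (s.h p) y))
  h : ∀ v w, fderiv ℝ (fderiv ℝ (s.h p)) y v w =
    -⟪∇ d (s.X p y), s.N p⟫⁻¹ * ⟪Hs d (s.X p y) (dX s p y v), dX s p y w⟫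
  h1 : ‖fderiv ℝ (fderiv ℝ (s.h p)) y‖ ≤ 1 / 100

/-- **FORM** -/
def FORM : Prop := ∀ (m : ℕ) (K l R : ℝ) (d : E (m + 1) → ℝ) (s : Sh m) (p : E (m + 1)),
  G8 K l R d s p → ∇ (s.h p) 0 = 0 ∧ ∀ y ∈ ball (0 : E m) 8, Fm d s p y

/-- **OPN**: the disc is open in the zero set -/
def OPN : Prop := ∀ (m : ℕ) (K l R : ℝ) (d : E (m + 1) → ℝ) (s : Sh m) (p : E (m + 1)),
  G8 K l R d s p → ∀ y ∈ ball (0 : E m) 4, s.X p '' ball 0 4 ∈ 𝓝[s.S] s.X p y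

/-- **MC**: the mean curvature is small and Lipschitz -/
def MC : Prop := FORM → ∀ K : ℝ, ∃ K' : ℝ, ∀ (m : ℕ) (l R : ℝ) (d : E (m + 1) → ℝ) (s : Sh m)
  (p : E (m + 1)), G8 K l R d s p → ∀ y ∈ ball (0 : E m) 8, |mse (s.h p) y| ≤ K' * l ∧
    ∀ z ∈ ball (0 : E m) 8, |mse (s.h p) y - mse (s.h p) z| ≤ K' * ‖y - z‖

/-- **HOL**: the estimate of Schauder -/
def HOL : Prop := ∀ (m : ℕ) (K : ℝ), ∃ C : ℝ, ∀ h : E m → ℝ, ContDiff ℝ ∞ h →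
  (∀ y ∈ ball (0 : E m) 8, ‖∇ h y‖ ≤ 1 / 10 ∧ ‖fderiv ℝ (fderiv ℝ h) y‖ ≤ 1 / 10 ∧ |mse h y| ≤ K ∧
    ∀ z ∈ ball (0 : E m) 8, |mse h y - mse h z| ≤ K * ‖y - z‖) →
  ∀ y ∈ ball (0 : E m) 4, ∀ z ∈ ball (0 : E m) 4, ∀ i j, |d2 h y i j - d2 h z i j| ≤ C * √‖y - z‖

/-- **FIN**: the Hessian of the phase from the Hessian of the graph -/
def FIN : Prop := FORM → ∀ (m : ℕ) (K : ℝ), ∀ ε > (0 : ℝ), ∃ δ > (0 : ℝ), ∀ (l R : ℝ)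
  (d : E (m + 1) → ℝ) (s : Sh m) (p : E (m + 1)), G8 K l R d s p → l ≤ δ →
  (∀ i j, |d2 (s.h p) 0 i j| ≤ δ) → ‖Hs d p‖ ≤ ε

/-! ## The columns over a disc -/

/-- a good disc of the zero set -/
structure Hy (K l R C η : ℝ) (d : E (m + 1) → ℝ) (s : Sh m) (p : E (m + 1)) : Prop
    extends Rl K l R d s p where
  da : s.At p C η

/-- the horizontal coordinate -/
def yy (s : Sh m) (p x : E (m + 1)) : E m := adj (s.L p) (x - p)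
/-- the vertical coordinate -/
def tt (s : Sh m) (p x : E (m + 1)) : ℝ := ⟪s.N p, x - p⟫
/-- the height over the disc -/
def ta (s : Sh m) (p x : E (m + 1)) : ℝ := tt s p x - s.h p (yy s p x)

/-- the points which are seen from the disc -/
def W (σ : ℝ) (d : E (m + 1) → ℝ) (s : Sh m) (p : E (m + 1)) : Set (E (m + 1)) :=
  {x | ‖yy s p x‖ < 1 ∧ |tt s p x| < 1 ∧
    ∀ θ ∈ Icc (0 : ℝ) 1, σ / 4 < ⟪∇ d (x - (θ * ta s p x) • s.N p), s.N p⟫}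

/-- **BALL**: near a zero -/
def BALL : Prop := ∀ A : ℝ, ∀ η > (0 : ℝ), ∃ l₀ > (0 : ℝ), ∀ (m : ℕ) (K l R : ℝ)
  (d : E (m + 1) → ℝ), Ac K l R d → l ≤ l₀ →
  (∀ x, ‖x‖ ≤ R → |d x| ≤ A * l → 1 - η ≤ ‖∇ d x‖) ∧
  ∀ z x, d z = 0 → ‖z‖ + 1 ≤ R → ‖x - z‖ ≤ A * l → ‖∇ d x - ∇ d z‖ ≤ η

/-- **CORE**: the curvature of the level sets in the core -/
def CORE : Prop := BALL → ∀ (m : ℕ) (K T : ℝ), ∀ η > (0 : ℝ), ∃ l₀ > (0 : ℝ), ∀ (l R : ℝ)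
  (d : E (m + 1) → ℝ), Ac K l R d → l ≤ l₀ → ∀ x, ‖x‖ + 1 ≤ R → |d x| ≤ T * l →
  ∃ z, d z = 0 ∧ ‖x - z‖ ≤ 2 * T * l ∧ |an d x - an d z| ≤ η

/-- **UNQ**: zeros near the disc lie in the disc -/
def UNQ : Prop := BALL → ∀ A : ℝ, ∃ l₀ > (0 : ℝ), ∀ (m : ℕ) (K l R C η : ℝ) (d : E (m + 1) → ℝ)
  (s : Sh m) (p : E (m + 1)), Hy K l R C η d s p → l ≤ l₀ → ∀ y : E m, ‖y‖ ≤ 2 → ∀ z, d z = 0 →
  ‖z - s.X p y‖ ≤ A * l → s.X p (yy s p z) = z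

/-- **HA1**: the two second fundamental forms agree -/
def HA1 : Prop := ∀ (m : ℕ) (K l R C η : ℝ) (d : E (m + 1) → ℝ) (s : Sh m) (p : E (m + 1)),
  Hy K l R C η d s p → ∀ y ∈ ball (0 : E m) 4, s.A2 p y = an d (s.X p y)

/-- **HA2**: the modulus of continuity of the curvature -/
def HA2 : Prop := ∀ (m : ℕ) (C : ℝ), ∀ ε > (0 : ℝ), ∃ δ > (0 : ℝ), ∀ (s : Sh m) (p : E (m + 1))
  (η : ℝ), s.At p C η → ∀ y ∈ ball (0 : E m) 4, s.A2 p y ≤ m + 1 ∧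
    ∀ z ∈ ball (0 : E m) 4, ‖y - z‖ ≤ δ → |s.A2 p y - s.A2 p z| ≤ ε

/-- the integrand of the pair form on the disc -/
def Pt (s : Sh m) (p q : E (m + 1)) (G H : E (m + 1) → ℝ) (y : E m) : ℝ :=
  (s.D q).indicator (fun x => ⟪∇ G x, ∇ H x⟫ - s.A2 p y * (G x * H x)) (s.X p y)

/-- the integrand of the pair form in the space -/
def Ps (ϑ : ℝ → ℝ) (d G H : E n → ℝ) (x : E n) : ℝ :=
  ϑ ‖∇ d x‖ ^ 2 * ⟪∇ G x, ∇ H x⟫ - wa ϑ d x * (G x * H x)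

/-- **QI**: integrability on the disc -/
def QI : Prop := HA2 → ∀ (m : ℕ) (s : Sh m) (p q : E (m + 1)) (C η B : ℝ) (G H : E (m + 1) → ℝ),
  s.At p C η → s.At q C η → Tst B p G → Tst B q H →
  AEStronglyMeasurable (Pt s p q G H) (volume.restrict (ball 0 1)) ∧
  (∀ y ∈ ball (0 : E m) 1, |Pt s p q G H y| ≤ (m + 2) * B ^ 2) ∧
  IntegrableOn (fun y => Pt s p q G H y * J (s.h p) y) (ball 0 1)

/-- **CONT** -/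
def CONT : Prop := ∀ (n : ℕ) (σ : ℝ) (ϑ : ℝ → ℝ) (d : E n → ℝ), Pf σ ϑ → ContDiff ℝ ∞ d →
  Continuous (wa ϑ d)

/-- **PROF** -/
def PROF : Prop := ∀ σ : ℝ, 0 < σ → σ ≤ 1 / 10 → ∃ ϑ, Pf σ ϑ

/-- **WOP** -/
def WOP : Prop := ∀ (m : ℕ) (σ C η : ℝ) (d : E (m + 1) → ℝ) (s : Sh m) (p : E (m + 1)),
  ContDiff ℝ ∞ d → s.At p C η → IsOpen (W σ d s p)

/-- **REG**: no jump at the boundary of `W` -/
def REG : Prop := WOP → ∀ σ : ℝ, 0 < σ → σ ≤ 1 / 10 → ∀ (m : ℕ) (K l R C η : ℝ)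
  (d : E (m + 1) → ℝ) (s : Sh m) (p : E (m + 1)), Hy K l R C η d s p → l ≤ 1 / 10 →
  Tl (13 / σ) (σ / 100) l R d → ∀ F : E (m + 1) → ℝ, ContDiff ℝ 1 F →
  (∀ x, 1 / 2 ≤ ‖x - p‖ ∨ 3 * (l * lg l) ≤ |d x| ∨ ‖∇ d x‖ ≤ σ / 2 → F x = 0) →
  ContDiff ℝ 1 ((W σ d s p).indicator F) ∧
    ∀ x, ∇ ((W σ d s p).indicator F) x = (W σ d s p).indicator (∇ F) x

/-- **CUT**: the cut-off in the height and in the slope -/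
def CUT : Prop := ∃ c : ℝ, 0 ≤ c ∧ ∀ T : ℝ, ∃ l₀ > (0 : ℝ), ∀ (n : ℕ) (σ l : ℝ) (d : E n → ℝ),
  0 < σ → 0 < l → l ≤ l₀ → ContDiff ℝ ∞ d → (∀ x, ‖∇ d x‖ ≤ 1) →
  ∃ b : E n → ℝ, ContDiff ℝ 1 b ∧ (∀ x, 0 ≤ b x ∧ b x ≤ 1) ∧
    (∀ x, 3 * (l * lg l) ≤ |d x| ∨ ‖∇ d x‖ ≤ σ / 2 → b x = 0) ∧
    ∀ x, σ < ‖∇ d x‖ → fd l d x * ‖∇ b x‖ ^ 2 ≤ c ∧ (|d x| ≤ T * l → b x = 1 ∧ ∇ b x = 0)

/-- **IND**: the integrand in the core and at the foot point -/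
def IND : Prop := BALL → CORE → UNQ → HA1 → HA2 → ∀ (m : ℕ) (K C B : ℝ), ∀ ε > (0 : ℝ),
  ∃ σ₀ > (0 : ℝ), ∀ σ ≤ σ₀, ∀ T : ℝ, ∃ l₀ > (0 : ℝ), ∀ (l R η : ℝ) (ϑ : ℝ → ℝ) (d : E (m + 1) → ℝ)
  (s : Sh m) (p q : E (m + 1)) (G H : E (m + 1) → ℝ), Pf σ ϑ → Hy K l R C η d s p →
  Hy K l R C η d s q → Tst B p G → Tst B q H → l ≤ l₀ → ∀ x ∈ W σ d s p, |d x| ≤ T * l →
  |(W σ d s q).indicator (Ps ϑ d G H) x - Pt s p q G H (yy s p x)| ≤ ε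

/-- the data along a column -/
structure Col (l T σ η a : ℝ) (φ φ' : ℝ → ℝ) (I : Set ℝ) : Prop where
  l0 : 0 < l
  T1 : 1 ≤ T
  s0 : 0 < σ
  e1 : η ≤ 1 / 10
  a0 : 9 / 10 ≤ a
  dv : ∀ t, HasDerivAt φ (φ' t) t
  ct : Continuous φ'
  z : φ 0 = 0
  oc : I.OrdConnected
  bd : I ⊆ Icc (-2) 2
  lo : ∀ t ∈ I, σ ≤ φ' t
  co : ∀ t, |t| ≤ 2 * T * l → t ∈ I ∧ |φ' t - a| ≤ η

/-- **COL**: integrals over a column -/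
def COL : Prop := (∀ T : ℝ, 1 ≤ T → 1 / 10 ≤ sT T) ∧
  ∀ (l T σ η a : ℝ) (φ φ' : ℝ → ℝ) (I : Set ℝ), Col l T σ η a φ φ' I →
    (∫ t in I ∩ {t | T * l < |φ t|}, gp (φ t / l)) ≤ 6 * l * Real.exp (-T) / σ ∧
    (∫ t in I ∩ {t | |φ t| ≤ T * l}, gp (φ t / l)) ≤ 8 * l ∧
    |a * (∫ t in I ∩ {t | |φ t| ≤ T * l}, gp (φ t / l) ^ 2) - l * sT T| ≤ 8 * η * l

/-- **LINE**: the restriction to a column -/
def LINE : Prop := BALL → ∀ T : ℝ, 1 ≤ T → ∀ η' > (0 : ℝ), η' ≤ 1 / 10 → ∃ l₀ > (0 : ℝ),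
  ∀ (m : ℕ) (σ K l R C η : ℝ) (d : E (m + 1) → ℝ) (s : Sh m) (p : E (m + 1)), 0 < σ → σ ≤ 1 →
  Hy K l R C η d s p → l ≤ l₀ → ∀ y ∈ ball (0 : E m) 1,
  Col l T (σ / 4) η' (J (s.h p) y)⁻¹ (fun t => d (s.X p y + t • s.N p))
    (fun t => ⟪∇ d (s.X p y + t • s.N p), s.N p⟫) {t | s.X p y + t • s.N p ∈ W σ d s p}

/-- **FUB**: integration in columns -/
def FUB : Prop := ∀ (m : ℕ) (C η : ℝ) (s : Sh m) (p : E (m + 1)) (F : E (m + 1) → ℝ), s.At p C η →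
  Integrable F → (∀ x, 1 ≤ ‖yy s p x‖ → F x = 0) →
  IntegrableOn (fun y => ∫ t : ℝ, F (s.X p y + t • s.N p)) (ball 0 1) ∧
  ∫ x, F x = ∫ y in ball (0 : E m) 1, ∫ t : ℝ, F (s.X p y + t • s.N p)

/-- the main term -/
def Fp (l T σ : ℝ) (ϑ : ℝ → ℝ) (d : E (m + 1) → ℝ) (s : Sh m) (p q : E (m + 1))
    (G H : E (m + 1) → ℝ) : E (m + 1) → ℝ :=
  (W σ d s p ∩ {x | |d x| ≤ T * l}).indicator fun x =>
    fd l d x ^ 2 * (W σ d s q).indicator (Ps ϑ d G H) x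

/-- the error term -/
def Ft (l T σ : ℝ) (d : E (m + 1) → ℝ) (s : Sh m) (p : E (m + 1)) : E (m + 1) → ℝ :=
  (W σ d s p).indicator fun x => fd l d x * (σ + {x | T * l < |d x|}.indicator 1 x)

/-- the statement for a pair of discs -/
def PAIR : Prop := ∀ (m : ℕ) (K C B : ℝ), ∀ ε > (0 : ℝ), ∃ σ₀ > (0 : ℝ), ∀ σ ≤ σ₀, ∀ T : ℝ, 1 ≤ T →
  ∃ l₀ > (0 : ℝ), ∀ (l R η : ℝ) (ϑ : ℝ → ℝ) (d : E (m + 1) → ℝ) (s : Sh m) (p q : E (m + 1))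
  (G H : E (m + 1) → ℝ), Pf σ ϑ → Hy K l R C η d s p → Hy K l R C η d s q → Tst B p G →
  Tst B q H → l ≤ l₀ → Integrable (Fp l T σ ϑ d s p q G H) ∧
  |(∫ x, Fp l T σ ϑ d s p q G H x) -
    l * sT T * ∫ y in ball (0 : E m) 1, Pt s p q G H y * J (s.h p) y| ≤ ε * l

/-- the statement for the tails -/
def TAIL : Prop := ∀ (m : ℕ), ∀ ε > (0 : ℝ), ∃ σ₀ > (0 : ℝ), ∀ σ ≤ σ₀, 0 < σ → ∃ T : ℝ, 1 ≤ T ∧
  ∃ l₀ > (0 : ℝ), ∀ (K l R C η : ℝ) (d : E (m + 1) → ℝ) (s : Sh m) (p : E (m + 1)),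
  Hy K l R C η d s p → l ≤ l₀ → Integrable (Ft l T σ d s p) ∧ (∫ x, Ft l T σ d s p x) ≤ ε * l

def rPAIR : Prop := IND → BALL → CORE → UNQ → HA1 → HA2 → QI → CONT → WOP → COL → LINE → FUB → PAIR
def rTAIL : Prop := BALL → WOP → COL → LINE → FUB → TAIL

/-- the pointwise inequality -/
def PW : Prop := ∀ (k : ℕ) (B c : ℝ), 0 ≤ c → ∃ c' : ℝ, 0 ≤ c' ∧ ∀ (m : ℕ) (l T σ : ℝ) (ϑ : ℝ → ℝ)
  (d b ξ : E (m + 1) → ℝ) (s : Sh m) (p : Fin k → E (m + 1)) (G : Fin k → E (m + 1) → ℝ)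
  (x : E (m + 1)), Pf σ ϑ → (∀ i, Tst B (p i) (G i)) → DifferentiableAt ℝ b x → 0 ≤ b x → b x ≤ 1 →
  ‖∇ d x‖ ≤ 1 →
  (σ < ‖∇ d x‖ → fd l d x * ‖∇ b x‖ ^ 2 ≤ c ∧ (|d x| ≤ T * l → b x = 1 ∧ ∇ b x = 0)) →
  (∀ i, x ∈ W σ d s (p i) → |d x| ≤ T * l → σ < ‖∇ d x‖) →
  ξ x = ∑ i, (W σ d s (p i)).indicator (fun x => G i x * b x) x →
  ∇ ξ x = ∑ i, (W σ d s (p i)).indicator (∇ fun x => G i x * b x) x →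
  sz l σ ϑ d ξ x ≤ ∑ i, ∑ j, Fp l T σ ϑ d s (p i) (p j) (G i) (G j) x + c' * ∑ i, Ft l T σ d s (p i) x

/-- the stability of the system of discs -/
def STK : Prop := ∀ (m k : ℕ) (K C B : ℝ), ∀ ε > (0 : ℝ), ∃ M : ℝ, ∃ δ > (0 : ℝ), ∃ l₀ > (0 : ℝ),
  ∀ (l R η : ℝ) (d : E (m + 1) → ℝ) (s : Sh m) (p : Fin k → E (m + 1)) (G : Fin k → E (m + 1) → ℝ),
  Ac K l R d → l ≤ l₀ → Tl M δ l R d → (∀ i, Hy K l R C η d s (p i) ∧ Tst B (p i) (G i)) →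
  -ε ≤ s.Q p G

def rSTK : Prop := BALL → CONT → PROF → WOP → REG → CUT → COL → PAIR → TAIL → PW → STK

/-- the curvature estimate for the scaled phase -/
def LEAFE (m : ℕ) : Prop := ∀ K : ℝ, ∀ ε > (0 : ℝ), ∃ R M : ℝ, ∃ δ > (0 : ℝ), ∀ (l : ℝ)
  (d : E (m + 1) → ℝ), l ≤ δ → Ac K l R d → Tl M δ l R d → d 0 = 0 → ‖Hs d 0‖ ≤ ε

def rLEAFE : Prop := BALL → FORM → OPN → MC → HOL → FIN → STK → ∀ m, FLAT m → LEAFE m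

end Vale.Agent.P134G
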