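import Vale.Agent.P134G.Defs

/-!
# P134G: the profile exists
-/

open MeasureTheory Set Filter Topology
open scoped ContDiff

noncomputable section

namespace Vale.Agent.P134G

namespace Prof

/-- the slope -/
def g (σ t : ℝ) : ℝ := Real.smoothTransition ((t - σ) / (2 * σ))

/-- the profile -/
def th (σ t : ℝ) : ℝ := ∫ s in (0 : ℝ)..t, g σ s

variable {σ : ℝ}

theorem g_sm : ContDiff ℝ 1 (g σ) :=
  Real.smoothTransition.contDiff.comp ((contDiff_id.sub contDiff_const).div_const _)

theorem g_nn (t : ℝ) : 0 ≤ g σ t := Real.smoothTransition.nonneg _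

theorem g_le (t : ℝ) : g σ t ≤ 1 := Real.smoothTransition.le_one _

theorem g_zero (h : 0 < σ) {t : ℝ} (ht : t ≤ σ) : g σ t = 0 :=
  Real.smoothTransition.zero_of_nonpos (div_nonpos_of_nonpos_of_nonneg (by linarith) (by linarith))

theorem g_one (h : 0 < σ) {t : ℝ} (ht : 3 * σ ≤ t) : g σ t = 1 :=
  Real.smoothTransition.one_of_one_le ((one_le_div (by linarith)).2 (by linarith))

theorem g_mono (h : 0 < σ) : Monotone (g σ) := fun a b hab =>
  Real.smoothTransition.monotone (div_le_div_of_nonneg_right (by linarith) (by linarith))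

theorem dv (t : ℝ) : HasDerivAt (th σ) (g σ t) t :=
  (g_sm.continuous.integral_hasStrictDerivAt 0 t).hasDerivAt

theorem der : deriv (th σ) = g σ := funext fun t => (dv t).deriv

theorem th_zero (h : 0 < σ) {t : ℝ} (ht : t ≤ σ) : th σ t = 0 := by
  rw [th, intervalIntegral.integral_congr (g := fun _ => (0 : ℝ)) fun s hs =>
    g_zero h (hs.2.trans (max_le h.le ht))]
  simp

theorem th_nn (h : 0 < σ) (t : ℝ) : 0 ≤ th σ t := by
  rcases le_total t 0 with ht | ht
  · rw [th_zero h (ht.trans h.le)]
  · exact intervalIntegral.integral_nonneg ht fun s _ => g_nn s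

theorem th_le {t : ℝ} (ht : 0 ≤ t) : th σ t ≤ t := by
  have := intervalIntegral.integral_mono_on (μ := volume) ht
    (g_sm (σ := σ).continuous.intervalIntegrable 0 t)
    ((continuous_const (y := (1 : ℝ))).intervalIntegrable 0 t) fun s _ => g_le s
  simpa [th] using this

theorem th_ge (h : 0 < σ) {t : ℝ} (ht : 3 * σ ≤ t) : t - 3 * σ ≤ th σ t := by
  have h1 : th σ t = th σ (3 * σ) + ∫ s in (3 * σ)..t, g σ s :=
    (intervalIntegral.integral_add_adjacent_intervals (g_sm.continuous.intervalIntegrable _ _)
      (g_sm.continuous.intervalIntegrable _ _)).symm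
  rw [intervalIntegral.integral_congr (g := fun _ => (1 : ℝ)) fun s hs =>
    g_one h ((le_min le_rfl ht).trans hs.1)] at h1
  have := th_nn h (3 * σ)
  simp only [intervalIntegral.integral_const, smul_eq_mul, mul_one] at h1
  linarith

end Prof

open Prof in
theorem prof : PROF := fun σ h h1 => by
  refine ⟨th σ, h, h1, ?_, fun t => th_zero h, th_nn h, fun t => th_le, fun t => ?_,
    fun t ht => ?_, fun t => ?_, fun t ht => ?_⟩
  · rw [show (2 : WithTop ℕ∞) = 1 + 1 from rfl, contDiff_succ_iff_deriv, der]
    exact ⟨fun t => (dv t).differentiableAt, by simp, g_sm⟩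
  · rw [der]
    exact (g_mono h).deriv_nonneg
  · rw [der]
    rcases le_total t (3 * σ) with h3 | h3
    · have := mul_le_mul_of_nonneg_left (g_le (σ := σ) t) ht
      have := th_nn h t
      linarith
    · have := th_ge h h3
      rw [g_one h h3]
      linarith
  · rw [der]
    exact g_nn t
  · rw [der]
    exact g_one h ht

end Vale.Agent.P134G
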