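import Vale.Agent.P134L.Defs

/-!
# P134G: systems of graph discs on a hypersurface (level `k` of the blow-up)
-/

open MeasureTheory Metric Set Filter Topology
open scoped ContDiff RealInnerProductSpace Gradient

noncomputable section

namespace Vale.Agent.P134G

open Vale.Agent.P134L (E BERN)

/-- the basis -/
abbrev ee {n : ℕ} (i : Fin n) : E n := EuclideanSpace.single i 1

variable {m : ℕ}

/-- second partial derivatives -/
def d2 (h : E m → ℝ) (y : E m) (i j : Fin m) : ℝ := fderiv ℝ (fderiv ℝ h) y (ee i) (ee j)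

/-- the area element of a graph -/
def J (h : E m → ℝ) (y : E m) : ℝ := √(1 + ‖∇ h y‖ ^ 2)

/-- the minimal surface operator -/
def mse (h : E m → ℝ) (y : E m) : ℝ :=
  ∑ i, d2 h y i i - (∑ i, ∑ j, ∇ h y i * ∇ h y j * d2 h y i j) / (1 + ‖∇ h y‖ ^ 2)

/-- a set `S` with a normal `N`; through the point `p` passes the graph of `h p` in the frame
`L p`, `N p` -/
structure Sh (m : ℕ) where
  S : Set (E (m + 1))
  N : E (m + 1) → E (m + 1)
  L : E (m + 1) → E m →ₗᵢ[ℝ] E (m + 1)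
  h : E (m + 1) → E m → ℝ

namespace Sh

variable (s : Sh m) (p : E (m + 1))

/-- the parametrisation of the disc of `p` -/
def X (y : E m) : E (m + 1) := p + s.L p y + s.h p y • s.N p

/-- the disc of `p` -/
def D : Set (E (m + 1)) := s.X p '' ball 0 1

/-- the squared norm of the second fundamental form, in the disc of `p` -/
def A2 (y : E m) : ℝ := ∑ i, ‖fderiv ℝ (fun y => s.N (s.X p y)) y
  ((s.L p).toContinuousLinearMap.adjoint (ee i - s.N (s.X p y) i • s.N (s.X p y)))‖ ^ 2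

/-- the disc of `p` is a smooth flat graph, open in `S`, with Hölder bound `C` and mean
curvature at most `η` -/
structure At (C η : ℝ) : Prop where
  N1 : ‖s.N p‖ = 1
  NL : ∀ y, ⟪s.N p, s.L p y⟫ = 0
  sm : ContDiffOn ℝ ∞ (s.h p) (ball 0 4)
  h0 : s.h p 0 = 0
  d0 : ∇ (s.h p) 0 = 0
  mem : ∀ y ∈ ball (0 : E m) 4, s.X p y ∈ s.S
  nor : ∀ y ∈ ball (0 : E m) 4,
    s.N (s.X p y) = (J (s.h p) y)⁻¹ • (s.N p - s.L p (∇ (s.h p) y))
  opn : ∀ y ∈ ball (0 : E m) 4, s.X p '' ball 0 4 ∈ 𝓝[s.S] s.X p y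
  b1 : ∀ y ∈ ball (0 : E m) 4, ‖∇ (s.h p) y‖ ≤ 1 / 10
  b2 : ∀ y ∈ ball (0 : E m) 4, ‖fderiv ℝ (fderiv ℝ (s.h p)) y‖ ≤ 1 / 10
  hol : ∀ y ∈ ball (0 : E m) 4, ∀ z ∈ ball (0 : E m) 4, ∀ i j,
    |d2 (s.h p) y i j - d2 (s.h p) z i j| ≤ C * √‖y - z‖
  mc : ∀ y ∈ ball (0 : E m) 4, |mse (s.h p) y| ≤ η

/-- all points of `S` in the ball of radius `R` have good discs -/
def Ok (R C η : ℝ) : Prop := ∀ p ∈ s.S, ‖p‖ ≤ R → s.At p C η

/-- the second variation of `∑ b, 1_(D (p b)) G b`, written in pairs; the gradient is the ambient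
one -/
def Q {n : ℕ} (p : Fin n → E (m + 1)) (G : Fin n → E (m + 1) → ℝ) : ℝ :=
  ∑ i, ∑ j, ∫ y in ball (0 : E m) 1, (s.D (p j)).indicator (fun x => ⟪∇ (G i) x, ∇ (G j) x⟫
    - s.A2 (p i) y * (G i x * G j x)) (s.X (p i) y) * J (s.h (p i)) y

end Sh

/-- test functions: bounds `B`, support near `p` -/
structure Tst (B : ℝ) (p : E (m + 1)) (G : E (m + 1) → ℝ) : Prop where
  sm : ContDiff ℝ 2 G
  supp : ∀ x, 1 / 2 ≤ ‖x - p‖ → G x = 0
  b0 : ∀ x, |G x| ≤ B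
  b1 : ∀ x, ‖∇ G x‖ ≤ B
  b2 : ∀ x, ‖fderiv ℝ (∇ G) x‖ ≤ B

/-- a sequence of systems which become minimal and stable -/
structure Seq (s : ℕ → Sh m) (C : ℝ) : Prop where
  zero : ∀ k, 0 ∈ (s k).S
  ok : ∀ R : ℝ, ∀ η > 0, ∀ᶠ k in atTop, (s k).Ok R C η
  st : ∀ (R B : ℝ) (n : ℕ), ∀ ε > 0, ∀ᶠ k in atTop, ∀ (p : Fin n → E (m + 1)) G,
    (∀ i, p i ∈ (s k).S ∧ ‖p i‖ ≤ R ∧ Tst B (p i) (G i)) → -ε ≤ (s k).Q p G

/-- **the curvature estimate** in the form in which the Allen-Cahn side uses it -/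
def FLAT (m : ℕ) : Prop := ∀ (s : ℕ → Sh m) (C : ℝ), Seq s C →
  ∀ i j, Tendsto (fun k => d2 ((s k).h 0) 0 i j) atTop (𝓝 0)

/-- the limit leaf -/
def ULIM (m : ℕ) : Prop := BERN m → FLAT m

end Vale.Agent.P134G
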