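import Vale.Agent.P134G.Defs
import Vale.Agent.P134B.Spec

/-!
# P134G: the scaling
-/

open MeasureTheory Metric Set Filter Topology
open scoped ContDiff RealInnerProductSpace Gradient

noncomputable section

namespace Vale.Agent.P134G

open Vale.Agent.P134L (E BERN)
open Vale.Agent.P134B (Ok Stab Gd ps ff pp SS qq EE GR TL)

variable {n : ℕ}

/-- the scaled phase -/
def sc (u : E n → ℝ) (z : E n) (l : ℝ) (x : E n) : ℝ := l * ps u (z + l⁻¹ • x)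

/-- **SZ1**: the inequality of Sternberg and Zumbrun with a convex profile -/
def SZ1 : Prop := CONT → ∀ (n : ℕ) (C σ : ℝ) (ϑ : ℝ → ℝ) (u ξ : E n → ℝ), Ok C u → Stab u →
  Pf σ ϑ → ContDiff ℝ 1 ξ → HasCompactSupport ξ →
  0 ≤ ∫ x, (ff u x ^ 2 * (ϑ ‖pp u x‖ ^ 2 * ‖∇ ξ x‖ ^ 2 - wa ϑ (ps u) x * ξ x ^ 2) +
    5 * σ * ff u x * EE u x * ξ x ^ 2)

/-- the derivatives of the scaled phase -/
structure Sc (u : E n → ℝ) (z : E n) (l : ℝ) (x : E n) : Prop where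
  g : ∇ (sc u z l) x = pp u (z + l⁻¹ • x)
  h : Hs (sc u z l) x = l⁻¹ • SS u (z + l⁻¹ • x)
  h' : fderiv ℝ (Hs (sc u z l)) x = (l⁻¹ ^ 2) • fderiv ℝ (SS u) (z + l⁻¹ • x)
  q : qd (sc u z l) x = qq u (z + l⁻¹ • x)
  q' : ∇ (qd (sc u z l)) x = l⁻¹ • ∇ (qq u) (z + l⁻¹ • x)
  q'' : Hs (qd (sc u z l)) x = (l⁻¹ ^ 2) • fderiv ℝ (∇ (qq u)) (z + l⁻¹ • x)
  v : gg (sc u z l x / l) = u (z + l⁻¹ • x)
  f : fd l (sc u z l) x = ff u (z + l⁻¹ • x)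
  a : an (sc u z l) x = l⁻¹ ^ 2 * an (ps u) (z + l⁻¹ • x)

/-- **SCL** -/
def SCL : Prop := ∀ (n : ℕ) (C l : ℝ) (u : E n → ℝ) (z : E n), Ok C u → 0 < l →
  ContDiff ℝ ∞ (sc u z l) ∧ ∀ x, Sc u z l x

/-- **BR2**: the scaled stability inequality -/
def BR2 : Prop := CONT → SZ1 → SCL → ∀ (n : ℕ) (C ε l R σ : ℝ) (ϑ : ℝ → ℝ) (u ξ : E n → ℝ)
  (z : E n), Ok C u → Stab u → 0 < ε → ε ≤ l → Gd u ε z ((R + 2) / ε) → Pf σ ϑ → ContDiff ℝ 1 ξ →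
  (∀ x, R ≤ ‖x‖ → ξ x = 0) → 0 ≤ ∫ x, sz l σ ϑ (sc u z l) ξ x

/-- the scaled phase has all properties -/
def BR : Prop := ∀ (m : ℕ) (C R M : ℝ), ∀ δ > (0 : ℝ), ∃ ε₀ > (0 : ℝ), ∀ (u : E (m + 1) → ℝ) (ε : ℝ)
  (z : E (m + 1)), Ok C u → Stab u → 0 < ε → ε ≤ ε₀ → Gd u ε z ((R + 2) / ε) →
  Ac C (2000 * C * ε) R (sc u z (2000 * C * ε)) ∧ Tl M δ (2000 * C * ε) R (sc u z (2000 * C * ε))

def rBR : Prop := CONT → SZ1 → SCL → BR2 → GR → TL → BR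

/-- **LEAF**: the curvature estimate -/
def LEAF (m : ℕ) : Prop := ∀ C : ℝ, ∀ l₀ > (0 : ℝ), ∃ R₀ : ℝ, ∃ ε₀ > (0 : ℝ),
  ∀ (u : E (m + 1) → ℝ) (ε : ℝ) (z : E (m + 1)), Ok C u → Stab u → 0 < ε → ε ≤ ε₀ →
  Gd u ε z (R₀ / ε) → u z = 0 → ‖SS u z‖ ≤ l₀ * ε

theorem leaf_of (scl : SCL) (br : BR) {m : ℕ} (h : LEAFE m) : LEAF m := by
  intro C l₀ hl₀
  by_cases hC : 1 ≤ C
  swap
  · exact ⟨0, 1, one_pos, fun u ε z ok => absurd ok.C1 hC⟩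
  have C0 : 0 < 2000 * C := by linarith
  obtain ⟨R, M, δ, hδ, H⟩ := h C (l₀ / (2000 * C)) (by positivity)
  obtain ⟨ε₀, h0, B⟩ := br m C R M δ hδ
  refine ⟨R + 2, min ε₀ (δ / (2000 * C)), by positivity, fun u ε z ok st e0 e1 gd hz => ?_⟩
  have l0 : 0 < 2000 * C * ε := by positivity
  obtain ⟨a, t⟩ := B u ε z ok st e0 (e1.trans (min_le_left _ _)) gd
  have s0 := (scl _ C _ u z ok l0).2 0
  have e2 : 2000 * C * ε ≤ δ := by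
    have := e1.trans (min_le_right _ _)
    rwa [le_div_iff₀' C0] at this
  have := H _ _ e2 a t (by simp [sc, ps, hz])
  rw [s0.h, smul_zero, add_zero, norm_smul, norm_inv, Real.norm_of_nonneg l0.le,
    inv_mul_le_iff₀ l0] at this
  calc _ ≤ _ := this
    _ = l₀ * ε := by field_simp

end Vale.Agent.P134G
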